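import Vale.Agent.P092.H259.Mx.Red
import Vale.Agent.P092.H678.O.End

/-!
P092, block PG: the statement of the product glue.
-/

set_option linter.all false

namespace Vale.Agent.P092PG

open Vale.Agent.P092

/-- **The product glue**: lattices of finite products of places, each with the core statement. -/
def PGS : Prop :=
  ∀ (Γ I : Type) [Group Γ] [Fintype I] (E : I → Type) [∀ i, Group (E i)]
    [∀ i, TopologicalSpace (E i)] (q : Γ →* ∀ i, E i), SR.St.ICC Γ → UN.PropT Γ →
    (∀ i, H259.Mx.Bpl (E i)) → (∀ i, H678.OV.OverStmt (E i)) → Function.Injective q →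
    H515.St.IsLattice q.range → SR.St.SuperAll Γ

end Vale.Agent.P092PG
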