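import Vale.Agent.P092PG.Grp
import Vale.Agent.P092PG.Stmt

/-!
P092, product glue (helper24): **lattices in finite products of places with the core statement.**
-/

set_option linter.all false

open scoped InnerProductSpace
open Filter Topology

namespace Vale.Agent.P092PG

open Vale.Agent.P092 Vale.Agent.P092.H678.OV Vale.Agent.P092.H333.Amp
open Vale.Agent.P092.QT.NE (ev)
open Vale.Agent.P092.VR (Ov IsRad jm jm_fin jm_normal inc inc_inj inc_cont inc_open)
open Vale.Agent.P092.SR.St (ICC SuperAll)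
open Vale.Agent.P092.H333.V
open Vale.Agent.P092.H35.Mx (MinC)

section mono

variable {ℋ Γ : Type} [NormedAddCommGroup ℋ] [InnerProductSpace ℂ ℋ] [CompleteSpace ℋ] [Group Γ]
  {V A B : Γ →* (ℋ →L[ℂ] ℋ)} {P Q D P' Q' D' : Set Γ}

theorem ib_mono {f : ℋ →L[ℂ] ℋ} (h : IB (fun t : D => A t) f) (hD : D' ⊆ D) :
    IB (fun t : D' => A t) f := h.comp (Set.inclusion hD) (Set.inclusion_injective hD) fun _ => rfl

theorem RelX.mono (h : RelX P Q D V A B) (hP : P' ⊆ P) (hQ : Q' ⊆ Q) (hD : D' ⊆ D) :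
    RelX P' Q' D' V A B := by
  obtain ⟨f, f0, f1, f2, f3, f4⟩ := h
  exact ⟨f, f0, fun x hx => f1 x (hP hx), fun x hx => f2 x (hQ hx), f3, ib_mono f4 hD⟩

theorem CalD.mono {𝒞 : Set (ℋ →L[ℂ] ℋ)} (h : CalD P D V A B 𝒞) (hP : P' ⊆ P) (hD : D' ⊆ D) :
    CalD P' D' V A B 𝒞 :=
  ⟨h.sa, h.com, h.mul, h.cV, h.cA, h.cB, fun T hT x hx => h.kV T hT x (hP hx),
    fun T hT x hx => h.kA T hT x (hP hx), fun T hT x hx => h.kB T hT x (hP hx),
    fun v hv => (h.nA v hv).imp fun T k => ⟨k.1, ib_mono k.2.1 hD, k.2.2⟩,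
    fun v hv => (h.nB v hv).imp fun T k => ⟨k.1, ib_mono k.2.1 hD, k.2.2⟩⟩

end mono

/-- **The places are dense or discrete.** -/
theorem superAll_sub {I : Type} [Fintype I] {M E : I → Type} [∀ i, Group (M i)]
    [∀ i, TopologicalSpace (M i)] [∀ i, Group (E i)] [∀ i, TopologicalSpace (E i)]
    {φ : ∀ i, M i →* E i} {r : I → ℕ} (h : ∀ i, Ov (φ i) (r i)) (hm : ∀ i, MinC (E i))
    (Γ : Subgroup (∀ i, E i)) (hl : H515.St.IsLattice Γ) (hicc : ICC Γ)
    (hdd : ∀ i, ¬ Ds Γ i → DenseRange (ev Γ i)) (hO : ∀ i, Ds Γ i → OverStmt (E i)) :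
    SuperAll Γ := by
  classical
  by_cases h0 : ∀ i, ¬ Ds Γ i
  · exact VR.superAll_ov h Γ hl (fun i => hdd i (h0 i)) hicc
  obtain ⟨j₀, -⟩ := not_forall.1 h0
  choose R hR using fun i => exists_rad (h i)
  haveI := fun i => (hR i).normal
  haveI : Infinite Γ := by
    by_contra h1
    haveI := not_infinite_iff_finite.1 h1
    exact H560.Mx.inf_fam h hR (ev Γ) (lat_ev hl) j₀ (Set.finite_range _)
  refine superAll_sym h hR (ev Γ) ev_inj (lat_ev hl) hicc fun ℋ _ _ _ V A B hs sy e₀ => ?_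
  obtain ⟨e₁, e₂, -, e₃, -⟩ := sy.all
    (fun X Y Z => ∀ i, DenseRange (ev Γ i) → ErgC (pq R Γ i) X Y Z)
    (fun _ _ _ _ _ _ ⟨σ, U, U', u, u1, u2, u3⟩ e i hi => ergC_au u u1 u2 u3 (e i hi)) e₀
  haveI := jm_fin (Γ := Γ) fun i => (h i).fin
  haveI := jm_normal (Γ := Γ) fun i => (h i).normal
  obtain ⟨pl, p1, p2⟩ : ∃ pl : I → Option {j // Ds Γ j}, (∀ j : {j // Ds Γ j}, pl j = some j) ∧
      ∀ i, ¬ Ds Γ i → pl i = none :=
    ⟨fun i => if hi : Ds Γ i then some ⟨i, hi⟩ else none, fun j => dif_pos j.2,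
      fun i hi => dif_neg hi⟩
  have p3 : ∀ (j : {j // Ds Γ j}) i, pl i = pl j → i = j := fun j i e => by
    by_cases hi : Ds Γ i
    · rw [p1 j, p1 ⟨i, hi⟩] at e
      exact congrArg Subtype.val (Option.some.inj e)
    · rw [p1 j, p2 i hi] at e
      exact absurd e (by simp)
  have p4 : ∀ c : Option {j // Ds Γ j}, c ≠ none → ∃ j : {j // Ds Γ j}, c = pl j := fun c hc => by
    obtain ⟨j, rfl⟩ := Option.ne_none_iff_exists'.1 hc
    exact ⟨j, (p1 j).symm⟩
  haveI : (G0 (jm φ Γ).range pl).FiniteIndex := G0_fi none fun c hc => by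
    obtain ⟨j, rfl⟩ := p4 c hc
    exact sup_fi h hR hm hl hdd j.2 (p3 j)
  refine over_mid hs sy (G0 (jm φ Γ).range pl) dec_Sq (fun γ A s hs' => ⟨⟨γ * s * γ⁻¹,
    G0_normal.conj_mem _ s.2 γ⟩, (Tq_normal _ pl A).conj_mem _ hs' γ, rfl⟩)
    (T := fun A => Tq (jm φ Γ).range pl A) (fun A x hx => hx) {c | c ≠ none} (fun c hc => ?_)
    (fun c hc => ?_) fun c hc => ?_
  · obtain ⟨j, rfl⟩ := p4 c hc
    obtain ⟨d, hd, k⟩ := est h hR hl hicc hdd hs e₂ j.2
    refine ⟨pl d, ?_, k.mono (fun x hx => ⟨hx.1 j fun h => h rfl, hx.2⟩)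
      (fun x hx => hx.1 d fun h => h rfl) fun x hx i hi => hx.1 i fun e => hi (p3 ⟨d, hd⟩ i e)⟩
    rw [p1 ⟨d, hd⟩]
    exact Option.some_ne_none _
  · obtain rfl : c = none := not_not.1 hc
    obtain ⟨𝒞, k⟩ := cal h hR hl hicc hdd hs e₀ e₁ e₂ e₃
    refine ⟨𝒞, k.mono (fun x hx i hi => hx.1 i fun h => h (p2 i hi)) fun x hx i hi => hx.1 i ?_⟩
    rw [p1 ⟨i, hi⟩]
    exact Option.some_ne_none _
  · obtain ⟨j, rfl⟩ := p4 c hc
    obtain ⟨f, f1, f2, f3⟩ := comp_lat (Δ := (jm φ Γ).range) h hR hl j.2 (p3 j)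
    have k := dec_Sq.icc (icc_fi hicc (G0 (jm φ Γ).range pl)) {pl j}
    exact ⟨f3, k, fun K _ _ _ V R₁ R₂ hS => over_of_stmt (hO j j.2) k f f1 f2 hS⟩

/-- **The product glue.** -/
theorem superAll_pg {Γ I : Type} [Group Γ] [Fintype I] {E : I → Type} [∀ i, Group (E i)]
    [∀ i, TopologicalSpace (E i)] (q : Γ →* ∀ i, E i) (hicc : ICC Γ)
    (hB : ∀ i, H259.Mx.Bpl (E i))
    (hO : ∀ i, DiscreteTopology (Set.range fun g => q g i) → OverStmt (E i))
    (hi : Function.Injective q) (hl : H515.St.IsLattice q.range) : SuperAll Γ := by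
  classical
  choose M gM tM φ r h using fun i => (hB i).ov
  haveI b0 := fun i => (h i).top
  haveI b1 := fun i => Ov.lc (h i)
  haveI b2 := fun i => Ov.sc (h i)
  haveI b3 := fun i => Ov.t2 (h i)
  have hν : ∀ i (H : Subgroup (E i)), (∀ g, q g i ∈ H) → H213.Nd.Cov H := fun i H hH =>
    Nd.push (Pi.evalMonoidHom E i) (continuous_apply i) (fun x =>
      ⟨Function.update 1 i x, Function.update_self i x 1⟩) q.range H (by
      rintro _ ⟨g, rfl⟩
      exact hH g) hl.covol
  have key : ∀ i, ∃ H : Subgroup (E i), IsOpen (H : Set (E i)) ∧ (∀ g, q g i ∈ H) ∧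
      (¬ DiscreteTopology (Set.range fun g => q g i) →
        (H : Set (E i)) ⊆ closure (Set.range fun g => q g i)) := fun i => by
    by_cases hd : DiscreteTopology (Set.range fun g => q g i)
    · exact ⟨⊤, isOpen_univ, fun _ => trivial, fun h => absurd hd h⟩
    have h1 : ∀ g, q g i ∈ ((Pi.evalMonoidHom E i).comp q).range.topologicalClosure := fun g =>
      Subgroup.le_topologicalClosure _ ⟨g, rfl⟩
    refine ⟨_, (hB i).nd _ (Subgroup.isClosed_topologicalClosure _) (hν i _ h1) fun h2 => hd ?_,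
      h1, fun _ => subset_rfl⟩
    have h3 : ∀ x : ↥(Set.range fun g => q g i),
        (x : E i) ∈ ((Pi.evalMonoidHom E i).comp q).range.topologicalClosure := by
      rintro ⟨_, g, rfl⟩
      exact h1 g
    exact DiscreteTopology.of_continuous_injective (f := fun x => (⟨x.1, h3 x⟩ :
      ((Pi.evalMonoidHom E i).comp q).range.topologicalClosure))
      (Continuous.subtype_mk continuous_subtype_val h3) fun x y e =>
        Subtype.ext (congrArg (fun z : ((Pi.evalMonoidHom E i).comp q).range.topologicalClosure =>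
          (z : E i)) e)
  choose H ho hq hd using key
  have hf : ∀ i, (H i).FiniteIndex := fun i => Nd.fin_index (H i) (ho i) (hν i _ (hq i))
  have hx : ∀ i x, φ i x ∈ H i := fun i => Nd.range_le (h i) (H i) (ho i) (hf i)
  obtain ⟨q', hq'⟩ : ∃ q' : Γ →* ∀ i, H i, ∀ g i, (q' g i : E i) = q g i :=
    ⟨MonoidHom.pi fun i => ((Pi.evalMonoidHom E i).comp q).codRestrict (H i) (hq i), fun _ _ => rfl⟩
  have hi' : Function.Injective q' := fun a b e => hi (funext fun i => by rw [← hq', e, hq'])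
  have hr : q'.range = q.range.comap (inc fun i => (H i).subtype) := by
    ext x
    constructor
    · rintro ⟨g, rfl⟩
      exact ⟨g, funext fun i => (hq' g i).symm⟩
    · rintro ⟨g, hg⟩
      exact ⟨g, funext fun i => Subtype.ext ((hq' g i).trans (congrFun hg i))⟩
  have hl' : H515.St.IsLattice q'.range := by
    rw [hr]
    have h1 := VR.lat_comap (inc fun i => (H i).subtype) (inc_inj fun i => Subtype.val_injective)
      (continuous_pi fun i => continuous_subtype_val.comp (continuous_apply i)) (by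
        refine IsOpenMap.piMap (f := fun i => ((H i).subtype : H i → E i))
          (fun i => (ho i).isOpenMap_subtype_val) ?_
        rw [Filter.cofinite_eq_bot]
        exact Filter.eventually_bot) q.range ⟨hl.disc, hl.covol⟩
    exact ⟨h1.disc, h1.covol⟩
  have e1 : ∀ i, Subtype.val '' Set.range (ev q'.range i) = Set.range fun g => q g i := fun i => by
    ext x
    constructor
    · rintro ⟨_, ⟨⟨_, g, rfl⟩, rfl⟩, rfl⟩
      exact ⟨g, (hq' g i).symm⟩
    · rintro ⟨g, rfl⟩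
      exact ⟨q' g i, ⟨⟨q' g, g, rfl⟩, rfl⟩, hq' g i⟩
  have e2 : ∀ i, Ds q'.range i ↔ DiscreteTopology (Set.range fun g => q g i) := fun i => by
    rw [← e1]
    refine ⟨fun h1 => H259.Mx.discrete_image IsEmbedding.subtypeVal h1, fun h1 => ?_⟩
    exact DiscreteTopology.of_continuous_injective (f := fun x : Set.range (ev q'.range i) =>
      (⟨x.1.1, x.1, x.2, rfl⟩ : Subtype.val '' Set.range (ev q'.range i)))
      (Continuous.subtype_mk (continuous_subtype_val.comp continuous_subtype_val) _) fun x y e =>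
        Subtype.ext (Subtype.ext (congrArg
          (fun z : Subtype.val '' Set.range (ev q'.range i) => (z : E i)) e))
  refine H58.superAll_equiv (MonoidHom.ofInjective hi') (superAll_sub
    (fun i => Nd.ov_sub (h i) (H i) (hx i))
    (fun i => (hB i).mc.of_injective (H i).subtype Subtype.val_injective) q'.range hl'
    (H133.icc_equiv (MonoidHom.ofInjective hi') hicc) (fun i h1 => ?_) fun i h1 => ?_)
  · change Dense (Set.range (ev q'.range i))
    rw [Subtype.dense_iff, e1]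
    exact hd i fun h2 => h1 ((e2 i).2 h2)
  · intro Λ hΛ k ℋ _ _ _ V R₁ R₂ hS
    refine over_of_stmt (hO i ((e2 i).1 h1)) k ((H i).subtype.comp Λ.subtype)
      (Subtype.val_injective.comp Subtype.val_injective) ?_ hS
    rw [MonoidHom.range_comp, Subgroup.range_subtype]
    exact H259.Fk.lat_proper (H i).subtype
      ((H i).isClosed_of_isOpen (ho i)).isClosedEmbedding_subtypeVal.isProperMap
      (by rw [Subgroup.range_subtype]; exact hf i) hΛ

theorem pgs : PGS := fun _ _ _ _ _ _ _ q hicc _ hB hO hi hl =>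
  superAll_pg q hicc hB (fun i _ => hO i) hi hl

end Vale.Agent.P092PG
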