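import Vale.Agent.P092PG.Glue
import Vale.Agent.P092.H160.Eig

/-!
P092, product glue (helper24): passage to an irreducible part; overlap from the atoms of a commuting
family.
-/

set_option linter.all false

open scoped InnerProductSpace ENNReal
open Filter Topology ContinuousLinearMap

namespace Vale.Agent.P092PG

open Vale.Agent.P092.H421.Hs (Pf Frq trq enn_congr enn_sq')
open Vale.Agent.P092.H962.Eq (adj_mul' adj_adj' adj_mul_self_ne adj_starProjection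
  sq_starProjection comm_starProjection sum_norm_le)
open Vale.Agent.P092.H678.OV
open Vale.Agent.P092EN (prd prd_apply prd_adj)

variable {ℋ L : Type} [NormedAddCommGroup ℋ] [InnerProductSpace ℂ ℋ] [CompleteSpace ℋ]
  [NormedAddCommGroup L] [InnerProductSpace ℂ L] [CompleteSpace L]

section eig

variable {P H Q : Type} [Group P] [Group H] {κ : P →* (ℋ →L[ℂ] ℋ)} {R : H →* (ℋ →L[ℂ] ℋ)}
  {e : Q → ℋ} {g T : ℋ →L[ℂ] ℋ} {ξ : ℋ}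

theorem MinP.eq (h : MinP κ g) (hξ : g ξ = ξ) (h1 : ‖ξ‖ = 1) {a : ℋ →L[ℂ] ℋ} (ha : Cr κ a) :
    g * a * g = ⟪ξ, a ξ⟫_ℂ • g := by
  refine ContinuousLinearMap.ext fun v => ext_inner_left ℂ fun u => ?_
  have hg : ∀ v, g (g v) = g v := fun v => ap h.sq v
  change ⟪u, g (a (g v))⟫_ℂ = ⟪u, ⟪ξ, a ξ⟫_ℂ • g v⟫_ℂ
  rw [← h.ii, h.inner hξ h1 ha (hg u) (hg v), inner_smul_right, h.ii, hg]

theorem hs_orb (hκ : Un κ) (hR : Un R) (he : Frq R e) (hc : ∀ a, Cr κ a → Cr R a) (h : MinP κ g)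
    (hξ : g ξ = ξ) (h1 : ‖ξ‖ = 1) (hT : Cr κ T) (hTa : adjoint T = T) (hf : trq e T < ∞) :
    ∃ C : ℝ, ∀ (n : ℕ) (ζ : Fin n → ℋ), Orthonormal ℂ ζ → (∀ i, ζ i ∈ orb κ ξ) →
      ∑ i, ‖T (ζ i)‖ ^ 2 ≤ C := by
  have t0 : trq e g ≠ 0 := fun h0 => h.ne (trq_zero he (hc g h.cr) h0)
  refine ⟨(trq e T / trq e g).toReal, fun n ζ hζ hm => ?_⟩
  choose b b1 b2 using hm
  have k1 : ∀ {a a' : ℋ →L[ℂ] ℋ}, Cr κ a → Cr κ a' →
      adjoint (a * g) * (a' * g) = ⟪a ξ, a' ξ⟫_ℂ • g := fun {a a'} ha ha' => by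
    have h2 := h.eq hξ h1 ((ha.adj hκ).mul ha')
    have e1 : ⟪ξ, (adjoint a * a') ξ⟫_ℂ = ⟪a ξ, a' ξ⟫_ℂ := adjoint_inner_right a ξ (a' ξ)
    rw [e1] at h2
    rw [adj_mul', h.adj, ← h2]
    simp only [mul_assoc]
  have k2 : ∀ x, ∑ i, ‖adjoint (b i * g) x‖ ^ 2 ≤ ‖x‖ ^ 2 := fun x =>
    sum_norm_le (u := fun i => adjoint (b i * g)) (fun i => by
      rw [adj_adj', k1 (b1 i) (b1 i), b2, inner_self_eq_norm_sq_to_K, hζ.1 i, adj_mul', h.adj]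
      simp only [Complex.coe_algebraMap, Complex.ofReal_one, one_pow, one_smul]
      rw [← mul_assoc, h.sq]) (fun i j hij => by
      rw [adj_adj', k1 (b1 i) (b1 j), b2, b2, hζ.2 hij, zero_smul]) Finset.univ x
  have k3 : ∀ i, trq e (T * (b i * g)) = ‖T (ζ i)‖ₑ ^ 2 * trq e g := fun i => by
    rw [trq, trq, ← ENNReal.tsum_mul_left]
    refine tsum_congr fun q => ?_
    have h2 := k1 (hT.mul (b1 i)) (hT.mul (b1 i))
    have h3 : ⟪(T * b i * g) (e q), (T * b i * g) (e q)⟫_ℂ =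
        ⟪T (ζ i), T (ζ i)⟫_ℂ * ⟪g (e q), g (e q)⟫_ℂ := by
      rw [← adjoint_inner_right]
      change ⟪e q, (adjoint (T * b i * g) * (T * b i * g)) (e q)⟫_ℂ = _
      rw [h2, ContinuousLinearMap.smul_apply, inner_smul_right, h.ii,
        show g (g (e q)) = g (e q) from ap h.sq _, ← b2]
      rfl
    rw [inner_self_eq_norm_sq_to_K, inner_self_eq_norm_sq_to_K, inner_self_eq_norm_sq_to_K] at h3
    have h4 : ‖(T * b i * g) (e q)‖ ^ 2 = ‖T (ζ i)‖ ^ 2 * ‖g (e q)‖ ^ 2 := by exact_mod_cast h3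
    rw [← mul_assoc, enn_sq', h4, ENNReal.ofReal_mul (sq_nonneg _), ← enn_sq', ← enn_sq']
  have k4 : ∑ i, trq e (T * (b i * g)) ≤ trq e T := by
    have e1 : ∀ i, trq e (T * (b i * g)) = ∑' q, ‖adjoint (b i * g) (T (e q))‖ₑ ^ 2 := fun i => by
      rw [← trq_adj hR he (hc _ (hT.mul ((b1 i).mul h.cr))), adj_mul', hTa]
      rfl
    simp only [e1]
    rw [← Summable.tsum_finsetSum fun _ _ => ENNReal.summable, trq]
    refine ENNReal.tsum_le_tsum fun q => ?_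
    simp only [enn_sq']
    rw [← ENNReal.ofReal_sum_of_nonneg fun _ _ => sq_nonneg _]
    exact ENNReal.ofReal_le_ofReal (k2 _)
  simp only [k3] at k4
  rw [← Finset.sum_mul, ← ENNReal.le_div_iff_mul_le (Or.inl t0) (Or.inr hf.ne)] at k4
  have k5 := ENNReal.toReal_mono (ENNReal.div_ne_top hf.ne t0) k4
  rw [ENNReal.toReal_sum fun _ _ => esq_ne _] at k5
  simpa only [ENNReal.toReal_pow, toReal_enorm] using k5

theorem fin_eig (hκ : Un κ) (hR : Un R) (he : Frq R e) (hc : ∀ a, Cr κ a → Cr R a) (h : MinP κ g)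
    (hξ : g ξ = ξ) (h1 : ‖ξ‖ = 1) (hT : Cr κ T) (hTa : adjoint T = T) (hf : trq e T < ∞) :
    (∀ c : ℂ, c ≠ 0 → FiniteDimensional ℂ (orb κ ξ ⊓ eig T c : Submodule ℂ ℋ)) ∧
      (T ξ ≠ 0 → ∃ c : ℂ, c ≠ 0 ∧ orb κ ξ ⊓ eig T c ≠ ⊥) := by
  haveI : CompleteSpace (orb κ ξ) := (h.orb_closed hκ hξ h1).completeSpace_coe
  obtain ⟨C, hC⟩ := hs_orb hκ hR he hc h hξ h1 hT hTa hf
  obtain ⟨T', hT'⟩ : ∃ T' : orb κ ξ →L[ℂ] orb κ ξ, ∀ v, (T' v : ℋ) = T v :=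
    ⟨(T ∘L (orb κ ξ).subtypeL).codRestrict _ fun v => orb_map hT v.2, fun v => rfl⟩
  have ha : adjoint T' = T' := by
    symm
    rw [ContinuousLinearMap.eq_adjoint_iff]
    intro u v
    change ⟪(T' u : ℋ), (v : ℋ)⟫_ℂ = ⟪(u : ℋ), (T' v : ℋ)⟫_ℂ
    rw [hT', hT', ← adjoint_inner_right, hTa]
  have hcp : IsCompactOperator T' := P092.H866.compact_of_sums T' C fun n ζ hζ => by
    have h2 := hC n (fun i => ζ i) ((orb κ ξ).subtypeₗᵢ.orthonormal_comp_iff.2 hζ) fun i => (ζ i).2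
    simp only [← hT'] at h2
    exact h2
  have hmap : ∀ c, orb κ ξ ⊓ eig T c = (eig T' c).map (orb κ ξ).subtype := fun c => by
    ext v
    constructor
    · rintro ⟨h2, h3⟩
      exact ⟨⟨v, h2⟩, mem_eig.2 (Subtype.ext (by rw [hT']; exact mem_eig.1 h3)), rfl⟩
    · rintro ⟨w, h2, rfl⟩
      refine ⟨w.2, mem_eig.2 ?_⟩
      have h3 := congrArg Subtype.val (mem_eig.1 h2)
      rwa [hT'] at h3
  refine ⟨fun c hc0 => ?_, fun h0 => ?_⟩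
  · haveI : FiniteDimensional ℂ (eig T' c) :=
      ContinuousLinearMap.finite_dimensional_eigenspace hcp c hc0
    rw [hmap]
    infer_instance
  · obtain ⟨c, c0, c1, -⟩ := exists_eig_cpt (k := T') (fun e0 => h0 (by
      have h2 := hT' ⟨ξ, orb_self⟩
      rw [e0] at h2
      exact h2.symm)) ha hcp
    obtain ⟨w, w1, w0⟩ := (Submodule.ne_bot_iff _).1 c1
    refine ⟨c, c0, (Submodule.ne_bot_iff _).2 ⟨w, ?_, fun e0 => w0 (Subtype.ext e0)⟩⟩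
    rw [hmap]
    exact ⟨w, w1, rfl⟩

end eig

section pas

variable {T : Type} {u : T → (ℋ →L[ℂ] ℋ)} {u' : T → (L →L[ℂ] L)} {W : L →L[ℂ] ℋ} {a : ℋ →L[ℂ] ℋ}

theorem enorm_ap' (a : ℋ →L[ℂ] L) (v : ℋ) : ‖a v‖ₑ ^ 2 ≤ ‖a‖ₑ ^ 2 * ‖v‖ₑ ^ 2 := by
  rw [← mul_pow]
  exact pow_le_pow_left₀ zero_le (ContinuousLinearMap.le_opENorm a v) 2

theorem IB.cmp (h : IB u a) (hu : ∀ t v, W (u' t v) = u t (W v)) :
    IB u' (adjoint W ∘L (a ∘L W)) := by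
  obtain ⟨N, hN, h⟩ := h
  refine ⟨‖adjoint W‖ₑ ^ 2 * (N * ‖W‖ₑ ^ 2),
    ENNReal.mul_ne_top (esq_ne _) (ENNReal.mul_ne_top hN (esq_ne _)), fun η => ?_⟩
  calc ∑' t, ‖(adjoint W ∘L (a ∘L W)) (u' t η)‖ₑ ^ 2
      ≤ ∑' t, ‖adjoint W‖ₑ ^ 2 * ‖a (u t (W η))‖ₑ ^ 2 := ENNReal.tsum_le_tsum fun t => by
        rw [← hu]
        exact enorm_ap' _ _
    _ = ‖adjoint W‖ₑ ^ 2 * ∑' t, ‖a (u t (W η))‖ₑ ^ 2 := ENNReal.tsum_mul_left
    _ ≤ ‖adjoint W‖ₑ ^ 2 * (N * (‖W‖ₑ ^ 2 * ‖η‖ₑ ^ 2)) := by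
        gcongr
        exact (h _).trans (by gcongr; exact enorm_ap' _ _)
    _ = _ := by simp only [mul_assoc]

variable {G : Type} [Group G] {τ : G →* (ℋ →L[ℂ] ℋ)}

theorem cr_down (hW : Iso W τ) (K : Subgroup G) (ha : Cr (rs K τ) a) :
    Cr (rs K (cmp hW)) (adjoint W ∘L (a ∘L W)) := fun s => ContinuousLinearMap.ext fun v => by
  change adjoint W (a (W (cmp hW s v))) = cmp hW s (adjoint W (a (W v)))
  rw [W_cmp, cmp_adjW]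
  exact congrArg _ (ha.ap s _)

theorem cr_up (hW : Iso W τ) (K : Subgroup G) {b : L →L[ℂ] L} (hb : Cr (rs K (cmp hW)) b) :
    Cr (rs K τ) (W ∘L (b ∘L adjoint W)) := fun s => ContinuousLinearMap.ext fun v => by
  change W (b (adjoint W (τ s v))) = τ s (W (b (adjoint W v)))
  rw [← cmp_adjW hW, ← W_cmp hW]
  exact congrArg _ (hb.ap s _)

theorem fm_down (hW : Iso W τ) (K : Subgroup G) (h : FM (rs K τ)) : FM (rs K (cmp hW)) := by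
  obtain ⟨Q, e, he, hm⟩ := h
  have hi : Iso W (rs K τ) := ⟨hW.one, fun g v => hW.cm g v⟩
  refine ⟨Q, _, frq_cmp hi he, lt_of_le_of_lt ?_ (ENNReal.mul_lt_top (esq_ne (adjoint W)).lt_top hm)⟩
  rw [trq, trq, ← ENNReal.tsum_mul_left]
  exact ENNReal.tsum_le_tsum fun q => enorm_ap' _ _

theorem minp_up (hW : Iso W τ) (K : Subgroup G) {g : L →L[ℂ] L} (hg : MinP (rs K (cmp hW)) g) :
    MinP (rs K τ) (W ∘L (g ∘L adjoint W)) := by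
  refine ⟨cr_up hW K hg.cr, ?_, ContinuousLinearMap.ext fun v => ?_, fun h0 => hg.ne ?_,
    fun a ha => ?_⟩
  · rw [adjoint_comp, adjoint_comp, adjoint_adjoint, hg.adj]
    rfl
  · change W (g (adjoint W (W (g (adjoint W v))))) = W (g (adjoint W v))
    rw [hW.one]
    exact congrArg _ (ap hg.sq _)
  · refine ContinuousLinearMap.ext fun v => ?_
    have h1 : W (g (adjoint W (W v))) = 0 := ap h0 (W v)
    rw [hW.one, ← norm_eq_zero, W_norm hW, norm_eq_zero] at h1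
    exact h1
  · obtain ⟨c, hc⟩ := hg.min _ (cr_down hW K ha)
    refine ⟨c, ContinuousLinearMap.ext fun v => ?_⟩
    have h1 : g (adjoint W (a (W (g (adjoint W v))))) = c • g (adjoint W v) := ap hc _
    change W (g (adjoint W (a (W (g (adjoint W v)))))) = c • W (g (adjoint W v))
    rw [h1, map_smul]

theorem rel_down {Ω Z : Type} [Group Ω] {ρ : Ω →* (ℋ →L[ℂ] ℋ)} (hρ : Un ρ) (hi : Irr ρ)
    [Nontrivial L] {S : Set Z → Subgroup G} (hτ : Un τ) (hW : Iso W τ)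
    (hn : ∀ ω B, Nz (rs (S B) τ) (ρ ω)) {z z' : Z} (h : Rel S τ z z') : Rel S (cmp hW) z z' := by
  obtain ⟨f, f0, f1, f2⟩ := h
  obtain ⟨v, hv⟩ := _root_.exists_ne (0 : L)
  obtain ⟨ω, hω⟩ : ∃ ω, f (ρ ω (W v)) ≠ 0 := by
    by_contra hn
    push Not at hn
    exact f0 (irr_vec hρ hi (by rwa [← norm_ne_zero_iff, W_norm hW, norm_ne_zero_iff]) hn)
  have g1 := f1.conj (hn ω _) (rinv' ρ ω) (rinv ρ ω)
  refine ⟨adjoint W ∘L ((adjoint (ρ ω⁻¹ * f * ρ ω) * (ρ ω⁻¹ * f * ρ ω)) ∘L W), fun h0 => hω ?_,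
    cr_down hW _ ((g1.adj (hτ.comp _)).mul g1),
    ((f2.conj (hn ω _) _).left _).cmp fun t v => W_cmp hW _ v⟩
  have h1 : ⟪v, adjoint W (adjoint (ρ ω⁻¹ * f * ρ ω) ((ρ ω⁻¹ * f * ρ ω) (W v)))⟫_ℂ = 0 := by
    have h2 : adjoint W (adjoint (ρ ω⁻¹ * f * ρ ω) ((ρ ω⁻¹ * f * ρ ω) (W v))) = 0 := ap h0 v
    rw [h2, inner_zero_right]
  rw [adjoint_inner_right, adjoint_inner_right, inner_self_eq_zero] at h1
  have h3 : ρ ω⁻¹ (f (ρ ω (W v))) = 0 := h1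
  rwa [← norm_eq_zero, hρ.nrm, norm_eq_zero] at h3

end pas

/-- a commuting family with square integrable members -/
structure AtD {Ω G : Type} [Group Ω] [Group G] (ρ : Ω →* (ℋ →L[ℂ] ℋ)) (τ : G →* (ℋ →L[ℂ] ℋ))
    (P D : Subgroup G) (𝒞 : Set (ℋ →L[ℂ] ℋ)) : Prop where
  sa : ∀ T ∈ 𝒞, adjoint T = T
  com : ∀ T ∈ 𝒞, ∀ T' ∈ 𝒞, T * T' = T' * T
  conj : ∀ ω, ∀ T ∈ 𝒞, ρ ω⁻¹ * T * ρ ω ∈ 𝒞
  cm : ∀ T ∈ 𝒞, Cr (rs P τ) T
  nd : ∀ v, v ≠ 0 → ∃ T ∈ 𝒞, IB (rs D τ) T ∧ T v ≠ 0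

variable {Ω G C : Type} [Group Ω] [Group G] {S : Set C → Subgroup G} {ρ : Ω →* (ℋ →L[ℂ] ℋ)}
  {τ : (Fin 3 → G) →* (ℋ →L[ℂ] ℋ)} {W : L →L[ℂ] ℋ}

/-- **Overlap from the atoms.** -/
theorem ovs_of_atd (h : Dec S) (hρ : Un ρ) (hi : Irr ρ) (hτ : Un τ) (hτρ : ∀ g, ∃ ω, τ g = ρ ω)
    (hW : Iso W τ) (hm : FM (rs (S3 S (leg C 0)) τ)) (hg3 : GTri (Vl τ 0) (Vl τ 1) (Vl τ 2))
    {B : Set C} {𝒞 : Set (ℋ →L[ℂ] ℋ)}
    (hA : AtD ρ τ (S3 S (col B)ᶜ) (S3 S (col B ∩ leg C 0)) 𝒞) {g : L →L[ℂ] L} {ξ : L}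
    (hg : MinP (rs (S3 S (col B)ᶜ) (cmp hW)) g) (hξ : g ξ = ξ) (h1 : ‖ξ‖ = 1) :
    OvS S (cmp hW) B ξ := by
  classical
  have h3 := h.three
  have hg' := minp_up hW _ hg
  have hξ' : (W ∘L (g ∘L adjoint W)) (W ξ) = W ξ := by
    change W (g (adjoint W (W ξ))) = _
    rw [hW.one, hξ]
  have h1' : ‖W ξ‖ = 1 := by rw [W_norm hW, h1]
  have uκ : Un (rs (S3 S (col B)ᶜ) τ) := hτ.comp _
  obtain ⟨Q, e, he, hm⟩ := hm
  have he' : Frq (rs (S3 S ((col B)ᶜ ∩ leg C 0 ∪ col B ∩ leg C 0)) τ) e := by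
    rwa [← Set.union_inter_distrib_right, Set.compl_union_self, Set.univ_inter]
  have fr := h3.frq_union
    (disjoint_compl_left.mono Set.inter_subset_left Set.inter_subset_left) he'
  have fe := fun T (hT : T ∈ 𝒞) (hI : IB (rs (S3 S (col B ∩ leg C 0)) τ) T) =>
    fin_eig uκ (hτ.comp _) fr (fun a ha => h3.cr_mono ha Set.inter_subset_left) hg' hξ' h1'
      (hA.cm T hT) (hA.sa T hT) (trq_ib hI hm)
  obtain ⟨M, hM⟩ : ∃ M, M = orb (rs (S3 S (col B)ᶜ) τ) (W ξ) := ⟨_, rfl⟩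
  rw [← hM] at fe
  have mM : ∀ {a}, Cr (rs (S3 S (col B)ᶜ) τ) a → ∀ v ∈ M, a v ∈ M := fun ha v hv => by
    rw [hM] at hv ⊢
    exact orb_map ha hv
  haveI : CompleteSpace M := by
    rw [hM]; exact (hg'.orb_closed uκ hξ' h1').completeSpace_coe
  obtain ⟨JE, hJE⟩ : ∃ JE : ℋ → Prop, ∀ u, JE u ↔ ∀ T ∈ 𝒞, ∃ c : ℂ, T u = c • u :=
    ⟨_, fun _ => Iff.rfl⟩
  have jρ : ∀ ω u, JE u → JE (ρ ω u) := fun ω u hu => (hJE _).2 fun T hT => by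
    obtain ⟨c, hc⟩ := (hJE _).1 hu _ (hA.conj ω T hT)
    have h4 := congrArg (ρ ω) hc
    rw [map_smul] at h4
    exact ⟨c, (api ρ ω _).symm.trans h4⟩
  have jτ : ∀ x u, JE u → JE (τ x u) := fun x u hu => by
    obtain ⟨ω, hω⟩ := hτρ x
    rw [hω]
    exact jρ ω u hu
  have ξ0 : W ξ ≠ 0 := fun e0 => by rw [e0, norm_zero] at h1'; exact zero_ne_one h1'
  obtain ⟨u₀, u0, u1⟩ : ∃ u₀, u₀ ≠ 0 ∧ JE u₀ := by
    obtain ⟨T, hT, t1, t2⟩ := hA.nd _ ξ0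
    obtain ⟨c, c0, c1⟩ := (fe T hT t1).2 t2
    obtain ⟨v, -, v0, hv⟩ := P092.H160.common_eig (fun T : 𝒞 => (T.1 : ℋ →ₗ[ℂ] ℋ))
      (fun a b v => cap (hA.com a a.2 b b.2) v) _ (M ⊓ eig T c) ((fe T hT t1).1 c c0) rfl c1
      fun a w hw => ⟨mM (hA.cm a a.2) w hw.1, eig_map (hA.com T hT a a.2) hw.2⟩
    exact ⟨v, v0, (hJE _).2 fun T hT => hv ⟨T, hT⟩⟩
  obtain ⟨u, uM, uJ, uW⟩ : ∃ u ∈ M, JE u ∧ ‖adjoint W u‖ = 1 := by
    obtain ⟨ω, hω⟩ : ∃ ω, adjoint W (M.starProjection (ρ ω u₀)) ≠ 0 := by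
      by_contra hn
      push Not at hn
      have h4 := irr_vec hρ hi (a := adjoint W ∘L M.starProjection) u0 hn
      have h5 : adjoint W (M.starProjection (W ξ)) = 0 := DFunLike.congr_fun h4 (W ξ)
      rw [Submodule.starProjection_eq_self_iff.2 (by rw [hM]; exact orb_self), hW.one] at h5
      rw [h5, norm_zero] at h1
      exact zero_ne_one h1
    refine ⟨((‖adjoint W (M.starProjection (ρ ω u₀))‖⁻¹ : ℝ) : ℂ) • M.starProjection (ρ ω u₀),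
      M.smul_mem _ (Submodule.starProjection_apply_mem _ _), (hJE _).2 fun T hT => ?_, ?_⟩
    · obtain ⟨c, hc⟩ := (hJE _).1 (jρ ω u₀ u1) T hT
      have h4 := comm_starProjection (mM (hA.cm T hT)) (by rw [hA.sa T hT]; exact mM (hA.cm T hT))
      exact ⟨c, by rw [map_smul, ← cap h4, hc, map_smul, smul_comm]⟩
    · rw [map_smul, norm_smul, Complex.norm_real, norm_inv, norm_norm,
        inv_mul_cancel₀ (norm_ne_zero_iff.2 hω)]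
  have u0' : u ≠ 0 := fun e0 => by rw [e0, map_zero, norm_zero] at uW; exact zero_ne_one uW
  have cB : ∀ (a : Fin 3) {y : G}, y ∈ S B → Cr (rs (S3 S (col B)ᶜ) τ) (Vl τ a y) :=
    fun a y hy => h3.cr_mem (A := col B) disjoint_compl_right (io_mem h hy fun c hc => hc)
  have uV : ∀ a, Un (Vl τ a) := fun a => hτ.comp _
  have hZ : ∀ x : S B, ∃ Z : Submodule ℂ ℋ, FiniteDimensional ℂ Z ∧ Z ≤ M ∧
      ∀ w ∈ M, JE w → ⟪w, Vl τ 0 x u⟫_ℂ ≠ 0 → w ∈ Z := by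
    intro x
    obtain ⟨T, hT, t1, t2⟩ := hA.nd _ (P092EN.ne_ap (Vl τ 0) x u0')
    obtain ⟨c, hc⟩ := (hJE _).1 (jτ (io G 0 x) u uJ) T hT
    have hc' : T (Vl τ 0 x u) = c • Vl τ 0 x u := hc
    refine ⟨M ⊓ eig T c, (fe T hT t1).1 c fun c0 => t2 (by rw [hc', c0, zero_smul]), inf_le_left,
      fun w w1 w2 w3 => ⟨w1, mem_eig.2 ?_⟩⟩
    obtain ⟨d, hd⟩ := (hJE _).1 w2 T hT
    have ti : ∀ a b, ⟪T a, b⟫_ℂ = ⟪a, T b⟫_ℂ := fun a b => by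
      rw [← adjoint_inner_right, hA.sa T hT]
    have w0 : ⟪w, w⟫_ℂ ≠ 0 := fun e0 => w3 (by rw [inner_self_eq_zero.1 e0, inner_zero_left])
    have e1 := ti w w
    rw [hd, inner_smul_left, inner_smul_right] at e1
    have e2 := ti w (Vl τ 0 x u)
    rw [hd, hc', inner_smul_left, inner_smul_right, mul_right_cancel₀ w0 e1] at e2
    rw [hd, mul_right_cancel₀ w3 e2]
  choose Z z1 z2 z3 using hZ
  obtain ⟨ι, _, ζ, hζ⟩ := hg3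
  obtain ⟨L₀, hL₀⟩ := P092EN.cnt (ρ := prd (Vl τ 1) (Vl τ 2) hζ.comm₁₂) (U := rs (S B) (Vl τ 0))
    (ξ := ζ) (un_prd (uV 1) (uV 2)) ((uV 0).comp _) (fun x l => by
      change Vl τ 1 x.1 * Vl τ 2 x.2 * Vl τ 0 l = Vl τ 0 l * (Vl τ 1 x.1 * Vl τ 2 x.2)
      rw [mul_assoc, ← hζ.comm₂, ← mul_assoc, ← hζ.comm₁, mul_assoc]) hζ.frame u0'
  obtain ⟨N, hN⟩ : ∃ N : Submodule ℂ L, N = (L₀.sup fun x => (Z x).map (adjoint W : ℋ →ₗ[ℂ] L)) ⊔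
    Submodule.span ℂ {adjoint W u} := ⟨_, rfl⟩
  haveI : FiniteDimensional ℂ N := by
    rw [hN]
    infer_instance
  have hMo : ∀ w ∈ M, adjoint W w ∈ orb (rs (S3 S (col B)ᶜ) (cmp hW)) ξ := by
    rw [hM]
    rintro _ ⟨a, ha, rfl⟩
    exact ⟨_, cr_down hW _ ha, rfl⟩
  have hNo : N ≤ orb (rs (S3 S (col B)ᶜ) (cmp hW)) ξ := by
    rw [hN]
    refine sup_le (Finset.sup_le fun x _ => ?_) ((Submodule.span_singleton_le_iff_mem _ _).2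
      (hMo u uM))
    rintro _ ⟨w, hw, rfl⟩
    exact hMo w (z2 x hw)
  choose m m1 m2 using fun k => hNo (stdOrthonormalBasis ℂ N k).2
  refine ⟨Fin (Module.finrank ℂ N), inferInstance, m, 1 / ((Module.finrank ℂ N : ℝ) + 1) ^ 2,
    by positivity, m1, fun x hx => ?_⟩
  obtain ⟨x₀, hx₀, ⟨a, b⟩, hab⟩ := hL₀ ⟨x, hx⟩
  obtain ⟨a₁, a1, a₂, a2, rfl⟩ := h.split B a
  obtain ⟨b₁, b1, b₂, b2, rfl⟩ := h.split B b
  obtain ⟨w, hw⟩ : ∃ w, w = Vl τ 2 b₁⁻¹ (Vl τ 1 a₁⁻¹ (Vl τ 0 x u)) := ⟨_, rfl⟩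
  have wM : w ∈ M := by
    rw [hw]
    exact mM (cB 2 ((S B).inv_mem b1)) _ (mM (cB 1 ((S B).inv_mem a1)) _ (mM (cB 0 hx) _ uM))
  have wJ : JE w := by
    rw [hw]
    exact jτ _ _ (jτ _ _ (jτ _ _ uJ))
  have w3 : ⟪w, Vl τ 0 x₀ u⟫_ℂ ≠ 0 := fun e0 => hab (by
    have h4 := orb_inner uκ hg' hξ' h1' (b := Vl τ 1 a₂ * Vl τ 2 b₂) (fun c hc => by
      rw [← mul_assoc, cr_leg h hc (A := Bᶜ) (fun c hc => hc) a2, mul_assoc,
        cr_leg h hc (A := Bᶜ) (fun c hc => hc) b2, mul_assoc])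
      (u := w) (v := Vl τ 0 x₀ u) (hM ▸ wM) (hM ▸ mM (cB 0 x₀.2) _ uM)
    rw [e0, mul_zero, hw, (uV 2).il, (uV 1).il, inv_inv, inv_inv] at h4
    change ⟪Vl τ 0 x u, Vl τ 1 (a₁ * a₂) (Vl τ 2 (b₁ * b₂) (Vl τ 0 x₀ u))⟫_ℂ = 0
    rw [rmul, rmul, cap (hζ.comm₁₂ a₂ b₁)]
    exact h4)
  have e1 : ∀ (a : Fin 3) y v, Vl (cmp hW) a y (adjoint W v) = adjoint W (Vl τ a y v) :=
    fun a y v => cmp_adjW hW _ v
  have uL : ∀ a, Un (Vl (cmp hW) a) := fun a => Un.comp (cmp_adj hW hτ) _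
  have e2 : Vl (cmp hW) 0 x (adjoint W u) =
      (Vl (cmp hW) 1 a₁ * Vl (cmp hW) 2 b₁) (adjoint W w) := by
    change _ = Vl (cmp hW) 1 a₁ (Vl (cmp hW) 2 b₁ (adjoint W w))
    rw [e1, e1, e1, hw, api, api]
  have n1 : ‖Vl (cmp hW) 0 x (adjoint W u)‖ = 1 := by rw [(uL 0).nrm, uW]
  obtain ⟨k, l, hkl⟩ := P092.H264.Amp.overlap_fin N (a := adjoint W u) (b := adjoint W w)
    (by rw [hN]; exact Submodule.mem_sup_right (Submodule.mem_span_singleton_self _))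
    (by
      rw [hN]
      exact Submodule.mem_sup_left (Finset.le_sup
        (f := fun x => (Z x).map (adjoint W : ℋ →ₗ[ℂ] L)) hx₀ ⟨w, z3 x₀ w wM wJ w3, rfl⟩))
    e2 uW.le (by
      rw [e2] at n1
      change ‖Vl (cmp hW) 1 a₁ (Vl (cmp hW) 2 b₁ (adjoint W w))‖ = 1 at n1
      rw [(uL 1).nrm, (uL 2).nrm] at n1
      exact n1.le) n1
  refine ⟨k, l, a₁, a1, b₁, b1, ?_⟩
  rw [m2, m2]
  exact hkl

end Vale.Agent.P092PG
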