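import Vale.Agent.P092PG.Lp
import Vale.Agent.P092.H494.PWl

/-!
P092, product glue (helper24): averaging of the conjugates of an operator in an algebra with a
frame of finite mass.
-/

set_option linter.all false

open scoped InnerProductSpace ENNReal
open Filter Topology ContinuousLinearMap

namespace Vale.Agent.P092PG

open Vale.Agent.P092.H421.Hs (Pf Frq trq enn_sq' enn_congr)
open Vale.Agent.P092.H962.Eq (adj_mul' adj_adj')
open Vale.Agent.P092.H494.PW (WLim exists_wlim)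

variable {L : Type} [NormedAddCommGroup L] [InnerProductSpace ℂ L] [CompleteSpace L]

theorem SQ.summable {ι : Type} {f : ι → L} (h : SQ f) : Summable fun i => ‖f i‖ ^ 2 := by
  have e : (fun i => ‖f i‖ ^ 2) = fun i => (‖f i‖ₑ ^ 2).toReal := by
    funext i
    rw [ENNReal.toReal_pow, toReal_enorm]
  rw [e]
  exact ENNReal.summable_toReal h

theorem wlim_sum {ι κ : Type} {l : Filter κ} {x : κ → (L →L[ℂ] L)} {c : L →L[ℂ] L} {C : ℝ}
    (h : WLim l x c) (hC : ∀ n, ‖x n‖ ≤ C) (hC0 : 0 ≤ C) {ξ η : ι → L} (hξ : SQ ξ) (hη : SQ η) :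
    Tendsto (fun n => ∑' i, ⟪η i, x n (ξ i)⟫_ℂ) l (𝓝 (∑' i, ⟪η i, c (ξ i)⟫_ℂ)) := by
  refine tendsto_tsum_of_dominated_convergence (bound := fun i => C * (‖η i‖ ^ 2 + ‖ξ i‖ ^ 2))
    ((hη.summable.add hξ.summable).mul_left C) (fun i => h _ _) (Eventually.of_forall fun n i => ?_)
  refine (norm_inner_le_norm _ _).trans ?_
  have h1 : ‖x n (ξ i)‖ ≤ C * ‖ξ i‖ := (x n).le_of_opNorm_le (hC n) _
  have h2 : ‖η i‖ * ‖ξ i‖ ≤ ‖η i‖ ^ 2 + ‖ξ i‖ ^ 2 := by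
    nlinarith [sq_nonneg (‖η i‖ - ‖ξ i‖), mul_nonneg (norm_nonneg (η i)) (norm_nonneg (ξ i))]
  calc ‖η i‖ * ‖x n (ξ i)‖ ≤ ‖η i‖ * (C * ‖ξ i‖) := mul_le_mul_of_nonneg_left h1 (norm_nonneg _)
    _ = C * (‖η i‖ * ‖ξ i‖) := by ring
    _ ≤ _ := mul_le_mul_of_nonneg_left h2 hC0

variable {H Y Q : Type} [Group H] [Group Y] {R : H →* (L →L[ℂ] L)} {β : Y →* (L →L[ℂ] L)}
  {e : Q → L} {b : L →L[ℂ] L}

/-- the operators which can not be separated from the conjugates of `b` -/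
structure Kc (β : Y →* (L →L[ℂ] L)) (b x : L →L[ℂ] L) : Prop where
  nm : ‖x‖ ≤ ‖b‖
  cm : ∀ v, b * v = v * b → Cr β v → x * v = v * x
  fn : ∀ (ι : Type) (ξ η : ι → L), SQ ξ → SQ η →
    (∀ y, ∑' i, ⟪β y (η i), b (β y (ξ i))⟫_ℂ = ∑' i, ⟪η i, b (ξ i)⟫_ℂ) →
    ∑' i, ⟪η i, x (ξ i)⟫_ℂ = ∑' i, ⟪η i, b (ξ i)⟫_ℂ

theorem Kc.self : Kc β b b := ⟨le_rfl, fun v h _ => h, fun _ _ _ _ _ _ => rfl⟩

theorem Kc.conj (hβ : Un β) {x : L →L[ℂ] L} (h : Kc β b x) (y : Y) :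
    Kc β b (β y⁻¹ * (x * β y)) := by
  refine ⟨?_, fun v h1 h2 => ?_, fun ι ξ η hξ hη h1 => ?_⟩
  · refine ContinuousLinearMap.opNorm_le_bound _ (norm_nonneg _) fun v => ?_
    change ‖β y⁻¹ (x (β y v))‖ ≤ _
    rw [hβ.nrm, ← hβ.nrm y v]
    exact x.le_of_opNorm_le h.nm _
  · rw [mul_assoc, mul_assoc, ← h2, ← mul_assoc x, h.cm v h1 h2, ← mul_assoc, ← mul_assoc, ← h2]
    simp only [mul_assoc]
  · rw [← h1 y, ← h.fn ι (fun i => β y (ξ i)) (fun i => β y (η i)) (hξ.map _) (hη.map _)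
      fun z => ?_]
    · refine tsum_congr fun i => ?_
      change ⟪η i, β y⁻¹ (x (β y (ξ i)))⟫_ℂ = _
      rw [hβ.ir, inv_inv]
    · simp only [← rmul]
      rw [h1, h1]

theorem Kc.mid {x x' : L →L[ℂ] L} (h : Kc β b x) (h' : Kc β b x') :
    Kc β b ((2⁻¹ : ℂ) • (x + x')) := by
  refine ⟨?_, fun v h1 h2 => ?_, fun ι ξ η hξ hη h1 => ?_⟩
  · rw [norm_smul, norm_inv, Complex.norm_ofNat]
    have h1 := norm_add_le x x'
    have h2 := h.nm
    have h3 := h'.nm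
    linarith
  · rw [smul_mul_assoc, add_mul, h.cm v h1 h2, h'.cm v h1 h2, mul_smul_comm, mul_add]
  · have e : ∀ i, ⟪η i, ((2⁻¹ : ℂ) • (x + x')) (ξ i)⟫_ℂ =
        2⁻¹ * (⟪η i, x (ξ i)⟫_ℂ + ⟪η i, x' (ξ i)⟫_ℂ) := fun i => by
      rw [ContinuousLinearMap.smul_apply, inner_smul_right, ContinuousLinearMap.add_apply,
        inner_add_right]
    simp only [e]
    rw [tsum_mul_left, (summable_ip hη (hξ.map x)).tsum_add (summable_ip hη (hξ.map x')),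
      h.fn ι ξ η hξ hη h1, h'.fn ι ξ η hξ hη h1]
    ring

theorem Kc.lim {κ : Type} {l : Filter κ} [l.NeBot] {x : κ → (L →L[ℂ] L)} {c : L →L[ℂ] L}
    (h : ∀ n, Kc β b (x n)) (hl : WLim l x c) : Kc β b c := by
  refine ⟨hl.norm_le (norm_nonneg _) (Frequently.of_forall fun n => (h n).nm),
    fun v h1 h2 => hl.comm (Eventually.of_forall fun n => (h n).cm v h1 h2),
    fun ι ξ η hξ hη h1 => ?_⟩
  have h2 := wlim_sum hl (fun n => (h n).nm) (norm_nonneg _) hξ hη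
  simp only [fun n => (h n).fn ι ξ η hξ hη h1] at h2
  exact tendsto_nhds_unique h2 tendsto_const_nhds

/-- **Averaging.** -/
theorem exists_avg (hR : Un R) (he : Frq R e) (hm : trq e 1 < ∞) (hβ : Un β)
    (hβR : ∀ y, Cr R (β y)) (hb : Cr R b) : ∃ c, Kc β b c ∧ Cr β c := by
  have hs : SQ e := hm.ne
  obtain ⟨n, hn⟩ : ∃ n : (L →L[ℂ] L) → lp (fun _ : Q => L) 2, ∀ x, n x = mk (hs.map x) :=
    ⟨_, fun _ => rfl⟩
  have hKR : ∀ x, Kc β b x → Cr R x := fun x hx s => hx.cm _ (hb s) fun y => (hβR y s).symm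
  have hne : ((fun x => ‖n x‖) '' {x | Kc β b x}).Nonempty := ⟨_, b, Kc.self, rfl⟩
  have hbd : BddBelow ((fun x => ‖n x‖) '' {x | Kc β b x}) :=
    ⟨0, by rintro _ ⟨x, -, rfl⟩; exact norm_nonneg _⟩
  obtain ⟨d, hd⟩ : ∃ d, d = sInf ((fun x => ‖n x‖) '' {x | Kc β b x}) := ⟨_, rfl⟩
  have hle : ∀ x, Kc β b x → d ≤ ‖n x‖ := fun x hx => by
    rw [hd]; exact csInf_le hbd ⟨x, hx, rfl⟩
  have hd0 : 0 ≤ d := by
    rw [hd]; exact le_csInf hne (by rintro _ ⟨x, -, rfl⟩; exact norm_nonneg _)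
  obtain ⟨s, -, s1, s2⟩ := exists_seq_tendsto_sInf hne hbd
  choose x x1 x2 using s2
  obtain ⟨c, hc⟩ := exists_wlim (Filter.hyperfilter ℕ) x ‖b‖ fun k => (x1 k).nm
  have hK : Kc β b c := Kc.lim x1 hc
  have hcd : ‖n c‖ ≤ d := by
    have h1 := wlim_sum hc (fun k => (x1 k).nm) (norm_nonneg _) hs (hs.map c)
    have h2 : ∀ z : L →L[ℂ] L, ∑' i, ⟪c (e i), z (e i)⟫_ℂ = ⟪n c, n z⟫_ℂ := fun z => by
      rw [hn, hn]
      exact (hasSum_ip (hs.map c) (hs.map z)).tsum_eq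
    simp only [h2] at h1
    have h3 : Tendsto (fun k => ‖n c‖ * s k) (Filter.hyperfilter ℕ) (𝓝 (‖n c‖ * d)) := by
      rw [hd]
      refine (s1.mono_left ?_).const_mul _
      rw [← Nat.cofinite_eq_atTop]
      exact Filter.hyperfilter_le_cofinite
    have h4 := le_of_tendsto_of_tendsto' h1.norm h3 fun k => by
      rw [← x2 k]
      exact norm_inner_le_norm _ _
    rw [inner_self_eq_norm_sq_to_K, norm_pow, RCLike.norm_ofReal, abs_norm] at h4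
    by_contra hlt
    rw [not_le] at hlt
    nlinarith
  refine ⟨c, hK, fun y => ?_⟩
  have hK' := hK.conj hβ y
  have h1 : ‖n (β y⁻¹ * (c * β y))‖ = ‖n c‖ := by
    refine norm_eq_of_esq ?_
    rw [hn, hn, lp_enorm, lp_enorm]
    change trq e (β y⁻¹ * (c * β y)) = trq e c
    rw [trq_iso e (hβ.nrm _), trq_iso' hR he (hKR c hK) (hβR y) fun v => by rw [hβ, hβ.nrm]]
  have h2 := hle _ (hK.mid hK')
  have h3 : n ((2⁻¹ : ℂ) • (c + β y⁻¹ * (c * β y))) =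
      (2⁻¹ : ℂ) • (n c + n (β y⁻¹ * (c * β y))) := by
    rw [hn, hn, hn]
    rfl
  rw [h3, norm_smul, norm_inv, Complex.norm_ofNat] at h2
  have h4 := parallelogram_law_with_norm ℂ (n c) (n (β y⁻¹ * (c * β y)))
  rw [h1] at h4
  have h5 : ‖n c - n (β y⁻¹ * (c * β y))‖ = 0 := by
    have h6 := norm_nonneg (n c - n (β y⁻¹ * (c * β y)))
    have h7 := norm_nonneg (n c)
    have h8 : ‖n c‖ * ‖n c‖ ≤ d * d := mul_self_le_mul_self h7 hcd
    have h9 : (2 * d) * (2 * d) ≤ ‖n c + n (β y⁻¹ * (c * β y))‖ * ‖n c + n (β y⁻¹ * (c * β y))‖ :=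
      mul_self_le_mul_self (by linarith) (by linarith)
    nlinarith
  have h6 : c - β y⁻¹ * (c * β y) = 0 := by
    refine zero_of_frame he ((hKR _ hK).sub (hKR _ hK')) fun q => ?_
    have h7 := congrArg (fun F : lp (fun _ : Q => L) 2 => (F : Q → L) q) (norm_eq_zero.1 h5)
    rw [hn, hn] at h7
    exact h7
  rw [sub_eq_zero] at h6
  conv_rhs => rw [h6]
  rw [← mul_assoc, rinv', one_mul]

end Vale.Agent.P092PG
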