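import Vale.Agent.P092.H421.Hs5
import Vale.Agent.P092.H962.EqP
import Vale.Agent.P092EN.Cnt

/-!
P092, product glue (helper24): square integrable operators along families, frames of finite mass,
the counting lemma.
-/

set_option linter.all false

open scoped InnerProductSpace ENNReal
open Filter Topology ContinuousLinearMap

namespace Vale.Agent.P092PG

open Vale.Agent.P092.H421.Hs (Pf Frq trq trq_swap trq_indep enn_sq' enn_congr)
open Vale.Agent.P092.H962.Eq (adj_mul' adj_adj')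

variable {L : Type} [NormedAddCommGroup L] [InnerProductSpace ℂ L] [CompleteSpace L]

/-- unitary representations -/
def Un {G : Type} [Group G] (ρ : G →* (L →L[ℂ] L)) : Prop := ∀ g, adjoint (ρ g) = ρ g⁻¹

/-- `a` commutes with the family -/
def Cr {T : Type} (u : T → (L →L[ℂ] L)) (a : L →L[ℂ] L) : Prop := ∀ t, a * u t = u t * a

/-- `a` is square integrable along the family -/
def IB {T : Type} (u : T → (L →L[ℂ] L)) (a : L →L[ℂ] L) : Prop :=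
  ∃ N : ℝ≥0∞, N ≠ ∞ ∧ ∀ η, ∑' t, ‖a (u t η)‖ₑ ^ 2 ≤ N * ‖η‖ₑ ^ 2

/-- the commutant of the family is trivial -/
def Irr {T : Type} (u : T → (L →L[ℂ] L)) : Prop :=
  ∀ A, Cr u A → ∃ z : ℂ, A = z • (1 : L →L[ℂ] L)

/-- there is a frame of finite mass -/
def FM {G : Type} [Group G] (ρ : G →* (L →L[ℂ] L)) : Prop :=
  ∃ (Q : Type) (e : Q → L), Frq ρ e ∧ trq e 1 < ∞

theorem ap {A B : L →L[ℂ] L} (h : A = B) (v : L) : A v = B v := by rw [h]

theorem cap {A B : L →L[ℂ] L} (h : A * B = B * A) (v : L) : A (B v) = B (A v) := ap h v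

section cr

variable {T : Type} {u : T → (L →L[ℂ] L)} {a b : L →L[ℂ] L}

theorem Cr.mul (ha : Cr u a) (hb : Cr u b) : Cr u (a * b) := fun t => by
  rw [mul_assoc, hb t, ← mul_assoc, ha t, mul_assoc]

theorem Cr.add (ha : Cr u a) (hb : Cr u b) : Cr u (a + b) := fun t => by
  rw [add_mul, mul_add, ha t, hb t]

theorem Cr.sub (ha : Cr u a) (hb : Cr u b) : Cr u (a - b) := fun t => by
  rw [sub_mul, mul_sub, ha t, hb t]

theorem Cr.smul (ha : Cr u a) (c : ℂ) : Cr u (c • a) := fun t => by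
  rw [smul_mul_assoc, ha t, mul_smul_comm]

theorem Cr.one : Cr u (1 : L →L[ℂ] L) := fun t => by rw [one_mul, mul_one]

theorem Cr.zero : Cr u (0 : L →L[ℂ] L) := fun t => by rw [zero_mul, mul_zero]

theorem Cr.ap (ha : Cr u a) (t : T) (v : L) : a (u t v) = u t (a v) := cap (ha t) v

end cr

section rep

variable {G : Type} [Group G] {ρ : G →* (L →L[ℂ] L)} {a b : L →L[ℂ] L}

theorem Cr.adj (h : Un ρ) (ha : Cr ρ a) : Cr ρ (adjoint a) := fun g => by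
  have h1 := congrArg adjoint (ha g⁻¹)
  rw [adj_mul', adj_mul', h, inv_inv] at h1
  exact h1.symm

theorem rmul (ρ : G →* (L →L[ℂ] L)) (g h : G) (v : L) : ρ (g * h) v = ρ g (ρ h v) := by
  rw [map_mul]; rfl

theorem rinv (ρ : G →* (L →L[ℂ] L)) (g : G) : ρ g⁻¹ * ρ g = 1 := by
  rw [← map_mul, inv_mul_cancel, map_one]

theorem rinv' (ρ : G →* (L →L[ℂ] L)) (g : G) : ρ g * ρ g⁻¹ = 1 := by
  rw [← map_mul, mul_inv_cancel, map_one]

theorem iap (ρ : G →* (L →L[ℂ] L)) (g : G) (v : L) : ρ g⁻¹ (ρ g v) = v := ap (rinv ρ g) v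

theorem api (ρ : G →* (L →L[ℂ] L)) (g : G) (v : L) : ρ g (ρ g⁻¹ v) = v := ap (rinv' ρ g) v

theorem Un.il (h : Un ρ) (g : G) (u v : L) : ⟪ρ g u, v⟫_ℂ = ⟪u, ρ g⁻¹ v⟫_ℂ := by
  rw [← h, adjoint_inner_right]

theorem Un.ir (h : Un ρ) (g : G) (u v : L) : ⟪u, ρ g v⟫_ℂ = ⟪ρ g⁻¹ u, v⟫_ℂ := by
  rw [← h, adjoint_inner_left]

theorem Un.ii (h : Un ρ) (g : G) (u v : L) : ⟪ρ g u, ρ g v⟫_ℂ = ⟪u, v⟫_ℂ := by
  rw [h.il, iap]

theorem Un.nrm (h : Un ρ) (g : G) (u : L) : ‖ρ g u‖ = ‖u‖ :=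
  Vale.Agent.P092.H421.Hs.norm_U h g u

theorem Un.enrm (h : Un ρ) (g : G) (u : L) : ‖ρ g u‖ₑ = ‖u‖ₑ := enn_congr (h.nrm g u)

theorem Un.comp {H : Type} [Group H] (h : Un ρ) (φ : H →* G) : Un (ρ.comp φ) := fun x => by
  change adjoint (ρ (φ x)) = ρ (φ x⁻¹)
  rw [h, map_inv φ]

/-- an operator which kills a nonzero orbit of an irreducible representation -/
theorem irr_vec {L' : Type} [NormedAddCommGroup L'] [InnerProductSpace ℂ L'] [CompleteSpace L']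
    (h : Un ρ) (hi : Irr ρ) {a : L →L[ℂ] L'} {u : L} (hu : u ≠ 0) (h0 : ∀ g, a (ρ g u) = 0) :
    a = 0 := by
  obtain ⟨P, p1, p2, p3, p4, p5⟩ := P092EN.exists_cyc h u
  obtain ⟨z, hz⟩ := hi P fun g => ContinuousLinearMap.ext fun v => p4 g v
  have hz1 : z = 1 := by
    have h1 : z • u = (1 : ℂ) • u := by
      rw [one_smul]
      conv_rhs => rw [← p3, hz]
      rfl
    exact smul_left_injective ℂ hu h1
  refine ContinuousLinearMap.ext fun v => ?_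
  refine ext_inner_right ℂ fun w => ?_
  have h2 := p5 (adjoint a w) (fun g => by rw [adjoint_inner_right, h0, inner_zero_left]) v
  rw [hz, hz1, one_smul, adjoint_inner_right] at h2
  rw [ContinuousLinearMap.zero_apply, inner_zero_left]
  exact h2

theorem exists_ne {L' : Type} [NormedAddCommGroup L'] [InnerProductSpace ℂ L']
    {L'' : Type} [NormedAddCommGroup L''] [InnerProductSpace ℂ L''] {a : L' →L[ℂ] L''}
    (h : a ≠ 0) : ∃ v, a v ≠ 0 := by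
  by_contra hn
  push Not at hn
  exact h (ContinuousLinearMap.ext hn)

theorem irr0 (h : Un ρ) (hi : Irr ρ) (hb : b ≠ 0) (h0 : ∀ g, a * ρ g * b = 0) : a = 0 := by
  obtain ⟨v, hv⟩ := exists_ne hb
  exact irr_vec h hi hv fun g => ap (h0 g) v

end rep

theorem enorm_ap (a : L →L[ℂ] L) (v : L) : ‖a v‖ₑ ^ 2 ≤ ‖a‖ₑ ^ 2 * ‖v‖ₑ ^ 2 := by
  rw [← mul_pow]
  exact pow_le_pow_left₀ zero_le (ContinuousLinearMap.le_opENorm a v) 2

theorem esq_ne {F : Type} [NormedAddCommGroup F] (v : F) : ‖v‖ₑ ^ 2 ≠ ∞ :=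
  ENNReal.pow_ne_top enorm_ne_top

theorem esq_zero {F : Type} [NormedAddCommGroup F] {v : F} (h : ‖v‖ₑ ^ 2 = 0) : v = 0 :=
  enorm_eq_zero.1 ((pow_eq_zero_iff two_ne_zero).1 h)

section ib

variable {T T' : Type} {u : T → (L →L[ℂ] L)} {u' : T' → (L →L[ℂ] L)} {a b : L →L[ℂ] L}

theorem IB.left (h : IB u a) (c : L →L[ℂ] L) : IB u (c * a) := by
  obtain ⟨N, hN, h⟩ := h
  refine ⟨‖c‖ₑ ^ 2 * N, ENNReal.mul_ne_top (esq_ne c) hN, fun η => ?_⟩
  calc ∑' t, ‖(c * a) (u t η)‖ₑ ^ 2 ≤ ∑' t, ‖c‖ₑ ^ 2 * ‖a (u t η)‖ₑ ^ 2 :=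
        ENNReal.tsum_le_tsum fun t => enorm_ap c _
    _ = ‖c‖ₑ ^ 2 * ∑' t, ‖a (u t η)‖ₑ ^ 2 := ENNReal.tsum_mul_left
    _ ≤ ‖c‖ₑ ^ 2 * (N * ‖η‖ₑ ^ 2) := by gcongr; exact h η
    _ = _ := by rw [mul_assoc]

/-- change of the family -/
theorem IB.of_eq (h : IB u a) (φ : T' → T) (hφ : Function.Injective φ) (v : L →L[ℂ] L)
    (e : ∀ t, b * u' t = a * u (φ t) * v) : IB u' b := by
  obtain ⟨N, hN, h⟩ := h
  refine ⟨N * ‖v‖ₑ ^ 2, ENNReal.mul_ne_top hN (esq_ne v), fun η => ?_⟩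
  calc ∑' t, ‖b (u' t η)‖ₑ ^ 2 = ∑' t, ‖a (u (φ t) (v η))‖ₑ ^ 2 :=
        tsum_congr fun t => by
          have h1 : b (u' t η) = a (u (φ t) (v η)) := ap (e t) η
          rw [h1]
    _ ≤ ∑' t, ‖a (u t (v η))‖ₑ ^ 2 :=
        ENNReal.tsum_comp_le_tsum_of_injective hφ fun t => ‖a (u t (v η))‖ₑ ^ 2
    _ ≤ N * ‖v η‖ₑ ^ 2 := h _
    _ ≤ N * (‖v‖ₑ ^ 2 * ‖η‖ₑ ^ 2) := by gcongr; exact enorm_ap v η
    _ = _ := by rw [mul_assoc]

theorem IB.comp (h : IB u a) (φ : T' → T) (hφ : Function.Injective φ)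
    (e : ∀ t, u' t = u (φ t)) : IB u' a :=
  h.of_eq φ hφ 1 fun t => by rw [e, mul_one]

theorem IB.right (h : IB u a) {v : L →L[ℂ] L} (hv : Cr u v) : IB u (a * v) :=
  h.of_eq id Function.injective_id v fun t => by rw [mul_assoc, hv t, mul_assoc]; rfl

theorem IB.prod (ha : IB u a) (hb : IB u' b) (hc : Cr u b) :
    IB (fun p : T × T' => u p.1 * u' p.2) (a * b) := by
  obtain ⟨N, hN, ha⟩ := ha
  obtain ⟨M, hM, hb⟩ := hb
  refine ⟨N * M, ENNReal.mul_ne_top hN hM, fun η => ?_⟩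
  rw [ENNReal.tsum_prod', ENNReal.tsum_comm]
  calc ∑' t, ∑' s, ‖(a * b) ((u s * u' t) η)‖ₑ ^ 2
      = ∑' t, ∑' s, ‖a (u s (b (u' t η)))‖ₑ ^ 2 :=
        tsum_congr fun t => tsum_congr fun s => by
          have h1 : (a * b) ((u s * u' t) η) = a (u s (b (u' t η))) := by
            change a (b (u s (u' t η))) = _
            rw [hc.ap]
          rw [h1]
    _ ≤ ∑' t, N * ‖b (u' t η)‖ₑ ^ 2 := ENNReal.tsum_le_tsum fun t => ha _
    _ = N * ∑' t, ‖b (u' t η)‖ₑ ^ 2 := ENNReal.tsum_mul_left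
    _ ≤ N * (M * ‖η‖ₑ ^ 2) := by gcongr; exact hb η
    _ = _ := by rw [mul_assoc]

theorem IB.of_finite [Finite T] (u : T → (L →L[ℂ] L)) (a : L →L[ℂ] L) : IB u a := by
  letI := Fintype.ofFinite T
  refine ⟨∑ t, ‖a * u t‖ₑ ^ 2, ENNReal.sum_ne_top.2 fun t _ => esq_ne _, fun η => ?_⟩
  rw [tsum_fintype, Finset.sum_mul]
  exact Finset.sum_le_sum fun t _ => enorm_ap (a * u t) η

theorem IB.of_sum {N : ℝ} (h : ∀ (F : Finset T) (η : L), ∑ t ∈ F, ‖a (u t η)‖ ^ 2 ≤ N * ‖η‖ ^ 2) :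
    IB u a := by
  refine ⟨ENNReal.ofReal N, ENNReal.ofReal_ne_top, fun η => ?_⟩
  rw [ENNReal.tsum_eq_iSup_sum]
  refine iSup_le fun F => ?_
  simp only [enn_sq']
  rw [← ENNReal.ofReal_sum_of_nonneg fun _ _ => sq_nonneg _, mul_comm,
    ← ENNReal.ofReal_mul (sq_nonneg _), mul_comm]
  exact ENNReal.ofReal_le_ofReal (h F η)

end ib

section frame

variable {G H Q T : Type} [Group G] [Group H] {ρ : G →* (L →L[ℂ] L)} {R : H →* (L →L[ℂ] L)}
  {e : Q → L} {u : T → (L →L[ℂ] L)} {a b c : L →L[ℂ] L}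

theorem frq_sub (φ : H × T ≃ G) (hφ : ∀ h t, ρ (φ (h, t)) = R h * u t) (he : Frq ρ e) :
    Frq R (fun p : Q × T => u p.2 (e p.1)) := by
  intro η
  rw [← he η, ← (((Equiv.prodAssoc Q T H).trans (Equiv.prodCongr (Equiv.refl Q)
    ((Equiv.prodComm T H).trans φ))).tsum_eq (fun p : Q × G => ‖⟪ρ p.2 (e p.1), η⟫_ℂ‖ₑ ^ 2))]
  refine tsum_congr ?_
  rintro ⟨⟨q, t⟩, h⟩
  change ‖⟪R h (u t (e q)), η⟫_ℂ‖ₑ ^ 2 = ‖⟪ρ (φ (h, t)) (e q), η⟫_ℂ‖ₑ ^ 2
  rw [hφ]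
  rfl

theorem trq_ib (h : IB u a) (he : trq e 1 < ∞) :
    trq (fun p : Q × T => u p.2 (e p.1)) a < ∞ := by
  obtain ⟨N, hN, h⟩ := h
  rw [trq, ENNReal.tsum_prod']
  refine (ENNReal.tsum_le_tsum fun q => h (e q)).trans_lt ?_
  rw [ENNReal.tsum_mul_left]
  exact ENNReal.mul_lt_top hN.lt_top he

theorem trq_left (e : Q → L) (c a : L →L[ℂ] L) : trq e (c * a) ≤ ‖c‖ₑ ^ 2 * trq e a := by
  rw [trq, trq, ← ENNReal.tsum_mul_left]
  exact ENNReal.tsum_le_tsum fun q => enorm_ap c _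

theorem trq_left_lt (h : trq e a < ∞) (c : L →L[ℂ] L) : trq e (c * a) < ∞ :=
  (trq_left e c a).trans_lt (ENNReal.mul_lt_top (esq_ne c).lt_top h)

theorem trq_adj (hR : Un R) (he : Frq R e) (ha : Cr R a) : trq e (adjoint a) = trq e a :=
  (trq_swap hR he he ha).symm

theorem trq_right_lt (hR : Un R) (he : Frq R e) (ha : Cr R a) (hc : Cr R c) (h : trq e a < ∞) :
    trq e (a * c) < ∞ := by
  rw [← trq_adj hR he (ha.mul hc), adj_mul']
  exact trq_left_lt (by rwa [trq_adj hR he ha]) _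

theorem trq_iso (e : Q → L) (hc : ∀ v, ‖c v‖ = ‖v‖) (a : L →L[ℂ] L) : trq e (c * a) = trq e a :=
  tsum_congr fun q => by
    change ‖c (a (e q))‖ₑ ^ 2 = _
    rw [enn_congr (hc _)]

theorem trq_iso' (hR : Un R) (he : Frq R e) (ha : Cr R a) (hc : Cr R c)
    (h : ∀ v, ‖adjoint c v‖ = ‖v‖) : trq e (a * c) = trq e a := by
  rw [← trq_adj hR he (ha.mul hc), adj_mul', trq_iso e h, trq_adj hR he ha]

theorem zero_of_frame (he : Frq R e) (ha : Cr R a) (h : ∀ q, a (e q) = 0) : a = 0 := by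
  have h8 : adjoint a = 0 := by
    refine ContinuousLinearMap.ext fun v => Pf.eq_zero he fun p => ?_
    rw [adjoint_inner_right, ha.ap, h, map_zero, inner_zero_left]
  rw [← adj_adj' a, h8, map_zero]

theorem trq_zero (he : Frq R e) (ha : Cr R a) (h : trq e a = 0) : a = 0 :=
  zero_of_frame he ha fun q => esq_zero (ENNReal.tsum_eq_zero.1 h q)

/-- **Counting**: `C` is square integrable along an infinite family which fixes `w`. -/
theorem cnt_zero [Infinite T] (hR : Un R) (he : Frq R e) {w C : L →L[ℂ] L} (hw : Cr R w)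
    (hC : Cr R C) (hu : ∀ t, Cr R (u t)) (hn : ∀ t v, ‖adjoint (u t) v‖ = ‖v‖) (hwu : Cr u w)
    (hf : trq e w < ∞) (hI : IB u C) : C * w = 0 := by
  refine trq_zero he (hC.mul hw) ?_
  by_contra h0
  obtain ⟨N, hN, hI⟩ := hI
  have h1 : ∀ t, trq e (C * w) = ∑' q, ‖C (u t (w (e q)))‖ₑ ^ 2 := fun t => by
    rw [← trq_iso' hR he (hC.mul hw) (hu t) (hn t), mul_assoc, hwu t]
    rfl
  have h2 : ∑' t : T, trq e (C * w) ≤ N * trq e w := by
    rw [tsum_congr h1, ENNReal.tsum_comm, trq, ← ENNReal.tsum_mul_left]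
    exact ENNReal.tsum_le_tsum fun q => hI _
  rw [ENNReal.tsum_const_eq_top_of_ne_zero h0] at h2
  exact (ENNReal.mul_lt_top hN.lt_top hf).ne (top_le_iff.1 h2)

end frame

end Vale.Agent.P092PG
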