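import Vale.Agent.P092PG.Ste
import Vale.Agent.P092.H35.Mx.KAll
import Vale.Agent.P092.H35.Mx.Dis
import Vale.Agent.P092.H264.EndD
import Vale.Agent.P092EN.Cp

/-!
P092, product glue (helper24): the commuting family of the dense places.
-/

set_option linter.all false

open scoped InnerProductSpace ENNReal ZeroAtInfty Pointwise
open Filter Topology ContinuousLinearMap MeasureTheory

namespace Vale.Agent.P092PG

open Vale.Agent.P092 Vale.Agent.P092.H678.OV Vale.Agent.P092.H333.Amp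
open Vale.Agent.P092.H962.Eq (adj_mul' adj_adj')
open Vale.Agent.P092.H264.Cl (ltr rtr exists_loc)
open Vale.Agent.P092.MX (KCal)

section bc

variable {ℋ Γ : Type} [NormedAddCommGroup ℋ] [InnerProductSpace ℂ ℋ] [CompleteSpace ℋ] [Group Γ]
  {𝒟 : Set (ℋ →L[ℂ] ℋ)} {T T' : ℋ →L[ℂ] ℋ} {L Z : Γ →* (ℋ →L[ℂ] ℋ)}

/-- the selfadjoint part of the bicommutant -/
def Bc (𝒟 : Set (ℋ →L[ℂ] ℋ)) : Set (ℋ →L[ℂ] ℋ) :=
  {T | adjoint T = T ∧ ∀ S, (∀ x ∈ 𝒟, S * x = x * S) → T * S = S * T}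

theorem Bc.com (h : ∀ x ∈ 𝒟, ∀ y ∈ 𝒟, x * y = y * x) (hT : T ∈ Bc 𝒟) (hT' : T' ∈ Bc 𝒟) :
    T * T' = T' * T := hT.2 _ fun x hx => hT'.2 x (h x hx)

theorem Bc.mul (h : ∀ x ∈ 𝒟, ∀ y ∈ 𝒟, x * y = y * x) (hT : T ∈ Bc 𝒟) (hT' : T' ∈ Bc 𝒟) :
    T * T' ∈ Bc 𝒟 :=
  ⟨by rw [adj_mul', hT.1, hT'.1, Bc.com h hT hT'], fun S hS => by
    rw [mul_assoc, hT'.2 S hS, ← mul_assoc, hT.2 S hS, mul_assoc]⟩

theorem Bc.conj (u : Un L) (h : ∀ g, ∀ x ∈ 𝒟, L g * x * L g⁻¹ ∈ 𝒟) (g : Γ) (hT : T ∈ Bc 𝒟) :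
    L g⁻¹ * T * L g ∈ Bc 𝒟 := by
  refine ⟨by rw [adj_mul', adj_mul', u, u, inv_inv, hT.1, mul_assoc], fun S hS => ?_⟩
  have e : ∀ a b : ℋ →L[ℂ] ℋ, (L g⁻¹ * a * L g) * (L g⁻¹ * b * L g) = L g⁻¹ * (a * b) * L g :=
    fun a b => by
      simp only [mul_assoc]
      rw [← mul_assoc (L g) (L g⁻¹), rinv', one_mul]
  have e' : ∀ a : ℋ →L[ℂ] ℋ, L g⁻¹ * (L g * a * L g⁻¹) * L g = a := fun a => by
    simp only [mul_assoc]
    rw [rinv, mul_one, ← mul_assoc, rinv, one_mul]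
  have e'' : ∀ a : ℋ →L[ℂ] ℋ, L g * (L g⁻¹ * a * L g) * L g⁻¹ = a := fun a => by
    simp only [mul_assoc]
    rw [rinv', mul_one, ← mul_assoc, rinv', one_mul]
  have h1 := hT.2 (L g * S * L g⁻¹) fun x hx => by
    have h2 := hS _ (h g⁻¹ x hx)
    rw [inv_inv, ← e' S, e, e] at h2
    rw [← e'' (_ * x), h2, e'']
  rw [← e' S, e, e, h1]

theorem leg_nd {B : Type} [Finite B] {G : B → Type} [∀ b, Group (G b)]
    [∀ b, TopologicalSpace (G b)] [∀ b, IsTopologicalGroup (G b)] [∀ b, LocallyCompactSpace (G b)]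
    [∀ b, T2Space (G b)] (p : ∀ b, Γ →* G b) (P : ∀ b, C₀(G b, ℂ) →⋆ₙₐ[ℂ] (ℋ →L[ℂ] ℋ)) (u : Un L)
    (h : ∀ x ∈ 𝒟, ∀ y ∈ 𝒟, x * y = y * x) (hL : ∀ g, ∀ x ∈ 𝒟, L g * x * L g⁻¹ ∈ 𝒟)
    (hP : ∀ b ψ, P b ψ ∈ 𝒟) (nd : ∀ b ξ, (∀ ψ, P b ψ ξ = 0) → ξ = 0)
    (cov : ∀ b γ ψ, L γ * P b ψ * L γ⁻¹ = P b (ltr (p b γ) ψ)) (cm : ∀ b ψ, Cr Z (P b ψ))
    (N : Subgroup Γ) (hN : ∀ C : ∀ b, Set (G b), (∀ b, IsCompact (C b)) →
      {n : N | ∀ b, p b n ∈ C b}.Finite) {v : ℋ} (hv : v ≠ 0) :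
    ∃ T ∈ Bc 𝒟, IB (fun t : N => L t) T ∧ Cr Z T ∧ T v ≠ 0 := by
  classical
  choose U hU hU' using fun b => exists_compact_mem_nhds (1 : G b)
  have cj : ∀ γ, ∀ T ∈ Bc 𝒟, L γ * T * L γ⁻¹ ∈ Bc 𝒟 := fun γ T hT => by
    have h1 := Bc.conj u hL γ⁻¹ hT
    rwa [inv_inv] at h1
  have key : ∀ s : Finset B, ∃ T ∈ Bc 𝒟, Cr Z T ∧ T v ≠ 0 ∧
      ∀ γ, ∀ b ∈ s, p b γ ∉ U b * (U b)⁻¹ → T * (L γ * T * L γ⁻¹) = 0 := by
    intro s
    induction s using Finset.induction_on with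
    | empty =>
      exact ⟨1, ⟨adjoint_one, fun S _ => by rw [one_mul, mul_one]⟩, Cr.one, hv,
        fun γ b hb => absurd hb (Finset.notMem_empty b)⟩
    | insert b s hb ih =>
      obtain ⟨T, t1, t2, t3, t4⟩ := ih
      obtain ⟨ψ, g, h1, h2⟩ := exists_loc (P b) (nd b) (hU' b) t3
      have m : P b (star ψ * ψ) ∈ Bc 𝒟 := ⟨by
        rw [map_mul, map_star, star_eq_adjoint, adj_mul', adj_adj'], fun S hS => (hS _ (hP b _)).symm⟩
      refine ⟨P b (star ψ * ψ) * T, Bc.mul h m t1, (cm b _).mul t2, fun h0 => h2 ?_,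
        fun γ c hc hγ => ?_⟩
      · have h3 : ⟪T v, adjoint (P b ψ) (P b ψ (T v))⟫_ℂ = 0 := by
          have h4 : P b (star ψ * ψ) (T v) = 0 := h0
          rw [map_mul, map_star, star_eq_adjoint] at h4
          rw [show adjoint (P b ψ) (P b ψ (T v)) = 0 from h4, inner_zero_right]
        rwa [adjoint_inner_right, inner_self_eq_zero] at h3
      · have e : L γ * (P b (star ψ * ψ) * T) * L γ⁻¹ =
            (L γ * P b (star ψ * ψ) * L γ⁻¹) * (L γ * T * L γ⁻¹) := by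
          simp only [mul_assoc]
          rw [← mul_assoc (L γ⁻¹) (L γ), rinv, one_mul]
        rw [e, mul_assoc, ← mul_assoc T, Bc.com h t1 (cj γ _ m), mul_assoc, ← mul_assoc]
        rcases Finset.mem_insert.1 hc with rfl | hc
        · have h3 : (star ψ * ψ) * ltr (p c γ) (star ψ * ψ) = 0 := by
            ext x
            change (star (ψ x) * ψ x) * (star (ψ ((p c γ)⁻¹ * x)) * ψ ((p c γ)⁻¹ * x)) = 0
            by_contra h4
            refine hγ ⟨_, h1 x fun e => h4 (by rw [e, mul_zero, zero_mul]), _,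
              Set.inv_mem_inv.2 (h1 ((p c γ)⁻¹ * x) fun e => h4 (by rw [e, mul_zero, mul_zero])),
              ?_⟩
            group
          rw [cov, ← map_mul, h3, map_zero, zero_mul]
        · rw [t4 γ c hc hγ, mul_zero]
  letI := Fintype.ofFinite B
  obtain ⟨T, t1, t2, t3, t4⟩ := key Finset.univ
  obtain ⟨c, hc⟩ := P092EN.FW.ib (lam := rs N L) (u.comp _) t1.1
    ((hN _ fun b => (hU b).mul (hU b).inv).subset fun n hn b => by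
      by_contra h1
      exact hn (t4 n b (Finset.mem_univ b) h1))
  exact ⟨T, t1, IB.of_sum hc, t2, t3⟩

theorem cald_of {E B : Type} [Group E] {Γ : Subgroup E} [Finite B] {G : B → Type}
    [∀ b, Group (G b)] [∀ b, TopologicalSpace (G b)] [∀ b, IsTopologicalGroup (G b)]
    [∀ b, LocallyCompactSpace (G b)] [∀ b, T2Space (G b)] {V A Y : Γ →* (ℋ →L[ℂ] ℋ)}
    (uV : Un V) (uA : Un A) (uY : Un Y) {p : ∀ b, Γ →* G b} {t t' : ∀ b, E →* G b}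
    {P P' : ∀ b, C₀(G b, ℂ) →⋆ₙₐ[ℂ] (ℋ →L[ℂ] ℋ)} (k : ∀ b, KCal (t b) (p b) V A Y (P b))
    (k' : ∀ b, KCal (t' b) (p b) V Y A (P' b))
    (com : ∀ x ∈ (⋃ b, Set.range (P b) ∪ Set.range (P' b)),
      ∀ y ∈ (⋃ b, Set.range (P b) ∪ Set.range (P' b)), x * y = y * x)
    {K : Set Γ} (hK : ∀ x ∈ K, ∀ b, p b x = 1 ∧ t b x = 1 ∧ t' b x = 1)
    (N : Subgroup Γ) (hN : ∀ C : ∀ b, Set (G b), (∀ b, IsCompact (C b)) →
      {n : N | ∀ b, p b n ∈ C b}.Finite) : ∃ 𝒞, CalD K N V A Y 𝒞 := by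
  obtain ⟨𝒟, h𝒟⟩ : ∃ 𝒟, 𝒟 = ⋃ b, Set.range (P b) ∪ Set.range (P' b) := ⟨_, rfl⟩
  rw [← h𝒟] at com
  have m : ∀ b ψ, P b ψ ∈ 𝒟 := fun b ψ => h𝒟 ▸ Set.mem_iUnion.2 ⟨b, Or.inl ⟨ψ, rfl⟩⟩
  have m' : ∀ b ψ, P' b ψ ∈ 𝒟 := fun b ψ => h𝒟 ▸ Set.mem_iUnion.2 ⟨b, Or.inr ⟨ψ, rfl⟩⟩
  have ind : ∀ Q : (ℋ →L[ℂ] ℋ) → Prop, (∀ b ψ, Q (P b ψ)) → (∀ b ψ, Q (P' b ψ)) → ∀ x ∈ 𝒟, Q x := by
    intro Q h1 h2 x hx
    rw [h𝒟] at hx
    obtain ⟨b, ⟨ψ, rfl⟩ | ⟨ψ, rfl⟩⟩ := Set.mem_iUnion.1 hx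
    · exact h1 b ψ
    · exact h2 b ψ
  have fx : ∀ (X : Γ →* (ℋ →L[ℂ] ℋ)) g a, X g * a = a * X g → X g * a * X g⁻¹ = a :=
    fun X g a h => by rw [h, mul_assoc, rinv', mul_one]
  have xf : ∀ (X : Γ →* (ℋ →L[ℂ] ℋ)) g a, X g * a * X g⁻¹ = a → X g * a = a * X g :=
    fun X g a h => by conv_rhs => rw [← h, mul_assoc, rinv, mul_one]
  have cA := fun b γ ψ => (k b).cov γ ψ (ltr (p b γ) ψ) fun _ => rfl
  have cY := fun b γ ψ => (k' b).cov γ ψ (ltr (p b γ) ψ) fun _ => rfl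
  have jV : ∀ g, ∀ x ∈ 𝒟, V g * x * V g⁻¹ ∈ 𝒟 := fun g => ind _
    (fun b ψ => by rw [(k b).vcov g ψ (rtr (t b g) ψ) fun _ => rfl]; exact m _ _)
    fun b ψ => by rw [(k' b).vcov g ψ (rtr (t' b g) ψ) fun _ => rfl]; exact m' _ _
  have jA : ∀ g, ∀ x ∈ 𝒟, A g * x * A g⁻¹ ∈ 𝒟 := fun g => ind _
    (fun b ψ => by rw [cA]; exact m _ _)
    fun b ψ => by rw [fx A g _ ((k' b).cm g ψ).eq]; exact m' _ _
  have jY : ∀ g, ∀ x ∈ 𝒟, Y g * x * Y g⁻¹ ∈ 𝒟 := fun g => ind _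
    (fun b ψ => by rw [fx Y g _ ((k b).cm g ψ).eq]; exact m _ _)
    fun b ψ => by rw [cY]; exact m' _ _
  refine ⟨Bc 𝒟, fun T hT => hT.1, fun T hT T' hT' => Bc.com com hT hT',
    fun T hT T' hT' => Bc.mul com hT hT', fun g T hT => Bc.conj uV jV g hT,
    fun g T hT => Bc.conj uA jA g hT, fun g T hT => Bc.conj uY jY g hT,
    fun T hT x hx => hT.2 _ (ind _ (fun b ψ => xf V x _ ((k b).vcov x ψ ψ fun y => ?_))
      fun b ψ => xf V x _ ((k' b).vcov x ψ ψ fun y => ?_)),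
    fun T hT x hx => hT.2 _ (ind _ (fun b ψ => xf A x _ ((k b).cov x ψ ψ fun y => ?_))
      fun b ψ => ((k' b).cm x ψ).eq),
    fun T hT x hx => hT.2 _ (ind _ (fun b ψ => ((k b).cm x ψ).eq)
      fun b ψ => xf Y x _ ((k' b).cov x ψ ψ fun y => ?_)),
    fun v hv => leg_nd p P uA com jA m (fun b => (k b).nd) cA
      (fun b ψ g => ((k b).cm g ψ).eq.symm) N hN hv,
    fun v hv => leg_nd p P' uY com jY m' (fun b => (k' b).nd) cY
      (fun b ψ g => ((k' b).cm g ψ).eq.symm) N hN hv⟩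
  · rw [(hK x hx b).2.1, mul_one]
  · rw [(hK x hx b).2.2, mul_one]
  · rw [(hK x hx b).1, inv_one, one_mul]
  · rw [(hK x hx b).1, inv_one, one_mul]

end bc

section top

open Vale.Agent.P092.VR (Ov IsRad)
open Vale.Agent.P092.SR.St (ICC)
open Vale.Agent.P092.H333.V
open Vale.Agent.P092.QT.NE (ev)
open Vale.Agent.P092.H560.Mx (esc_fam)
open Vale.Agent.P092.H35.Mx (unamp_false unamp_true proper_mk)

variable {I : Type} [Fintype I] {M E : I → Type} [∀ i, Group (M i)]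
  [∀ i, TopologicalSpace (M i)] [∀ i, Group (E i)] [∀ i, TopologicalSpace (E i)]
  {φ : ∀ i, M i →* E i} {r : I → ℕ} {R : ∀ i, Subgroup (E i)} [∀ i, (R i).Normal]
  {Γ : Subgroup (∀ i, E i)} {ℋ : Type} [NormedAddCommGroup ℋ] [InnerProductSpace ℂ ℋ]
  [CompleteSpace ℋ] {V A B : Γ →* (ℋ →L[ℂ] ℋ)}

/-- **The commuting family of the dense places.** -/
theorem cal (h : ∀ i, Ov (φ i) (r i)) (hR : ∀ i, IsRad (φ i) (R i))
    (hl : H515.St.IsLattice Γ) (hicc : ICC Γ) (hdd : ∀ i, ¬ Ds Γ i → DenseRange (ev Γ i))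
    (hs : Sys0 V A B) (e₀ : ∀ i, DenseRange (ev Γ i) → ErgC (pq R Γ i) V A B)
    (e₁ : ∀ i, DenseRange (ev Γ i) → ErgC (pq R Γ i) V B A)
    (e₂ : ∀ i, DenseRange (ev Γ i) → ErgC (pq R Γ i) A V B)
    (e₃ : ∀ i, DenseRange (ev Γ i) → ErgC (pq R Γ i) B V A) :
    ∃ 𝒞, CalD {x | ∀ i, ¬ Ds Γ i → ev Γ i x = 1} {n | ∀ i, Ds Γ i → ev Γ i n = 1} V A B 𝒞 := by
  classical
  haveI b0 := fun i => (h i).top
  haveI b1 := fun i => Ov.lc (h i)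
  haveI b2 := fun i => Ov.sc (h i)
  haveI b3 := fun i => Ov.t2 (h i)
  haveI c0 := fun i => tg_quo (h i) (hR i)
  haveI c1 := fun i => lc_quo (h i) (hR i)
  haveI c2 := fun i => sc_quo (h i) (hR i)
  haveI c3 := fun i => t2_quo (h i) (hR i)
  haveI := fun i => (hR i).fin
  letI : ∀ i, MeasurableSpace (E i ⧸ R i) := fun i => borel _
  haveI : ∀ i, BorelSpace (E i ⧸ R i) := fun i => ⟨rfl⟩
  haveI : ∀ i, (Measure.haar : Measure (E i ⧸ R i)).IsMulRightInvariant := fun i =>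
    rinv_quo (h i) (hR i) _
  letI : MeasurableSpace (∀ i, E i) := borel _
  haveI : BorelSpace (∀ i, E i) := ⟨rfl⟩
  haveI := cnt_lat h hl
  obtain ⟨m, lat⟩ := H859.exists_lat Γ.subtype Γ.subtype_injective (by
    rw [Γ.range_subtype]
    exact ⟨hl.disc, hl.covol⟩)
  have nx := fun (X Y Z : Γ →* (ℋ →L[ℂ] ℋ)) g g' (i : {i // ¬ Ds Γ i})
    (e : ∀ i, DenseRange (ev Γ i) → ErgC (pq R Γ i) X Y Z) =>
    neMix h hR hl hicc (hdd i i.2) (fun i => Measure.haar) g g' (e i (hdd i i.2))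
  obtain ⟨κ, _, ξ, hT⟩ := hs.g₀
  obtain ⟨κ₁, _, ξ₁, hT₁⟩ := hs.g₁
  obtain ⟨κ₂, _, ξ₂, hT₂⟩ := hs.g₂
  obtain ⟨N, hN⟩ : ∃ N : ℕ, N = Fintype.card κ + Fintype.card κ₁ + Fintype.card κ₂ := ⟨_, rfl⟩
  have hcard : Fintype.card (Multiplicative (ZMod (N + 1))) = N + 1 := by
    rw [Fintype.card_multiplicative, ZMod.card]
  obtain ⟨ω, ω', hD⟩ := exists_dbl (Q := Multiplicative (ZMod (N + 1))) hicc hT hT₁ hT₂
    (by rw [hcard, hN]; omega) (by rw [hcard, hN]; omega) (by rw [hcard, hN]; omega)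
  obtain ⟨P, t, -, t1, qc, com⟩ := VM.legs_two VR.blkV
    (R := lR (Multiplicative (ZMod (N + 1))) A B) (f := lf Γ (Multiplicative (ZMod (N + 1))))
    (f' := fun _ => lf Γ (Multiplicative (ZMod (N + 1))) false)
    (ρ' := rl (Multiplicative (ZMod (N + 1))) V A B hT.comm₁ hT.comm₂) (ω := ω) (ω' := ω')
    (fun b : {i // ¬ Ds Γ i} => pq R Γ b) (fun b => Measure.haar) m lat
    (π := fun b => (QuotientGroup.mk' (R b)).comp (Pi.evalMonoidHom E b))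
    (fun b => QuotientGroup.continuous_mk.comp (continuous_apply b.1)) (fun b g => rfl)
    (fun b b' hb x => by
      obtain ⟨g, rfl⟩ := QuotientGroup.mk'_surjective (R b) x
      refine ⟨Pi.mulSingle b.1 g, ?_, ?_⟩
      · change (QuotientGroup.mk' (R b)) (Pi.mulSingle b.1 g b.1) = _
        rw [Pi.mulSingle_eq_same]
      · change (QuotientGroup.mk' (R b')) (Pi.mulSingle b.1 g b'.1) = _
        rw [Pi.mulSingle_eq_of_ne fun e => hb (Subtype.ext e.symm), map_one])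
    (fun b => facV_quo (h b) (hR b)) (fun b => dense_pq (hdd b b.2))
    (fun b b' hb => by
      obtain ⟨w, w1, w2⟩ := esc_fam h hR (ev Γ) (lat_ev hl) b'.1
      exact ⟨w, w1 b fun e => hb (Subtype.ext e), w2⟩) hD
    (fun g k => by
      change H333.Amp.amp (A g) * H333.Amp.amp (B k) = H333.Amp.amp (B k) * H333.Amp.amp (A g)
      rw [← amp_mul, hT.comm₁₂, amp_mul])
    (by
      rintro ⟨⟨a, b⟩, f⟩
      refine ⟨((1, 1), f), fun l => by cases l <;> rfl, ?_⟩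
      change H333.Amp.amp (A a * B b) * sg f = H333.Amp.amp (A a) *
        H333.Amp.amp (B b) * (H333.Amp.amp (A 1 * B 1) * sg f)
      rw [map_one, map_one, one_mul, amp_one, one_mul, amp_mul])
    (fun l => by
      cases l
      · exact fun g => ⟨((g, 1), 1), rfl⟩
      · exact fun g => ⟨((1, g), 1), rfl⟩)
    (fun l i j => QT.H805.f1_of_erg (hD l).fr (erg_amp (hD l).fr (e₀ i (hdd i i.2))))
    (fun l i j => by
      cases l
      · exact QT.H805.f1_of_erg (hD false).fr' (erg_amp (hD false).fr' (e₂ j (hdd j j.2)))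
      · exact QT.H805.f1_of_erg (hD true).fr' (erg_amp (hD true).fr' (e₃ j (hdd j j.2))))
    (fun l i => by
      cases l
      · obtain ⟨j, hj, b, hb, b0⟩ := nx V A B hs.g₀ hs.g₁ i e₀
        exact ⟨⟨j, hj⟩, _, smo_false hb hT.comm₁₂ ω, amp_ne b0⟩
      · obtain ⟨j, hj, b, hb, b0⟩ := nx V B A (gtri_swap hs.g₀) hs.g₂ i e₁
        exact ⟨⟨j, hj⟩, _, smo_true hb hT.comm₁₂ ω, amp_ne b0⟩)
    (fun l i => by
      cases l
      · obtain ⟨j, hj, b, hb, b0⟩ := nx A V B hs.g₁ hs.g₀ i e₂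
        exact ⟨⟨j, hj⟩, _, smo_false hb hT.comm₂ (ω' false), amp_ne b0⟩
      · obtain ⟨j, hj, b, hb, b0⟩ := nx B V A hs.g₂ (gtri_swap hs.g₀) i e₃
        exact ⟨⟨j, hj⟩, _, smo_false hb hT.comm₁ (ω' true), amp_ne b0⟩)
  choose P₁ q₁ k₁ using fun b => unamp_false (p := pq R Γ b.1)
    ⟨(qc false b).nd, (qc false b).cov, (qc false b).vcov⟩
  choose P₂ q₂ k₂ using fun b => unamp_true (p := pq R Γ b.1)
    ⟨(qc true b).nd, (qc true b).cov, (qc true b).vcov⟩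
  have k3 : ∀ x ∈ (⋃ b, Set.range (P₁ b) ∪ Set.range (P₂ b)), ∃ l b ψ,
      H333.Amp.amp x = P l b ψ := fun x hx => by
    obtain ⟨b, ⟨ψ, rfl⟩ | ⟨ψ, rfl⟩⟩ := Set.mem_iUnion.1 hx
    · exact ⟨false, b, ψ, (q₁ b ψ).symm⟩
    · exact ⟨true, b, ψ, (q₂ b ψ).symm⟩
  refine cald_of hT.adjV hT.adj₁ hT.adj₂ k₁ k₂ (fun x hx y hy => ?_) (fun x hx b => ?_)
    { carrier := {n | ∀ i, Ds Γ i → ev Γ i n = 1}
      one_mem' := fun i _ => map_one _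
      mul_mem' := fun hx hy i hi => by rw [map_mul, hx i hi, hy i hi, one_mul]
      inv_mem' := fun hx i hi => by rw [map_inv, hx i hi, inv_one] } fun C hC => ?_
  · obtain ⟨l, b, ψ, e⟩ := k3 x hx
    obtain ⟨l', b', ψ', e'⟩ := k3 y hy
    refine amp_inj (Q := Multiplicative (ZMod (N + 1))) ?_
    rw [amp_mul, amp_mul, e, e']
    exact (com l l' b b' ψ ψ').eq
  · have h1 : ∀ b : {i // ¬ Ds Γ i}, pq R Γ b x = 1 := fun b => by
      change QuotientGroup.mk' (R b) (ev Γ b x) = 1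
      rw [hx b b.2, map_one]
    exact ⟨h1 b, t1 false b _ h1, t1 true b _ h1⟩
  · obtain ⟨D, hD⟩ : ∃ D : ∀ i, Set (E i), ∀ i, D i = if hi : Ds Γ i then {1} else
        (QuotientGroup.mk : E i → E i ⧸ R i) ⁻¹' C ⟨i, hi⟩ := ⟨_, fun _ => rfl⟩
    have h1 := lat.fin _ (isCompact_univ_pi (s := D) fun i => by
      rw [hD]
      split_ifs with hi
      · exact isCompact_singleton
      · exact (proper_mk (hR i).fin).isCompact_preimage (hC _))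
    refine (h1.preimage Subtype.val_injective.injOn).subset fun n hn i _ => ?_
    rw [hD]
    split_ifs with hi
    · exact n.2 i hi
    · exact hn ⟨i, hi⟩

end top

end Vale.Agent.P092PG
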