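import Vale.Agent.P092PG.Min
import Vale.Agent.P092.H678.O.Tra

/-!
P092, product glue (helper24): groups with a decomposition indexed by the subsets of a set; counting
and splitting in this language.
-/

set_option linter.all false

open scoped InnerProductSpace ENNReal
open Filter Topology ContinuousLinearMap

namespace Vale.Agent.P092PG

open Vale.Agent.P092.H421.Hs (Pf Frq trq)
open Vale.Agent.P092.H962.Eq (adj_mul' adj_adj' adj_mul_self_ne)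
open Vale.Agent.P092.H678.OV (rs)
open Vale.Agent.P092EN (prd prd_apply prd_adj)

variable {L : Type} [NormedAddCommGroup L] [InnerProductSpace ℂ L] [CompleteSpace L]

section nz

variable {T : Type} {u : T → (L →L[ℂ] L)} {v v' a : L →L[ℂ] L}

/-- `v` normalises the family -/
def Nz (u : T → (L →L[ℂ] L)) (v : L →L[ℂ] L) : Prop :=
  ∃ θ : T → T, Function.Injective θ ∧ ∀ t, v * u t = u (θ t) * v

theorem Cr.conj (ha : Cr u a) (h : Nz u v) (h1 : v * v' = 1) (h2 : v' * v = 1) :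
    Cr u (v' * a * v) := by
  obtain ⟨θ, -, h⟩ := h
  intro t
  have e : v' * u (θ t) = u t * v' := by
    calc v' * u (θ t) = v' * (u (θ t) * v) * v' := by rw [mul_assoc, mul_assoc, h1, mul_one]
      _ = u t * v' := by rw [← h, ← mul_assoc, h2, one_mul]
  rw [mul_assoc, h, ← mul_assoc, mul_assoc v', ha, ← mul_assoc, e]
  simp only [mul_assoc]

theorem IB.conj (ha : IB u a) (h : Nz u v) (v' : L →L[ℂ] L) : IB u (v' * a * v) := by
  obtain ⟨θ, hθ, h⟩ := h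
  exact (ha.left v').of_eq θ hθ v fun t => by rw [mul_assoc, h, ← mul_assoc]

theorem exists_conj_ne {G : Type} [Group G] {σ : G →* (L →L[ℂ] L)} (hσ : Un σ) (hi : Irr σ)
    {a b : L →L[ℂ] L} (ha : a ≠ 0) (hb : b ≠ 0) : ∃ g, a * (σ g⁻¹ * b * σ g) ≠ 0 := by
  by_contra hn
  push Not at hn
  refine ha (irr0 hσ hi hb fun g => ?_)
  have h1 := congrArg (· * σ g) (hn g⁻¹)
  simp only [inv_inv, zero_mul] at h1
  rw [← h1, mul_assoc a (σ g * b * σ g⁻¹), mul_assoc (σ g * b), rinv, mul_one, mul_assoc]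

end nz

theorem Frq.of_equiv {G H Q : Type} [Group G] [Group H] {ρ : G →* (L →L[ℂ] L)}
    {R : H →* (L →L[ℂ] L)} {e : Q → L} (he : Frq ρ e) (φ : H ≃ G) (h : ∀ x, ρ (φ x) = R x) :
    Frq R e := by
  intro η
  rw [← he η, ← (Equiv.prodCongr (Equiv.refl Q) φ).tsum_eq
    fun p : Q × G => ‖⟪ρ p.2 (e p.1), η⟫_ℂ‖ₑ ^ 2]
  refine tsum_congr fun p => ?_
  change _ = ‖⟪ρ (φ p.2) (e p.1), η⟫_ℂ‖ₑ ^ 2
  rw [h]

theorem FM.of_equiv {G H : Type} [Group G] [Group H] {ρ : G →* (L →L[ℂ] L)}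
    {R : H →* (L →L[ℂ] L)} (he : FM ρ) (φ : H ≃ G) (h : ∀ x, ρ (φ x) = R x) : FM R := by
  obtain ⟨Q, e, h1, h2⟩ := he
  exact ⟨Q, e, Frq.of_equiv h1 φ h, h2⟩

/-- a decomposition of a group -/
structure Dec {G Z : Type} [Group G] (S : Set Z → Subgroup G) : Prop where
  mono : ∀ {A B}, A ⊆ B → S A ≤ S B
  comm : ∀ {A B}, Disjoint A B → ∀ x ∈ S A, ∀ y ∈ S B, x * y = y * x
  sup : ∀ A B, ∀ g ∈ S (A ∪ B), ∃ x ∈ S A, ∃ y ∈ S B, g = x * y
  inj : ∀ {A B}, Disjoint A B → ∀ x ∈ S A, x ∈ S B → x = 1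
  top : ∀ g, g ∈ S Set.univ

namespace Dec

variable {G Z : Type} [Group G] {S : Set Z → Subgroup G} (h : Dec S) {σ : G →* (L →L[ℂ] L)}
  {A B : Set Z} {a b : L →L[ℂ] L}

include h

theorem split (A : Set Z) (g : G) : ∃ x ∈ S A, ∃ y ∈ S Aᶜ, g = x * y :=
  h.sup A Aᶜ g (by rw [Set.union_compl_self]; exact h.top g)

theorem conj_mem (g : G) {s : G} (hs : s ∈ S A) : g * s * g⁻¹ ∈ S A := by
  obtain ⟨x, hx, y, hy, rfl⟩ := h.split A g
  rw [mul_assoc x, ← h.comm disjoint_compl_right s hs y hy, mul_inv_rev, ← mul_assoc,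
    mul_assoc _ _ y⁻¹, mul_assoc s, mul_inv_cancel, mul_one]
  exact (S A).mul_mem ((S A).mul_mem hx hs) ((S A).inv_mem hx)

theorem nz (A : Set Z) (g : G) : Nz (rs (S A) σ) (σ g) := by
  refine ⟨fun s => ⟨g * s * g⁻¹, h.conj_mem g s.2⟩, fun s t e => ?_, fun s => ?_⟩
  · have h1 : g * s * g⁻¹ = g * t * g⁻¹ := congrArg Subtype.val e
    exact Subtype.ext (mul_left_cancel (mul_right_cancel h1))
  · change σ g * σ s = σ (g * s * g⁻¹) * σ g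
    rw [← map_mul, ← map_mul, inv_mul_cancel_right]

theorem cr_conj (ha : Cr (rs (S A) σ) a) (g : G) : Cr (rs (S A) σ) (σ g⁻¹ * a * σ g) :=
  ha.conj (h.nz A g) (rinv' σ g) (rinv σ g)

theorem ib_conj (ha : IB (rs (S A) σ) a) (g : G) : IB (rs (S A) σ) (σ g⁻¹ * a * σ g) :=
  ha.conj (h.nz A g) _

theorem cr_mono (ha : Cr (rs (S B) σ) a) (hAB : A ⊆ B) : Cr (rs (S A) σ) a := fun s =>
  ha ⟨s, h.mono hAB s.2⟩

theorem cr_union (ha : Cr (rs (S A) σ) a) (hb : Cr (rs (S B) σ) a) :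
    Cr (rs (S (A ∪ B)) σ) a := fun s => by
  obtain ⟨x, hx, y, hy, e⟩ := h.sup A B s s.2
  have h1 : a * σ x = σ x * a := ha ⟨x, hx⟩
  have h2 : a * σ y = σ y * a := hb ⟨y, hy⟩
  change a * σ s = σ s * a
  rw [e, map_mul, ← mul_assoc, h1, mul_assoc, h2, mul_assoc]

theorem cr_mem (hd : Disjoint A B) {g : G} (hg : g ∈ S A) : Cr (rs (S B) σ) (σ g) := fun s => by
  change σ g * σ s = σ s * σ g
  rw [← map_mul, ← map_mul, h.comm hd g hg s s.2]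

theorem cr_all (ha : Cr (rs (S Set.univ) σ) a) : Cr σ a := fun g => ha ⟨g, h.top g⟩

theorem ib_union (ha : IB (rs (S A) σ) a) (hb : IB (rs (S B) σ) b) (hc : Cr (rs (S A) σ) b) :
    IB (rs (S (A ∪ B)) σ) (a * b) := by
  choose x hx y hy e using h.sup A B
  refine (ha.prod hb hc).comp (fun s => (⟨x s s.2, hx s s.2⟩, ⟨y s s.2, hy s s.2⟩))
    (fun s t e' => ?_) fun s => ?_
  · have h1 : x s s.2 = x t t.2 := congrArg (fun p : S A × S B => (p.1 : G)) e'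
    have h2 : y s s.2 = y t t.2 := congrArg (fun p : S A × S B => (p.2 : G)) e'
    exact Subtype.ext (by rw [e s s.2, e t t.2, h1, h2])
  · change σ s = σ (x s s.2) * σ (y s s.2)
    rw [← map_mul, ← e]

theorem ib_empty (a : L →L[ℂ] L) : IB (rs (S ∅) σ) a := by
  haveI : Subsingleton (S ∅) := ⟨fun x y => Subtype.ext (by
    rw [h.inj (Set.disjoint_empty ∅) x x.2 x.2, h.inj (Set.disjoint_empty ∅) y y.2 y.2])⟩
  exact IB.of_finite _ _

theorem exists_eqv (hd : Disjoint A B) :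
    ∃ φ : S A × S B ≃ S (A ∪ B), ∀ x y, (φ (x, y) : G) = x * y := by
  refine ⟨Equiv.ofBijective (fun p => ⟨p.1 * p.2, (S _).mul_mem
    (h.mono Set.subset_union_left p.1.2) (h.mono Set.subset_union_right p.2.2)⟩) ⟨?_, ?_⟩,
    fun x y => rfl⟩
  · rintro ⟨x, y⟩ ⟨x', y'⟩ e
    have h1 : (x : G) * y = x' * y' := congrArg Subtype.val e
    have h2 : (x' : G)⁻¹ * x = y' * (y : G)⁻¹ := by
      rw [inv_mul_eq_iff_eq_mul, ← mul_assoc, ← h1, mul_inv_cancel_right]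
    have h3 := h.inj hd _ ((S A).mul_mem ((S A).inv_mem x'.2) x.2)
      (by rw [h2]; exact (S B).mul_mem y'.2 ((S B).inv_mem y.2))
    have h4 : x' = x := Subtype.ext (inv_mul_eq_one.1 h3)
    subst h4
    rw [Subtype.ext (mul_left_cancel h1)]
  · intro s
    obtain ⟨x, hx, y, hy, e⟩ := h.sup A B s s.2
    exact ⟨(⟨x, hx⟩, ⟨y, hy⟩), Subtype.ext e.symm⟩

theorem frq_union (hd : Disjoint A B) {Q : Type} {e : Q → L} (he : Frq (rs (S (A ∪ B)) σ) e) :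
    Frq (rs (S A) σ) fun p : Q × S B => rs (S B) σ p.2 (e p.1) := by
  obtain ⟨φ, hφ⟩ := h.exists_eqv hd
  refine frq_sub φ (fun x y => ?_) he
  change σ (φ (x, y)) = σ x * σ y
  rw [hφ, map_mul]

theorem frq_prd (hd : Disjoint A B) {Q : Type} {e : Q → L} (he : Frq (rs (S (A ∪ B)) σ) e)
    (hc : ∀ x y, rs (S A) σ x * rs (S B) σ y = rs (S B) σ y * rs (S A) σ x) :
    Frq (prd (rs (S A) σ) (rs (S B) σ) hc) e := by
  obtain ⟨φ, hφ⟩ := h.exists_eqv hd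
  refine Frq.of_equiv he φ fun p => ?_
  change σ (φ (p.1, p.2)) = σ p.1 * σ p.2
  rw [hφ, map_mul]

theorem fm_of_prd (hd : Disjoint A B)
    {hc : ∀ x y, rs (S A) σ x * rs (S B) σ y = rs (S B) σ y * rs (S A) σ x}
    (he : FM (prd (rs (S A) σ) (rs (S B) σ) hc)) : FM (rs (S (A ∪ B)) σ) := by
  obtain ⟨φ, hφ⟩ := h.exists_eqv hd
  refine he.of_equiv φ.symm fun p => ?_
  obtain ⟨⟨x, y⟩, rfl⟩ := φ.surjective p
  rw [Equiv.symm_apply_apply]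
  change σ x * σ y = σ (φ (x, y))
  rw [hφ, map_mul]

/-- **Counting.** -/
theorem cnt (hσ : Un σ) (hi : Irr σ) {D : Set Z} (hAB : Disjoint A B) (hDA : Disjoint D A)
    (hm : FM (rs (S (A ∪ B)) σ)) [Infinite (S D)] {w c : L →L[ℂ] L} (w0 : w ≠ 0)
    (w1 : Cr (rs (S A) σ) w) (w2 : Cr (rs (S D) σ) w) (w3 : IB (rs (S B) σ) w) (c0 : c ≠ 0)
    (c1 : Cr (rs (S A) σ) c) (c2 : IB (rs (S D) σ) c) : False := by
  obtain ⟨Q, e, he, hm⟩ := hm
  obtain ⟨g, hg⟩ := exists_conj_ne hσ hi c0 w0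
  exact hg (cnt_zero (hσ.comp _) (h.frq_union hAB he) (h.cr_conj w1 g) c1
    (fun t => h.cr_mem hDA t.2) (fun t v => by
      change ‖adjoint (σ t) v‖ = _
      rw [hσ, hσ.nrm]) (h.cr_conj w2 g) (trq_ib (h.ib_conj w3 g) hm) c2)

theorem mul_ne (hσ : Un σ) (hi : Irr σ) (ha : Cr (rs (S Aᶜ) σ) a) (hb : Cr (rs (S A) σ) b)
    (a0 : a ≠ 0) (b0 : b ≠ 0) : a * b ≠ 0 := fun h0 => by
  refine a0 (irr0 hσ hi b0 fun g => ?_)
  obtain ⟨x, hx, y, hy, rfl⟩ := h.split Aᶜ g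
  rw [compl_compl] at hy
  have h1 : a * σ x = σ x * a := ha ⟨x, hx⟩
  have h2 : b * σ y = σ y * b := hb ⟨y, hy⟩
  rw [map_mul, ← mul_assoc, h1, mul_assoc, ← h2, mul_assoc, ← mul_assoc a, h0, zero_mul, mul_zero]

theorem four (hσ : Un σ) (hi : Irr σ) (A B : Set Z) : Four (rs (S (A ∩ B)) σ) (rs (S (A ∩ Bᶜ)) σ)
    (rs (S (Aᶜ ∩ B)) σ) (rs (S (Aᶜ ∩ Bᶜ)) σ) := by
  have d1 : ∀ {X Y : Set Z}, Disjoint (A ∩ X) (Aᶜ ∩ Y) := fun {X Y} =>
    disjoint_compl_right.mono Set.inter_subset_left Set.inter_subset_left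
  have d2 : ∀ {X Y : Set Z}, Disjoint (X ∩ B) (Y ∩ Bᶜ) := fun {X Y} =>
    disjoint_compl_right.mono Set.inter_subset_right Set.inter_subset_right
  refine ⟨hσ.comp _, hσ.comp _, hσ.comp _, hσ.comp _, fun m => h.cr_mem d2 m.2,
    fun m => h.cr_mem d1 m.2, fun m => h.cr_mem d1 m.2, fun m => h.cr_mem d1 m.2,
    fun m => h.cr_mem d1 m.2, fun m => h.cr_mem d2 m.2, fun T h1 h2 h3 h4 => hi T (h.cr_all ?_)⟩
  have h5 := h.cr_union (h.cr_union h1 h2) (h.cr_union h3 h4)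
  rwa [Set.inter_union_compl, Set.inter_union_compl, Set.union_compl_self] at h5

theorem cr_prd_iff {hc : ∀ x y, rs (S (A ∩ B)) σ x * rs (S (A ∩ Bᶜ)) σ y =
    rs (S (A ∩ Bᶜ)) σ y * rs (S (A ∩ B)) σ x} :
    Cr (prd (rs (S (A ∩ B)) σ) (rs (S (A ∩ Bᶜ)) σ) hc) a ↔ Cr (rs (S A) σ) a := by
  rw [cr_prd]
  constructor
  · rintro ⟨h1, h2⟩
    have h3 := h.cr_union h1 h2
    rwa [Set.inter_union_compl] at h3
  · exact fun h1 => ⟨h.cr_mono h1 Set.inter_subset_left, h.cr_mono h1 Set.inter_subset_left⟩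

/-- **Splitting.** -/
theorem splits (hσ : Un σ) (hi : Irr σ) (hm : FM (rs (S B) σ)) {y z : L →L[ℂ] L} (y0 : y ≠ 0)
    (y1 : Cr (rs (S A) σ) y) (y2 : IB (rs (S (Aᶜ ∩ B)) σ) y) (z0 : z ≠ 0)
    (z1 : Cr (rs (S Aᶜ) σ) z) (z2 : IB (rs (S (A ∩ B)) σ) z) :
    (∀ a d, Cr (rs (S Aᶜ) σ) a → Cr (rs (S A) σ) d → a * d = d * a) ∧
      ∃ g, MinP (rs (S Aᶜ) σ) g := by
  obtain ⟨Q, e, he, hm⟩ := hm
  have F := h.four hσ hi A B
  have he' : Frq (rs (S (A ∩ B ∪ Aᶜ ∩ B)) σ) e := by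
    rwa [← Set.union_inter_distrib_right, Set.union_compl_self, Set.univ_inter]
  have he2 := h.frq_prd
    (disjoint_compl_right.mono Set.inter_subset_left Set.inter_subset_left) he' F.μν
  have hy : F.IP y := ⟨h.cr_prd_iff.2 y1, y2⟩
  have hz : F.swap.IP z := ⟨h.cr_prd_iff.2 z1, z2⟩
  refine ⟨fun a d ha hd => Four.comm he2 hm hy y0 hz z0 (h.cr_prd_iff.2 ha) (h.cr_prd_iff.2 hd), ?_⟩
  obtain ⟨g, hg⟩ := Four.exists_min he2 hm hy y0 hz z0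
  exact ⟨g, h.cr_prd_iff.1 hg.cr, hg.adj, hg.sq, hg.ne, fun a ha => hg.min a (h.cr_prd_iff.2 ha)⟩

end Dec

end Vale.Agent.P092PG
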