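import Vale.Agent.P092PG.Lp

/-!
P092, product glue (helper24): an operator whose column has a dense domain is replaced by a square
integrable one (projection on the graph).
-/

set_option linter.all false

open scoped InnerProductSpace ENNReal
open Filter Topology ContinuousLinearMap

namespace Vale.Agent.P092PG

open Vale.Agent.P092.H421.Hs (enn_sq' enn_congr)
open Vale.Agent.P092.H962.Eq (adj_mul' adj_adj' adj_starProjection)

variable {L : Type} [NormedAddCommGroup L] [InnerProductSpace ℂ L] [CompleteSpace L] {T : Type}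

/-- the graph of a column -/
noncomputable def graph (a : T → (L →L[ℂ] L)) :
    Submodule ℂ (WithLp 2 (L × lp (fun _ : T => L) 2)) where
  carrier := {F | ∀ t, (F.snd : T → L) t = a t F.fst}
  add_mem' := fun {F G} hF hG t => by
    change (F.snd : T → L) t + (G.snd : T → L) t = a t (F.fst + G.fst)
    rw [hF t, hG t, map_add]
  zero_mem' := fun t => by
    change (0 : L) = a t 0
    rw [map_zero]
  smul_mem' := fun c F hF t => by
    change c • (F.snd : T → L) t = a t (c • F.fst)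
    rw [hF t, map_smul]

theorem graph_closed (a : T → (L →L[ℂ] L)) :
    IsClosed (graph a : Set (WithLp 2 (L × lp (fun _ : T => L) 2))) := by
  have e : (graph a : Set (WithLp 2 (L × lp (fun _ : T => L) 2))) =
      ⋂ t, {F | (F.snd : T → L) t = a t F.fst} := by
    ext F
    rw [Set.mem_iInter]
    rfl
  rw [e]
  refine isClosed_iInter fun t => isClosed_eq ?_ ?_
  · exact (lp.evalCLM ℂ (fun _ : T => L) 2 t).continuous.comp (WithLp.continuous_snd _ _ _)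
  · exact (a t).continuous.comp (WithLp.continuous_fst _ _ _)

theorem exists_res (a : T → (L →L[ℂ] L)) : ∃ r : L →L[ℂ] L, adjoint r = r ∧
    (∀ η, ∑' t, ‖a t (r η)‖ₑ ^ 2 ≤ ‖η‖ₑ ^ 2) ∧
    (∀ η, r η = 0 → ∀ ζ, (SQ fun t => a t ζ) → ⟪ζ, η⟫_ℂ = 0) ∧
    ∀ v v' : L →L[ℂ] L, (∀ x, v (v' x) = x) → (∀ x, ‖v x‖ = ‖x‖) →
      (∀ ζ, ∑' t, ‖a t (v ζ)‖ₑ ^ 2 = ∑' t, ‖a t ζ‖ₑ ^ 2) → r * v = v * r := by
  haveI : CompleteSpace (graph a) := (graph_closed a).completeSpace_coe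
  obtain ⟨j, hj⟩ : ∃ j : L →L[ℂ] WithLp 2 (L × lp (fun _ : T => L) 2),
      ∀ η, j η = WithLp.toLp 2 (η, 0) :=
    ⟨(WithLp.prodContinuousLinearEquiv 2 ℂ L (lp (fun _ : T => L) 2)).symm.toContinuousLinearMap ∘L
      ContinuousLinearMap.inl ℂ _ _, fun η => rfl⟩
  obtain ⟨P, hP⟩ : ∃ P, P = (graph a).starProjection := ⟨_, rfl⟩
  obtain ⟨r, hr⟩ : ∃ r : L →L[ℂ] L, ∀ η, r η = (P (j η)).fst :=
    ⟨WithLp.fstL 2 ℂ L (lp (fun _ : T => L) 2) ∘L (P ∘L j), fun η => rfl⟩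
  have hm : ∀ η, P (j η) ∈ graph a := fun η => by
    rw [hP]; exact Submodule.starProjection_apply_mem _ _
  have hji : ∀ F η, ⟪F, j η⟫_ℂ = ⟪F.fst, η⟫_ℂ := fun F η => by
    rw [hj, WithLp.prod_inner_apply]
    change ⟪F.fst, η⟫_ℂ + ⟪F.snd, (0 : lp (fun _ : T => L) 2)⟫_ℂ = _
    rw [inner_zero_right, add_zero]
  have hPa : adjoint P = P := by rw [hP]; exact adj_starProjection _
  -- the distance to the points of the graph
  have hd : ∀ η F, F ∈ graph a →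
      ‖j η - F‖ₑ ^ 2 = ‖η - F.fst‖ₑ ^ 2 + ∑' t, ‖a t F.fst‖ₑ ^ 2 := by
    intro η F hF
    have h1 : ∑' t, ‖a t F.fst‖ₑ ^ 2 = ‖F.snd‖ₑ ^ 2 := by
      rw [lp_enorm]
      exact tsum_congr fun t => by rw [hF t]
    rw [h1, enn_sq', enn_sq', enn_sq', WithLp.prod_norm_sq_eq_of_L2,
      ← ENNReal.ofReal_add (sq_nonneg _) (sq_nonneg _), hj]
    congr 2
    change ‖(0 : lp (fun _ : T => L) 2) - F.snd‖ ^ 2 = _
    rw [zero_sub, norm_neg]
  have hmin : ∀ η F, F ∈ graph a → ‖j η - P (j η)‖ ≤ ‖j η - F‖ := by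
    intro η F hF
    rw [hP, Submodule.starProjection_minimal]
    exact ciInf_le ⟨0, by rintro _ ⟨x, rfl⟩; exact norm_nonneg _⟩ (⟨F, hF⟩ : graph a)
  have hmin' : ∀ η θ, ‖η - r η‖ₑ ^ 2 + ∑' t, ‖a t (r η)‖ₑ ^ 2 ≤
      ‖η - θ‖ₑ ^ 2 + ∑' t, ‖a t θ‖ₑ ^ 2 := by
    intro η θ
    by_cases hθ : SQ fun t => a t θ
    · have h1 := hd η (WithLp.toLp 2 (θ, mk hθ)) fun t => rfl
      rw [hr, ← hd η _ (hm η)]
      refine le_trans ?_ h1.le
      rw [enn_sq', enn_sq']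
      exact ENNReal.ofReal_le_ofReal (pow_le_pow_left₀ (norm_nonneg _)
        (hmin η _ fun t => rfl) 2)
    · have h1 : ∑' t, ‖a t θ‖ₑ ^ 2 = ∞ := not_not.1 hθ
      rw [h1, add_top]
      exact le_top
  have hle : ∀ η, ∑' t, ‖a t (r η)‖ₑ ^ 2 ≤ ‖η‖ₑ ^ 2 := by
    intro η
    have h1 := hmin' η 0
    simp only [map_zero, sub_zero, enorm_zero, ne_eq, OfNat.ofNat_ne_zero, not_false_eq_true,
      zero_pow, tsum_zero, add_zero] at h1
    exact le_add_self.trans h1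
  have huq : ∀ η ζ, (∀ θ, ‖η - ζ‖ₑ ^ 2 + ∑' t, ‖a t ζ‖ₑ ^ 2 ≤
      ‖η - θ‖ₑ ^ 2 + ∑' t, ‖a t θ‖ₑ ^ 2) → r η = ζ := by
    intro η ζ h
    have hζ : SQ fun t => a t ζ := by
      have h1 := h 0
      simp only [map_zero, sub_zero, enorm_zero, ne_eq, OfNat.ofNat_ne_zero, not_false_eq_true,
        zero_pow, tsum_zero, add_zero] at h1
      exact ne_top_of_le_ne_top (esq_ne η) (le_add_self.trans h1)
    have hG : WithLp.toLp 2 (ζ, mk hζ) ∈ graph a := fun t => rfl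
    have h2 : P (j η) = WithLp.toLp 2 (ζ, mk hζ) := by
      rw [hP]
      refine Submodule.eq_starProjection_of_mem_of_inner_eq_zero hG ?_
      refine ((graph a).norm_eq_iInf_iff_inner_eq_zero hG).1 (le_antisymm ?_ ?_)
      · refine le_ciInf fun F => ?_
        have h3 := h F.1.fst
        rw [← hd η F.1 F.2] at h3
        have h4 := hd η _ hG
        change _ = ‖η - ζ‖ₑ ^ 2 + ∑' t, ‖a t ζ‖ₑ ^ 2 at h4
        rw [← h4, enn_sq', enn_sq', ENNReal.ofReal_le_ofReal_iff (sq_nonneg _)] at h3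
        exact le_of_sq_le_sq h3 (norm_nonneg _)
      · exact ciInf_le ⟨0, by rintro _ ⟨x, rfl⟩; exact norm_nonneg _⟩ (⟨_, hG⟩ : graph a)
    rw [hr, h2]
    rfl
  refine ⟨r, ?_, hle, fun η h0 ζ hζ => ?_, fun v v' h1 h2 h3 => ?_⟩
  · symm
    rw [ContinuousLinearMap.eq_adjoint_iff]
    intro η ζ
    rw [hr, hr, ← hji, ← inner_conj_symm η, ← hji, inner_conj_symm, ← adjoint_inner_right, hPa]
  · have h1 : P (j η) = 0 := by
      have h2 : (P (j η)).snd = 0 := lp.ext (funext fun t => by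
        rw [hm η t, ← hr, h0, map_zero]
        rfl)
      have h3 : (P (j η)).fst = 0 := by rw [← hr, h0]
      rw [← norm_eq_zero, ← pow_eq_zero_iff two_ne_zero, WithLp.prod_norm_sq_eq_of_L2, h2, h3]
      simp
    rw [hP, Submodule.starProjection_apply_eq_zero_iff] at h1
    have h2 := h1 (WithLp.toLp 2 (ζ, mk hζ)) fun t => rfl
    rw [hji] at h2
    exact h2
  · refine ContinuousLinearMap.ext fun η => huq (v η) (v (r η)) fun θ => ?_
    rw [← map_sub, enn_congr (h2 _), h3, ← h1 θ, ← map_sub, enn_congr (h2 _), h3]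
    exact hmin' η (v' θ)

/-- **From a dense domain to a square integrable operator.** -/
theorem exists_fi {D : Type} [Group D] {ρ : D →* (L →L[ℂ] L)} (hρ : Un ρ) {x : L →L[ℂ] L}
    (hx : x ≠ 0) (hd : ∀ η, (∀ ζ, (SQ fun t => x (ρ t ζ)) → ⟪ζ, η⟫_ℂ = 0) → η = 0) :
    ∃ f : L →L[ℂ] L, f ≠ 0 ∧ IB ρ f ∧ ∀ v v' : L →L[ℂ] L, (∀ a, v (v' a) = a) →
      (∀ a, ‖v a‖ = ‖a‖) → x * v = v * x → Cr ρ v → f * v = v * f := by
  obtain ⟨r, r1, r2, r3, r4⟩ := exists_res fun t => x * ρ t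
  have hc : Cr ρ r := fun s => r4 (ρ s) (ρ s⁻¹) (api ρ s) (hρ.nrm s) fun ζ => by
    rw [← (Equiv.mulRight s).tsum_eq fun t => ‖(x * ρ t) ζ‖ₑ ^ 2]
    refine tsum_congr fun t => ?_
    change ‖x (ρ t (ρ s ζ))‖ₑ ^ 2 = ‖x (ρ (t * s) ζ)‖ₑ ^ 2
    rw [rmul]
  refine ⟨x * r, fun h0 => hx ?_, ⟨1, ENNReal.one_ne_top, fun η => ?_⟩, fun v v' h1 h2 h3 h4 => ?_⟩
  · have h1 := congrArg adjoint h0
    rw [adj_mul', r1, map_zero] at h1
    have h2 : adjoint x = 0 := ContinuousLinearMap.ext fun w => hd _ (r3 _ (ap h1 w))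
    rw [← adj_adj' x, h2, map_zero]
  · rw [one_mul]
    refine le_trans (le_of_eq (tsum_congr fun t => ?_)) (r2 η)
    change ‖x (r (ρ t η))‖ₑ ^ 2 = ‖x (ρ t (r η))‖ₑ ^ 2
    rw [hc.ap]
  · have h5 := r4 v v' h1 h2 fun ζ => tsum_congr fun t => by
      change ‖x (ρ t (v ζ))‖ₑ ^ 2 = ‖x (ρ t ζ)‖ₑ ^ 2
      rw [← h4.ap, cap h3, enn_congr (h2 _)]
    rw [mul_assoc, h5, ← mul_assoc, h3, mul_assoc]

end Vale.Agent.P092PG
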