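import Vale.Agent.P092PG.Mod
import Vale.Agent.P092PG.FI
import Vale.Agent.P092.QT.Q.Mat
import Vale.Agent.P092.H35.Mx.S2

/-!
P092, product glue (helper24): fields with a discrete source. A discrete target gives a square
integrable operator, a dense target is impossible.
-/

set_option linter.all false

open scoped InnerProductSpace ENNReal
open Filter Topology ContinuousLinearMap MeasureTheory

namespace Vale.Agent.P092PG

open Vale.Agent.P092 Vale.Agent.P092.H678.OV Vale.Agent.P092.H333.Amp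
open Vale.Agent.P092.QT.H156.Sm (Frm Fd L2 Smo ACont nsq)
open Vale.Agent.P092.QT.H715.Q (Dbl fl F1 fl_fl fl_zero)
open Vale.Agent.P092.H421.Hs (enn_congr)
open Vale.Agent.P092EN (prd prd_apply prd_adj)

theorem exists_pt {G D : Type} [Group G] [TopologicalSpace G] [IsTopologicalGroup G]
    [MeasurableSpace G] [BorelSpace G] [Countable D] (μ : Measure G) [μ.IsHaarMeasure]
    {F : G → ℝ≥0∞} (hF : Measurable F) (hi : ∫⁻ x, F x ∂μ ≠ ∞) (s : D → G) {U : Set G}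
    (hU : U ∈ 𝓝 (1 : G)) (hs : ∀ d d', (s d)⁻¹ * s d' ∈ U → d = d') {O : Set G} (hO : IsOpen O)
    {y : G} (hy : y ∈ O) : ∃ x ∈ O, ∑' d, F (s d * x) ≠ ∞ := by
  obtain ⟨W, hW, hW'⟩ := exists_nhds_split_inv hU
  obtain ⟨W₁, h1, h2, h3⟩ := mem_nhds_iff.1 hW
  obtain ⟨Z, hZ⟩ : ∃ Z, Z = O ∩ (fun x => x * y⁻¹) ⁻¹' W₁ := ⟨_, rfl⟩
  have zo : IsOpen Z := by
    rw [hZ]
    exact hO.inter (h2.preimage (continuous_mul_const _))
  have zy : y ∈ Z := by
    rw [hZ]
    refine ⟨hy, ?_⟩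
    change y * y⁻¹ ∈ W₁
    rwa [mul_inv_cancel]
  have m1 : ∀ d, MeasurableSet ((fun x => (s d)⁻¹ * x) ⁻¹' Z) := fun d =>
    zo.measurableSet.preimage (measurable_const_mul _)
  have e1 : ∀ d, ∫⁻ x in Z, F (s d * x) ∂μ = ∫⁻ x in (fun x => (s d)⁻¹ * x) ⁻¹' Z, F x ∂μ := by
    intro d
    rw [← lintegral_indicator zo.measurableSet, ← lintegral_indicator (m1 d),
      ← lintegral_mul_left_eq_self (((fun x => (s d)⁻¹ * x) ⁻¹' Z).indicator F) (s d)]
    refine lintegral_congr fun x => ?_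
    by_cases hx : x ∈ Z
    · rw [Set.indicator_of_mem hx, Set.indicator_of_mem]
      change (s d)⁻¹ * (s d * x) ∈ Z
      rwa [inv_mul_cancel_left]
    · rw [Set.indicator_of_notMem hx, Set.indicator_of_notMem]
      change ¬ (s d)⁻¹ * (s d * x) ∈ Z
      rwa [inv_mul_cancel_left]
  have h4 : ∫⁻ x in Z, ∑' d, F (s d * x) ∂μ ≠ ∞ := by
    rw [lintegral_tsum (f := fun d x => F (s d * x))
      fun d => (hF.comp (measurable_const_mul (s d))).aemeasurable]
    simp only [e1]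
    rw [← lintegral_iUnion m1]
    · exact ne_top_of_le_ne_top hi (setLIntegral_le_lintegral _ _)
    · intro d d' hd
      refine Set.disjoint_left.2 fun x hx hx' => hd (hs d d' ?_)
      rw [hZ] at hx hx'
      have h5 := hW' _ (h1 hx.2) _ (h1 hx'.2)
      have e2 : (s d)⁻¹ * x * y⁻¹ / ((s d')⁻¹ * x * y⁻¹) = (s d)⁻¹ * s d' := by
        rw [div_eq_mul_inv]
        group
      rwa [e2] at h5
  have h5 := ae_lt_top (Measurable.ennreal_tsum fun d => hF.comp (measurable_const_mul (s d))) h4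
  haveI : (ae (μ.restrict Z)).NeBot := ae_restrict_neBot.2 (zo.measure_ne_zero μ ⟨y, zy⟩)
  obtain ⟨x, h6, h7⟩ := (h5.and (ae_restrict_mem zo.measurableSet)).exists
  rw [hZ] at h7
  exact ⟨x, h7.1, h6.ne⟩

theorem esc_sub {Γ H Y : Type} [Group Γ] [Group H] [TopologicalSpace H] [IsTopologicalGroup H]
    (κ : Γ →* H) (F : Γ → Y) {s : Set Y} (hs : s.Finite) {w : ℕ → Γ}
    (hw : ∀ᶠ n in atTop, F (w n) ∈ s) (h2 : Tendsto (fun n => κ (w n)) atTop (cocompact H)) :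
    ∃ w' : ℕ → Γ, (∀ n, ∃ x y, F x = F y ∧ w' n = x⁻¹ * y) ∧
      Tendsto (fun n => κ (w' n)) atTop (cocompact H) := by
  have h1 : ∃ᶠ n in atTop, ∃ y ∈ s, F (w n) = y :=
    (hw.mono fun n hn => ⟨_, hn, rfl⟩).frequently
  obtain ⟨y, -, hy⟩ := hs.frequently_exists.1 h1
  obtain ⟨ψ, h3, h4⟩ := extraction_of_frequently_atTop hy
  refine ⟨fun n => (w (ψ 0))⁻¹ * w (ψ n), fun n => ⟨_, _, by rw [h4, h4], rfl⟩, ?_⟩
  simp only [map_mul]
  exact (Filter.tendsto_cocompact_mul_left (a := κ (w (ψ 0))⁻¹) (b := κ (w (ψ 0)))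
    (by rw [← map_mul, mul_inv_cancel, map_one])).comp (h2.comp h3.tendsto_atTop)

section abs

variable {Γ G Q ℋ : Type} [Group Γ] [Countable Γ] [Group Q] [Fintype Q] [NormedAddCommGroup ℋ]
  [InnerProductSpace ℂ ℋ] [CompleteSpace ℋ] [Group G] [TopologicalSpace G] [IsTopologicalGroup G]
  [MeasurableSpace G] [BorelSpace G] [SecondCountableTopology G] [LocallyCompactSpace G]
  [T2Space G] {V A B : Γ →* (ℋ →L[ℂ] ℋ)} {p : Γ →* G} {μ : Measure G} [μ.IsHaarMeasure]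
  {hc : ∀ g k, A g * B k = B k * A g} {ω : KT Q ℋ} {a : G → KT Q ℋ →L[ℂ] KT Q ℋ}

theorem rt_A (g : Γ) : rt Q (pr A B hc) ((g, 1), 1) = H333.Amp.amp (A g) := by
  rw [rt_apply, pr_apply, map_one, mul_one, sg_one, mul_one]

theorem rt_B (g : Γ) : rt Q (pr A B hc) ((1, g), 1) = H333.Amp.amp (B g) := by
  rw [rt_apply, pr_apply, map_one, one_mul, sg_one, mul_one]

theorem fd_cm (ha : Fd (p.comp (lf Γ Q false)) (rt Q (pr A B hc)) a) (z : XG Γ Q) (y : G) :
    a (p z.1.1 * y) * rt Q (pr A B hc) z = rt Q (pr A B hc) z * a y := by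
  have h1 : a (p z.1.1 * y) = _ := ha.equiv z y
  rw [h1, mul_assoc, rinv, mul_one]

theorem norm_co (v : KT Q ℋ) (j : Q) : ‖v j‖ₑ ≤ ‖v‖ₑ := by
  rw [← ofReal_norm_eq_enorm, ← ofReal_norm_eq_enorm]
  exact ENNReal.ofReal_le_ofReal (PiLp.norm_apply_le v j)

/-- **A discrete target.** -/
theorem rel_disc (uV : Un V) (uA : Un A) (uB : Un B) (cV : ∀ g k, V g * A k = A k * V g)
    (hF : Frm (rt Q (pr A B hc)) (av Q V) ω)
    (ha : Fd (p.comp (lf Γ Q false)) (rt Q (pr A B hc)) a) (h2 : L2 ω μ a) (h0 : a ≠ 0)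
    {K P : Set Γ} (N : Subgroup Γ)
    (hK : ∀ v ∈ K, ∀ x, a x * H333.Amp.amp (V v) = H333.Amp.amp (V v) * a x)
    (hd : DiscreteTopology (Set.range p)) (hN : ∀ n ∈ N, p n = 1 → n = 1)
    (hP : ∀ y ∈ P, p y = 1 ∧ ∀ n ∈ N, y * n = n * y) : RelX K P N V A B := by
  obtain ⟨U, hU, hU'⟩ := H35.Mx.nhd_of_disc (S := Set.range p) ⟨1, map_one p⟩ hd
  obtain ⟨y₀, hy₀⟩ := Function.ne_iff.1 h0
  haveI : Countable (Set.range p) := (Set.countable_range p).to_subtype
  obtain ⟨y, hy, hs⟩ := exists_pt μ (F := fun x => ‖a x ω‖ₑ ^ 2)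
    ((ha.continuous_apply ω).enorm.measurable.pow_const 2) (QT.H156.Sm.nsq_lt_top h2).ne
    (fun d : Set.range p => d.1) hU (by
      rintro ⟨_, g, rfl⟩ ⟨_, g', rfl⟩ h
      refine Subtype.ext (inv_mul_eq_one.1 (hU' _ ⟨g⁻¹ * g', by rw [map_mul, map_inv]⟩ h)))
    (O := {x | a x ≠ 0}) (isOpen_ne_fun ha.continuous continuous_const) hy₀
  have k1 : ∀ z : XG Γ Q, p z.1.1 = 1 → a y * rt Q (pr A B hc) z = rt Q (pr A B hc) z * a y :=
    fun z hz => by
      have h3 := fd_cm ha z y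
      rwa [hz, one_mul] at h3
  obtain ⟨x, hx⟩ : ∃ x : ℋ →L[ℂ] ℋ, a y = H333.Amp.amp x := comm_sg fun f => by
    have h3 := k1 ((1, 1), f) (map_one p)
    rwa [rt_apply, pr_apply, map_one, map_one, one_mul, amp_one, one_mul] at h3
  have x0 : x ≠ 0 := fun h => hy (by rw [hx, h, amp_zero])
  obtain ⟨f, f0, f1, f2⟩ := exists_fi (ρ := rs N A) (uA.comp _) x0 fun η hη => by
    have h3 : (em (1 : Q) η : KT Q ℋ) = 0 := hF.reg.total _ fun z => by
      have h4 : SQ fun t : N => x (A t (rt Q (pr A B hc) z ω 1)) := by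
        refine ne_top_of_le_ne_top hs (le_trans (ENNReal.tsum_le_tsum fun t => ?_)
          (ENNReal.tsum_comp_le_tsum_of_injective (f := fun t : N =>
            (⟨p ((t : Γ) * z.1.1)⁻¹, _, rfl⟩ : Set.range p)) (fun t t' e => ?_)
            fun d => ‖a (d.1 * y) ω‖ₑ ^ 2))
        · refine pow_le_pow_left₀ zero_le ?_ 2
          have h5 := ap (fd_cm ha ((((t : Γ), 1), 1) * z)⁻¹ y) (rt Q (pr A B hc)
            ((((t : Γ), 1), 1) * z) ω)
          change a (p ((t : Γ) * z.1.1)⁻¹ * y) (rt Q (pr A B hc) _ (rt Q (pr A B hc) _ ω)) =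
            rt Q (pr A B hc) _ (a y (rt Q (pr A B hc) _ ω)) at h5
          rw [iap] at h5
          change _ ≤ ‖a (p ((t : Γ) * z.1.1)⁻¹ * y) ω‖ₑ
          rw [h5, Un.enrm hF.reg.adj, rmul, rt_A, hx]
          exact norm_co (H333.Amp.amp x (H333.Amp.amp (A t) (rt Q (pr A B hc) z ω))) 1
        · have h5 : p ((t : Γ) * z.1.1)⁻¹ = p ((t' : Γ) * z.1.1)⁻¹ := congrArg Subtype.val e
          rw [map_inv, map_inv, inv_inj, map_mul, map_mul, mul_left_inj] at h5
          have h6 := hN ((t : Γ)⁻¹ * t') (N.mul_mem (N.inv_mem t.2) t'.2)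
            (by rw [map_mul, map_inv, h5, inv_mul_cancel])
          exact Subtype.ext (inv_mul_eq_one.1 h6)
      classical
      rw [inner_KT, Finset.sum_eq_single (1 : Q), em_same]
      · exact hη _ h4
      · intro j _ hj
        rw [em_ne hj, inner_zero_right]
      · intro h
        exact absurd (Finset.mem_univ _) h
    have h4 := norm_em (1 : Q) η
    rw [h3, norm_zero] at h4
    exact norm_eq_zero.1 h4.symm
  refine ⟨f, f0, fun v hv => f2 _ _ (api V v) (uV.nrm v) ?_ fun t => cV v t,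
    fun g hg => f2 _ _ (api A g) (uA.nrm g) ?_ fun t => ?_,
    fun g => f2 _ _ (api B g) (uB.nrm g) ?_ fun t => (hc t g).symm, f1⟩
  · refine amp_inj (Q := Q) ?_
    rw [amp_mul, amp_mul, ← hx]
    exact hK v hv y
  · refine amp_inj (Q := Q) ?_
    rw [amp_mul, amp_mul, ← hx, ← rt_A (hc := hc)]
    exact k1 _ (hP g hg).1
  · change A g * A t = A t * A g
    rw [← map_mul, ← map_mul, (hP g hg).2 t t.2]
  · refine amp_inj (Q := Q) ?_
    rw [amp_mul, amp_mul, ← hx, ← rt_B (hc := hc)]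
    exact k1 _ (map_one p)

theorem dbl_of {h₂ : ∀ g k, V g * B k = B k * V g} {ω' : KT Q ℋ}
    (hF : Frm (rt Q (pr A B hc)) (av Q V) ω) (hF' : Frm (rt Q (pr V B h₂)) (av Q A) ω') :
    Dbl (av Q V) (av Q A) (lf Γ Q false) (rt Q (pr A B hc)) (lf Γ Q false) (rt Q (pr V B h₂))
      ω ω' := by
  refine ⟨hF, hF', fun g => ⟨((g, 1), 1), rfl, rt_A g⟩, fun g => ⟨((g, 1), 1), rfl, rt_A g⟩,
    fun T => ⟨?_, ?_⟩⟩
  · rintro h ⟨⟨a, b⟩, f⟩ hy
    have ha : a = 1 := hy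
    have h1 := h ((1, b), f) rfl
    change T * (H333.Amp.amp (A 1 * B b) * sg f) = (H333.Amp.amp (A 1 * B b) * sg f) * T at h1
    change T * (H333.Amp.amp (V a * B b) * sg f) = (H333.Amp.amp (V a * B b) * sg f) * T
    rw [ha, map_one, one_mul]
    rwa [map_one, one_mul] at h1
  · rintro h ⟨⟨a, b⟩, f⟩ hy
    have ha : a = 1 := hy
    have h1 := h ((1, b), f) rfl
    change T * (H333.Amp.amp (V 1 * B b) * sg f) = (H333.Amp.amp (V 1 * B b) * sg f) * T at h1
    change T * (H333.Amp.amp (A a * B b) * sg f) = (H333.Amp.amp (A a * B b) * sg f) * T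
    rw [ha, map_one, one_mul]
    rwa [map_one, one_mul] at h1

/-- **A dense target.** -/
theorem no_dense [μ.IsMulRightInvariant] {H : Type} [Group H] [TopologicalSpace H]
    [IsTopologicalGroup H] [MeasurableSpace H] [BorelSpace H] [SecondCountableTopology H]
    [LocallyCompactSpace H] [T2Space H] {ν : Measure H} [ν.IsHaarMeasure] {κ : Γ →* H}
    {h₂ : ∀ g k, V g * B k = B k * V g} {ω' : KT Q ℋ}
    (hF : Frm (rt Q (pr A B hc)) (av Q V) ω) (hF' : Frm (rt Q (pr V B h₂)) (av Q A) ω')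
    (hi : ∀ T : ℋ →L[ℂ] ℋ, Cr V T → Cr A T → Cr B T → ∃ z : ℂ, T = z • (1 : ℋ →L[ℂ] ℋ))
    (ha : Fd (p.comp (lf Γ Q false)) (rt Q (pr A B hc)) a) (h2 : L2 ω μ a)
    (K : Subgroup Γ) [K.Normal] (hK : ∀ v ∈ K, ∀ x, a x * H333.Amp.amp (V v) = H333.Amp.amp (V v) * a x)
    (hp : DenseRange p) (hκ : DenseRange κ) (hE : ErgC p A V B) (hn : NeC κ p A V B ν)
    {w : ℕ → Γ} (hw : ∀ n, w n ∈ K) (hw' : Tendsto (fun n => κ (w n)) atTop (cocompact H)) :
    a = 0 := by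
  by_contra h0
  letI : TopologicalSpace (Γ ⧸ K) := ⊥
  haveI : DiscreteTopology (Γ ⧸ K) := ⟨rfl⟩
  haveI : IsTopologicalGroup (Γ ⧸ K) :=
    { continuous_mul := continuous_of_discreteTopology
      continuous_inv := continuous_of_discreteTopology }
  have D := dbl_of hF hF'
  obtain ⟨b, hb, b0⟩ := hn
  have hs := smo_false (Q := Q) hb h₂ ω'
  have sa : Smo (p.comp (lf Γ Q false)) (QuotientGroup.mk' K) (rt Q (pr A B hc)) (av Q V) ω μ a :=
    ⟨ha, fun ε hε => ⟨{1}, (isOpen_discrete _).mem_nhds rfl, fun v hv x => by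
      have h3 : H333.Amp.amp (V v) * a x = a x * H333.Amp.amp (V v) :=
        (hK v ((QuotientGroup.eq_one_iff v).1 hv) x).symm
      change ‖H333.Amp.amp (V v) * a x * av Q V v⁻¹ - a x‖ ≤ ε
      rw [h3, mul_assoc, ← av_apply, rinv', mul_one, sub_self, norm_zero]
      exact hε.le⟩, h2⟩
  have h3 : ∀ v x y, fl p (av Q A) (fun x => H333.Amp.amp (b x)) x * (av Q V v * a y * av Q V v⁻¹) = 0 := by
    intro v x y
    have h4 := QT.Q.mul_eq_zero_of_esc D hκ hp (QT.H805.f1_of_erg hF' (erg_amp hF' hE)) hs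
      ((sa.conj hF v).rt (x⁻¹ * y)) (w := w) (tendsto_const_nhds.congr fun n =>
        ((QuotientGroup.eq_one_iff _).2 (hw n)).symm) hw' x
    rwa [mul_inv_cancel_left] at h4
  have cm : ∀ g z, av Q V g * rt Q (pr A B hc) z = rt Q (pr A B hc) z * av Q V g := hF.comm
  obtain ⟨y, hy⟩ := Function.ne_iff.1 h0
  have h4 : fl p (av Q A) (fun x => H333.Amp.amp (b x)) = fun _ => 0 := funext fun x =>
    irr0 (ρ := prd (av Q V) (rt Q (pr A B hc)) cm) (prd_adj cm hF.adj hF.reg.adj) (fun T hT => by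
      obtain ⟨t, rfl, t1, t2⟩ := cmm_rt (h := hc) (T := T) fun z => by
        have h5 := hT (1, z)
        rwa [prd_apply, map_one, one_mul] at h5
      obtain ⟨z, hz⟩ := hi t (fun g => amp_inj (Q := Q) (by
        have h5 := hT (g, 1)
        rw [prd_apply, map_one, mul_one] at h5
        rw [amp_mul, amp_mul]
        exact h5)) t1 t2
      exact ⟨z, by rw [hz, amp_smul, amp_one]⟩) hy fun g => by
      have h5 := congrArg (· * (av Q V g.1 * rt Q (pr A B hc) g.2)) (h3 g.1 x (p g.2.1.1 * y))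
      simp only [zero_mul, mul_assoc] at h5
      rw [← mul_assoc (av Q V g.1⁻¹), rinv, one_mul, fd_cm ha] at h5
      rw [prd_apply]
      simp only [mul_assoc]
      exact h5
  refine amp_ne (Q := Q) b0 ?_
  have h5 := fl_fl D.symm hp hκ hs.toFd hs.acont
  rw [← h5, h4]
  exact fl_zero D hκ

end abs

end Vale.Agent.P092PG
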