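import Vale.Agent.P092PG.Lp
import Vale.Agent.P092.H678.O.Tra

/-!
P092, product glue (helper24): a representation of an ICC group with a frame of finite mass has a
finite frame (comparison of projections).
-/

set_option linter.all false

open scoped InnerProductSpace ENNReal
open Filter Topology ContinuousLinearMap

namespace Vale.Agent.P092PG

open Vale.Agent.P092.H160 Vale.Agent.P092.H103
open Vale.Agent.P092.H962.Eq
open Vale.Agent.P092.H421.Hs (Pf Frq trq enn_sq' enn_congr ana)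
open Vale.Agent.P092.H678.OV (SR SR_adj SR_eqv Icc)
open Vale.Agent.P092.H58 (eu)

section cmp

variable {H : Type} [NormedAddCommGroup H] [InnerProductSpace ℂ H] [CompleteSpace H]
  {S : Set (H →L[ℂ] H)}

/-- **Comparison of two projections in a factor.** -/
theorem exists_cmp (hS : ∀ s ∈ S, adjoint s ∈ S)
    (hfac : ∀ z, Cc S z → (∀ y, Cc S y → z * y = y * z) → ∃ c : ℂ, z = c • (1 : H →L[ℂ] H))
    {e f : H →L[ℂ] H} (he : Cc S e) (hf : Cc S f) (hea : adjoint e = e) (hfad : adjoint f = f)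
    (hee : e * e = e) (hff : f * f = f) :
    ∃ w, Cc S w ∧ e * w = w ∧ w * f = w ∧ (w * adjoint w = e ∨ adjoint w * w = f) := by
  obtain ⟨A, hA, hmax⟩ := exists_maxFam S e f
  obtain ⟨w, hw, hpi, hw1, hw2⟩ := exists_sum' (u := fun v : A => (v : H →L[ℂ] H))
    (fun v => (hA.mem v v.2).pi) (fun i j hij => (hA.orth i i.2 j j.2 fun h => hij
      (Subtype.ext h)).1) (fun i j hij => (hA.orth i i.2 j j.2 fun h => hij (Subtype.ext h)).2)
  have hwC : Cc S w := by
    intro s hs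
    ext1 x
    refine (hw (s x)).unique ?_
    have b := s.hasSum (hw x)
    have c : (fun v : A => s ((v : H →L[ℂ] H) x)) = fun v : A => (v : H →L[ℂ] H) (s x) := by
      funext v
      exact (DFunLike.congr_fun ((hA.mem v v.2).cc s hs) x).symm
    rw [c] at b
    exact b
  have hew : e * w = w := by
    ext1 x
    have b := e.hasSum (hw x)
    refine b.unique ?_
    have c : (fun v : A => e ((v : H →L[ℂ] H) x)) = fun v : A => (v : H →L[ℂ] H) x := by
      funext v
      exact DFunLike.congr_fun (hA.mem v v.2).l x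
    rw [c]
    exact hw x
  have hwf : w * f = w := by
    ext1 x
    refine (hw (f x)).unique ?_
    have c : (fun v : A => (v : H →L[ℂ] H) (f x)) = fun v : A => (v : H →L[ℂ] H) x := by
      funext v
      exact DFunLike.congr_fun (hA.mem v v.2).r x
    rw [c]
    exact hw x
  have hwe' : adjoint w * e = adjoint w := by
    have := congrArg adjoint hew
    rwa [adj_mul', hea] at this
  have hfw' : f * adjoint w = adjoint w := by
    have := congrArg adjoint hwf
    rwa [adj_mul', hfad] at this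
  have hpi' : adjoint w * w * adjoint w = adjoint w := by
    have := congrArg adjoint hpi
    rw [adj_mul', adj_mul', adj_adj'] at this
    rw [mul_assoc]
    exact this
  set e₂ := e - w * adjoint w with he₂
  set f₂ := f - adjoint w * w with hf₂
  have he₂C : Cc S e₂ := he.sub (hwC.mul (hwC.adj hS))
  have hf₂C : Cc S f₂ := hf.sub ((hwC.adj hS).mul hwC)
  have he₂a : adjoint e₂ = e₂ := by rw [he₂, map_sub, adj_mul', adj_adj', hea]
  have hf₂a : adjoint f₂ = f₂ := by rw [hf₂, map_sub, adj_mul', adj_adj', hfad]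
  have hee₂ : e * e₂ = e₂ := by rw [he₂, mul_sub, hee, ← mul_assoc, hew]
  have hf₂f : f₂ * f = f₂ := by rw [hf₂, sub_mul, hff, mul_assoc, hwf]
  have he₂e₂ : e₂ * e₂ = e₂ := by
    conv_lhs => rw [he₂]
    rw [sub_mul, hee₂, he₂, mul_sub, mul_assoc w (adjoint w) e, hwe', ← mul_assoc (w * adjoint w),
      mul_assoc w (adjoint w) w, ← mul_assoc w, hpi, sub_self, sub_zero]
  have hf₂f₂ : f₂ * f₂ = f₂ := by
    conv_lhs => rw [hf₂]
    rw [mul_sub, ← hf₂, hf₂f, ← mul_assoc, hf₂, sub_mul f, hfw', hpi', sub_self, zero_mul,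
      sub_zero]
  have he₂v : ∀ v ∈ A, e₂ * v = 0 := by
    intro v hv
    have h1 := hw1 ⟨v, hv⟩
    have h2 := hw2 ⟨v, hv⟩
    change w * adjoint v = v * adjoint v at h1
    change adjoint w * v = adjoint v * v at h2
    rw [he₂, sub_mul, (hA.mem v hv).l, mul_assoc, h2, ← mul_assoc, h1, (hA.mem v hv).pi, sub_self]
  have hvf₂ : ∀ v ∈ A, v * f₂ = 0 := by
    intro v hv
    have h1 := congrArg adjoint (hw1 ⟨v, hv⟩)
    have h2 := congrArg adjoint (hw2 ⟨v, hv⟩)
    change adjoint (w * adjoint v) = adjoint (v * adjoint v) at h1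
    change adjoint (adjoint w * v) = adjoint (adjoint v * v) at h2
    rw [adj_mul', adj_mul', adj_adj'] at h1 h2
    rw [hf₂, mul_sub, (hA.mem v hv).r, ← mul_assoc, h1, mul_assoc, h2, ← mul_assoc, adj_adj',
      (hA.mem v hv).pi, sub_self]
  have key : e₂ = 0 ∨ f₂ = 0 := by
    by_contra hcon
    push Not at hcon
    obtain ⟨y, hy, hne⟩ := exists_conn hS hfac hf₂C hcon.1 hcon.2
    obtain ⟨a, q, haC, hqC, haa, hqa, hqq, hq0, hvq, hqf⟩ :=
      exists_pi hS ((he₂C.mul hy).mul hf₂C) hne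
    set v := e₂ * y * f₂ * a * q with hv
    have hve : e₂ * v = v := by
      rw [hv]
      simp only [← mul_assoc]
      rw [he₂e₂]
    have hvf : v * f₂ = v := by
      rw [hv, mul_assoc, hqf f₂ hf₂a (by rw [mul_assoc, hf₂f₂])]
    have hvne : v ≠ 0 := by
      intro h
      apply hq0
      rw [← hvq, h, mul_zero]
    have hvpi : v * adjoint v * v = v := by
      rw [mul_assoc, hvq, hv, mul_assoc _ q q, hqq]
    have hPv : Pw S e f v := by
      refine ⟨(((he₂C.mul hy).mul hf₂C).mul haC).mul hqC, ?_, ?_, hvpi, hvne⟩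
      · rw [← hve, ← mul_assoc, hee₂]
      · rw [← hvf, mul_assoc, hf₂f]
    have ho : ∀ v' ∈ A, adjoint v * v' = 0 ∧ v * adjoint v' = 0 := by
      intro v' hv'
      constructor
      · have h1 : adjoint v = adjoint v * e₂ := by
          have := congrArg adjoint hve
          rw [adj_mul', he₂a] at this
          exact this.symm
        rw [h1, mul_assoc, he₂v v' hv', mul_zero]
      · have h1 : f₂ * adjoint v' = 0 := by
          have := congrArg adjoint (hvf₂ v' hv')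
          rw [adj_mul', hf₂a, map_zero] at this
          exact this
        rw [← hvf, mul_assoc, h1, mul_zero]
    have hB : Fam S e f (insert v A) := by
      refine ⟨?_, ?_⟩
      · rintro v' (rfl | hv')
        · exact hPv
        · exact hA.mem v' hv'
      · rintro v₁ (rfl | h1) v₂ (rfl | h2) hne'
        · exact absurd rfl hne'
        · exact ho v₂ h2
        · obtain ⟨h3, h4⟩ := ho v₁ h1
          constructor
          · have := congrArg adjoint h3
            rwa [adj_mul', adj_adj', map_zero] at this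
          · have := congrArg adjoint h4
            rwa [adj_mul', adj_adj', map_zero] at this
        · exact hA.orth v₁ h1 v₂ h2 hne'
    have hvA : v ∈ A := hmax _ hB (Set.subset_insert _ _) (Set.mem_insert _ _)
    exact hvne (by rw [← hve, he₂v v hvA])
  exact ⟨w, hwC, hew, hwf, key.imp (fun h => (sub_eq_zero.1 h).symm)
    fun h => (sub_eq_zero.1 h).symm⟩

end cmp

section fac

variable {H κ : Type} [Group H]

theorem eu_apply (k j : κ) (v : Ell2 κ) : eu k j v = v j • dl k := by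
  change ⟪(dl j : Ell2 κ), v⟫_ℂ • dl k = _
  rw [inner_dl]

theorem adj_eu' (k j : κ) : adjoint (eu k j) = eu j k := by
  symm
  rw [ContinuousLinearMap.eq_adjoint_iff]
  intro v w
  rw [eu_apply, eu_apply, inner_smul_left, inner_smul_right, inner_dl, inner_dl_right]
  ring

/-- matrix units times left translations -/
noncomputable def mu (k j : κ) (s : H) : Ell2 (κ × H) →L[ℂ] Ell2 (κ × H) := tens (eu k j) (lam s)

theorem mu_cc (k j : κ) (s : H) : Cc (SR (FS.mat κ H)) (mu k j s) := by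
  rintro _ ⟨t, rfl⟩
  rw [FS.mat_R, mu, ← tens_mul, ← tens_mul, one_mul, mul_one, rho_lam]

theorem mu_dl (k j : κ) (s t : H) : mu k j s (dl (j, t)) = dl (k, s * t) := by
  rw [mu, tens_dl, eu_apply, dl_self, one_smul, lam_dl, dl_prod]

theorem mu_dl_ne {k j i : κ} (h : j ≠ i) (s t : H) : mu k j s (dl (i, t)) = 0 := by
  rw [mu, tens_dl, eu_apply, dl_ne h, zero_smul, tv_zero_left]

theorem mu_adj (k j : κ) (s : H) : adjoint (mu k j s) = mu j k s⁻¹ := by
  rw [mu, adjoint_tens, adj_eu', adjoint_lam]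
  rfl

theorem mat_fac (hN : Icc H) (z : Ell2 (κ × H) →L[ℂ] Ell2 (κ × H)) (hz : Cc (SR (FS.mat κ H)) z)
    (hc : ∀ y, Cc (SR (FS.mat κ H)) y → z * y = y * z) :
    ∃ c : ℂ, z = c • (1 : Ell2 (κ × H) →L[ℂ] _) := by
  classical
  have hL : ∀ k k' s v, z (mu k k' s v) = mu k k' s (z v) := fun k k' s v =>
    DFunLike.congr_fun (hc _ (mu_cc k k' s)) v
  have hR : ∀ x v, z ((FS.mat κ H).R x v) = (FS.mat κ H).R x (z v) := fun x v => SR_eqv hz x v
  have key : ∀ k, ∃ c : ℂ, z (dl (k, 1)) = c • dl (k, 1) := by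
    intro k
    obtain ⟨v, hv⟩ : ∃ v, v = z (dl (k, 1)) := ⟨_, rfl⟩
    rw [← hv]
    have hinv : ∀ s, v = mu k k s ((FS.mat κ H).R s v) := by
      intro s
      rw [hv, ← hR, ← hL, FS.R_dl, FS.mat_act, mu_dl, one_mul, mul_inv_cancel]
    have hq : ∀ s q, v q = ⟪(FS.mat κ H).R s⁻¹ (mu k k s⁻¹ (dl q)), v⟫_ℂ := by
      intro s q
      rw [← inner_dl]
      conv_lhs => rw [hinv s]
      rw [← adjoint_inner_left, mu_adj, FS.R_right]
    have hk : ∀ k' b, k' ≠ k → v (k', b) = 0 := by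
      intro k' b h
      rw [hq 1, mu_dl_ne h.symm, map_zero, inner_zero_left]
    have hval : ∀ s b, v (k, s * b * s⁻¹) = v (k, b) := by
      intro s b
      rw [hq s, mu_dl, FS.R_dl, FS.mat_act, inner_dl]
      have e : s⁻¹ * (s * b * s⁻¹) * s⁻¹⁻¹ = b := by group
      rw [e]
    have hb : ∀ b, b ≠ 1 → v (k, b) = 0 := fun b h =>
      P092.H458.Hon.vanish_of_inv (u := v) (e := fun y : H => (k, y))
        (Prod.mk_right_injective k) (hN b h) fun s => hval s b
    refine ⟨v (k, 1), ?_⟩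
    apply ext_inner_dl
    rintro ⟨k', b⟩
    rw [lp.coeFn_smul, Pi.smul_apply, smul_eq_mul]
    by_cases h3 : k' = k
    · subst h3
      by_cases h5 : b = 1
      · subst h5
        rw [dl_self, mul_one]
      · rw [hb b h5, dl_ne fun h => h5 (congrArg Prod.snd h), mul_zero]
    · rw [hk k' b h3, dl_ne fun h => h3 (congrArg Prod.fst h), mul_zero]
  by_cases hne : Nonempty κ
  · obtain ⟨k0⟩ := hne
    obtain ⟨c, hcc⟩ := key k0
    refine ⟨c, ?_⟩
    apply op_ext
    rintro ⟨k, b⟩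
    have h1 : (dl (k, b) : Ell2 (κ × H)) = mu k k0 b (dl (k0, 1)) := by rw [mu_dl, mul_one]
    rw [h1, hL, hcc, map_smul]
    rfl
  · refine ⟨0, ?_⟩
    apply op_ext
    rintro ⟨k, b⟩
    exact (hne ⟨k⟩).elim

theorem ell_enorm {X : Type} (v : Ell2 X) : ‖v‖ₑ ^ 2 = ∑' x, ‖v x‖ₑ ^ 2 := lp_enorm (L := ℂ) v

theorem mat_frq : Frq (FS.mat κ H).R fun k => (dl (k, 1) : Ell2 (κ × H)) := by
  intro v
  rw [ell_enorm, ← (Equiv.prodCongr (Equiv.refl κ) (Equiv.inv H)).tsum_eq
    fun x => ‖v x‖ₑ ^ 2]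
  refine tsum_congr ?_
  rintro ⟨k, s⟩
  change ‖⟪(FS.mat κ H).R s (dl (k, 1)), v⟫_ℂ‖ₑ ^ 2 = ‖v (k, s⁻¹)‖ₑ ^ 2
  rw [FS.R_dl, FS.mat_act, one_mul, inner_dl]

end fac

variable {K H Q : Type} [NormedAddCommGroup K] [InnerProductSpace ℂ K] [CompleteSpace K] [Group H]
  {ρ : H →* (K →L[ℂ] K)}

theorem esq_of_inner {E F : Type} [NormedAddCommGroup E] [InnerProductSpace ℂ E]
    [NormedAddCommGroup F] [InnerProductSpace ℂ F] {x : E} {y : F} (h : ⟪x, x⟫_ℂ = ⟪y, y⟫_ℂ) :
    ‖x‖ = ‖y‖ := by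
  rw [inner_self_eq_norm_sq_to_K, inner_self_eq_norm_sq_to_K] at h
  have h2 : ‖x‖ ^ 2 = ‖y‖ ^ 2 := by exact_mod_cast h
  exact (pow_left_inj₀ (norm_nonneg _) (norm_nonneg _) two_ne_zero).mp h2

/-- **A frame of finite mass can be replaced by a finite one.** -/
theorem fin_frame (hN : Icc H) (hρ : Un ρ) (h : FM ρ) :
    ∃ (n : ℕ) (ξ : Fin n → K), Frq ρ ξ := by
  classical
  obtain ⟨Q, e, he, hm⟩ := h
  obtain ⟨n, hn⟩ := ENNReal.exists_nat_gt hm.ne
  obtain ⟨e', he'⟩ : ∃ e' : Q ⊕ Fin n → K, e' = Sum.elim e fun _ => 0 := ⟨_, rfl⟩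
  have e1 : ∀ q, e' (.inl q) = e q := fun q => by rw [he']; rfl
  have e2 : ∀ i, e' (.inr i) = 0 := fun q => by rw [he']; rfl
  have pf : Pf fun p : (Q ⊕ Fin n) × H => ρ p.2⁻¹ (e' p.1) := by
    intro v
    rw [← he v, ← (Function.Injective.tsum_eq (g := fun p : Q × H => ((.inl p.1, p.2⁻¹) :
      (Q ⊕ Fin n) × H)) ?_ ?_)]
    · exact tsum_congr fun p => by simp only [inv_inv, e1]
    · rintro ⟨a, b⟩ ⟨c, d⟩ hp
      simp only [Prod.mk.injEq, Sum.inl.injEq, inv_inj] at hp
      rw [hp.1, hp.2]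
    · rintro ⟨k | i, s⟩ hp
      · exact ⟨(k, s⁻¹), by simp only [inv_inv]⟩
      · refine (hp ?_).elim
        simp only [e2, map_zero, inner_zero_left, enorm_zero, ne_eq, OfNat.ofNat_ne_zero,
          not_false_eq_true, zero_pow]
  obtain ⟨U, hU⟩ : ∃ U : K →L[ℂ] Ell2 ((Q ⊕ Fin n) × H), U = (ana pf).toContinuousLinearMap :=
    ⟨_, rfl⟩
  have u1 : ∀ v p, U v p = ⟪ρ p.2⁻¹ (e' p.1), v⟫_ℂ := fun v p => by rw [hU]; rfl
  have u2 : ∀ v w, ⟪U v, U w⟫_ℂ = ⟪v, w⟫_ℂ := fun v w => by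
    rw [hU]; exact (ana pf).inner_map_map v w
  have u3 : ∀ v, adjoint U (U v) = v := fun v =>
    ext_inner_right ℂ fun w => by rw [adjoint_inner_left, u2]
  have u4 : ∀ p, adjoint U (dl p) = ρ p.2⁻¹ (e' p.1) := fun p =>
    ext_inner_right ℂ fun v => by rw [adjoint_inner_left, inner_dl, u1]
  have u5 : ∀ s v, U (ρ s v) = (FS.mat (Q ⊕ Fin n) H).R s (U v) := by
    intro s v
    apply ext_inner_dl
    rintro ⟨k, b⟩
    rw [FS.R_val, FS.mat_act, u1, u1, hρ.ir, ← rmul, inv_inv, mul_inv_rev]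
  have u6 : ∀ s w, adjoint U ((FS.mat (Q ⊕ Fin n) H).R s w) = ρ s (adjoint U w) := fun s w =>
    ext_inner_right ℂ fun v => by
      rw [adjoint_inner_left, FS.R_left, ← u5, hρ.il, adjoint_inner_left]
  obtain ⟨f, hf⟩ : ∃ f : Ell2 ((Q ⊕ Fin n) × H) →L[ℂ] Ell2 ((Q ⊕ Fin n) × H),
      f = ∑ i : Fin n, mu (.inr i) (.inr i) 1 := ⟨_, rfl⟩
  have f1 : ∀ q s, f (dl (.inl q, s)) = 0 := fun q s => by
    rw [hf, ContinuousLinearMap.sum_apply]
    exact Finset.sum_eq_zero fun i _ => mu_dl_ne Sum.inr_ne_inl _ _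
  have f2 : ∀ i s, f (dl (.inr i, s)) = dl (.inr i, s) := fun i s => by
    rw [hf, ContinuousLinearMap.sum_apply, Finset.sum_eq_single i
      (fun j _ hj => mu_dl_ne (fun h => hj (Sum.inr_injective h)) _ _)
      fun h => absurd (Finset.mem_univ i) h, mu_dl, one_mul]
  have fa : adjoint f = f := by
    rw [hf, map_sum]
    exact Finset.sum_congr rfl fun i _ => by rw [mu_adj, inv_one]
  have ff : f * f = f := by
    apply op_ext
    rintro ⟨q | i, s⟩
    · change f (f _) = _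
      rw [f1, map_zero]
    · change f (f _) = _
      rw [f2, f2]
  have fc : Cc (SR (FS.mat (Q ⊕ Fin n) H)) f := by
    intro s hs
    rw [hf, Finset.sum_mul, Finset.mul_sum]
    exact Finset.sum_congr rfl fun i _ => mu_cc _ _ _ s hs
  obtain ⟨w, w1, w2, w3, w4⟩ := exists_cmp (SR_adj (FS.mat (Q ⊕ Fin n) H)) (mat_fac hN)
    (e := U ∘L adjoint U) (f := f) (by
      rintro _ ⟨s, rfl⟩
      refine ContinuousLinearMap.ext fun w => ?_
      change U (adjoint U ((FS.mat (Q ⊕ Fin n) H).R s w)) =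
        (FS.mat (Q ⊕ Fin n) H).R s (U (adjoint U w))
      rw [u6, u5]) fc (by rw [adjoint_comp, adjoint_adjoint]) fa (by
      refine ContinuousLinearMap.ext fun w => ?_
      change U (adjoint U (U (adjoint U w))) = U (adjoint U w)
      rw [u3]) ff
  have wc : Cr (FS.mat (Q ⊕ Fin n) H).R w := fun s => w1 _ ⟨s, rfl⟩
  rcases w4 with w4 | w4
  · refine ⟨n, fun i => adjoint U (w (dl (.inr i, 1))), fun v => ?_⟩
    have h1 : ‖adjoint w (U v)‖ = ‖v‖ := esq_of_inner (by
      have h2 : w (adjoint w (U v)) = U (adjoint U (U v)) := ap w4 _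
      rw [adjoint_inner_left, h2, u3, u2])
    rw [← enn_congr h1, ell_enorm, ← (Function.Injective.tsum_eq
      (g := fun p : Fin n × H => ((.inr p.1, p.2⁻¹) : (Q ⊕ Fin n) × H)) ?_ ?_)]
    · refine tsum_congr ?_
      rintro ⟨i, s⟩
      change ‖⟪ρ s (adjoint U (w (dl (.inr i, 1)))), v⟫_ℂ‖ₑ ^ 2 =
        ‖adjoint w (U v) (.inr i, s⁻¹)‖ₑ ^ 2
      rw [← u6, ← wc.ap, FS.R_dl, FS.mat_act, one_mul, adjoint_inner_left, ← adjoint_inner_right,
        inner_dl]
    · rintro ⟨a, b⟩ ⟨c, d⟩ hp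
      simp only [Prod.mk.injEq, Sum.inr.injEq, inv_inj] at hp
      rw [hp.1, hp.2]
    · rintro ⟨k | i, s⟩ hp
      · refine (hp ?_).elim
        have h2 : w (dl (.inl k, s)) = 0 := by
          rw [← w3]
          change w (f _) = 0
          rw [f1, map_zero]
        change ‖adjoint w (U v) (.inl k, s)‖ₑ ^ 2 = 0
        rw [← inner_dl, adjoint_inner_right, h2, inner_zero_left, enorm_zero, zero_pow two_ne_zero]
      · exact ⟨(i, s⁻¹), by simp only [inv_inv]⟩
  · exfalso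
    have h1 : ∀ v, ‖w v‖ = ‖f v‖ := fun v => esq_of_inner (by
      have h2 : adjoint w (w v) = f v := ap w4 v
      have h3 : f (f v) = f v := ap ff v
      rw [← adjoint_inner_right, h2, ← adjoint_inner_right f, fa, h3])
    have h2 : ‖adjoint w‖ₑ ^ 2 ≤ 1 := by
      refine pow_le_one₀ zero_le ?_
      rw [← ofReal_norm_eq_enorm, LinearIsometryEquiv.norm_map, ← ENNReal.ofReal_one]
      refine ENNReal.ofReal_le_ofReal (ContinuousLinearMap.opNorm_le_bound _ zero_le_one fun v => ?_)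
      rw [h1, one_mul]
      exact (proj_norm_le fa ff v).2
    have h3 : (n : ℝ≥0∞) ≤ trq (fun k => (dl (k, 1) : Ell2 ((Q ⊕ Fin n) × H))) w := by
      refine le_trans (le_of_eq ?_) (ENNReal.tsum_comp_le_tsum_of_injective Sum.inr_injective
        fun k : Q ⊕ Fin n => ‖w (dl (k, 1))‖ₑ ^ 2)
      have h4 : ∀ i : Fin n, ‖w (dl (.inr i, 1))‖ₑ ^ 2 = 1 := fun i => by
        rw [enn_sq', h1, f2, norm_dl, one_pow, ENNReal.ofReal_one]
      simp only [h4]
      simp
    have h4 : adjoint w = adjoint w * (U ∘L adjoint U) := by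
      have h5 := congrArg adjoint w2
      rw [adj_mul', adjoint_comp, adjoint_adjoint] at h5
      exact h5.symm
    have h5 : trq (fun k => (dl (k, 1) : Ell2 ((Q ⊕ Fin n) × H))) (U ∘L adjoint U) = trq e 1 := by
      rw [trq, trq, ← (Sum.inl_injective.tsum_eq (f := fun k : Q ⊕ Fin n =>
        ‖(U ∘L adjoint U) (dl (k, 1))‖ₑ ^ 2) ?_)]
      · refine tsum_congr fun q => ?_
        change ‖U (adjoint U _)‖ₑ ^ 2 = ‖e q‖ₑ ^ 2
        rw [enn_congr (esq_of_inner (u2 _ _)), u4, hρ.enrm, e1]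
      · rintro (k | i) hp
        · exact ⟨k, rfl⟩
        · refine (hp ?_).elim
          change ‖U (adjoint U _)‖ₑ ^ 2 = 0
          rw [u4, e2, map_zero, map_zero, enorm_zero, zero_pow two_ne_zero]
    rw [← trq_adj (FS.mat (Q ⊕ Fin n) H).R_adj mat_frq wc, h4] at h3
    have h6 := h3.trans (trq_left _ _ _)
    rw [h5] at h6
    exact absurd (h6.trans (mul_le_of_le_one_left' h2)) (not_le.2 hn)

end Vale.Agent.P092PG
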