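import Vale.Agent.P092PG.Res

/-!
P092, product glue (helper24): overlap on all components gives overlap (product formula).
-/

set_option linter.all false

open scoped InnerProductSpace ENNReal
open Filter Topology ContinuousLinearMap

namespace Vale.Agent.P092PG

open Vale.Agent.P092.H678.OV

variable {L : Type} [NormedAddCommGroup L] [InnerProductSpace ℂ L] [CompleteSpace L]
  {G C : Type} [Group G] {S : Set C → Subgroup G} {σ : (Fin 3 → G) →* (L →L[ℂ] L)}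

theorem exists_unit {T : L →L[ℂ] L} (h : T ≠ 0) : ∃ v, ‖T v‖ = 1 := by
  obtain ⟨v, hv⟩ := exists_ne h
  refine ⟨((‖T v‖⁻¹ : ℝ) : ℂ) • v, ?_⟩
  rw [map_smul, norm_smul, Complex.norm_real, norm_inv, norm_norm,
    inv_mul_cancel₀ (norm_ne_zero_iff.2 hv)]

theorem col_sub {A B : Set C} (h : Disjoint A B) : col A ⊆ (col B)ᶜ := fun x hx hx' =>
  Set.disjoint_left.1 h hx hx'

theorem ovs_empty (h : Dec S) {ξ : L} (h1 : ‖ξ‖ = 1) : OvS S σ ∅ ξ := by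
  refine ⟨Unit, inferInstance, fun _ => 1, 1, one_pos, fun _ => Cr.one, fun x hx =>
    ⟨(), (), 1, (S _).one_mem, 1, (S _).one_mem, ?_⟩⟩
  rw [h.inj (Set.disjoint_empty ∅) x hx hx, map_one, map_one, map_one]
  change 1 ≤ ‖⟪ξ, ξ⟫_ℂ‖
  rw [inner_self_eq_norm_sq_to_K, h1]
  simp

theorem ovs_union (h : Dec S) (hσ : Un σ) {A B : Set C} (hd : Disjoint A B) {g : L →L[ℂ] L} {ξ : L}
    (hg : MinP (rs (S3 S (col A)ᶜ) σ) g) (hξ : g ξ = ξ) (h1 : ‖ξ‖ = 1)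
    (hc : ∀ a d, Cr (rs (S3 S (col A)ᶜ) σ) a → Cr (rs (S3 S (col A)) σ) d → a * d = d * a)
    (hA : OvS S σ A ξ) (hB : OvS S σ B ξ) : OvS S σ (A ∪ B) ξ := by
  have h3 := h.three
  obtain ⟨ι, _, m, κ, hκ, m1, m2⟩ := hA
  obtain ⟨ι', _, n, κ', hκ', n1, n2⟩ := hB
  refine ⟨ι × ι', inferInstance, fun p => m p.1 * n p.2, κ * κ', mul_pos hκ hκ', fun p =>
    Cr.mul (h3.cr_mono (m1 _) fun x hx hx' => hx (Or.inl hx'))
      (h3.cr_mono (n1 _) fun x hx hx' => hx (Or.inr hx')), fun x hx => ?_⟩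
  obtain ⟨x₁, a1, x₂, a2, rfl⟩ := h.sup A B x hx
  obtain ⟨i, j, a, ha, b, hb, hm⟩ := m2 x₁ a1
  obtain ⟨k, l, a', ha', b', hb', hn⟩ := n2 x₂ a2
  refine ⟨(i, k), (j, l), a * a', (S _).mul_mem (h.mono Set.subset_union_left ha)
    (h.mono Set.subset_union_right ha'), b * b', (S _).mul_mem (h.mono Set.subset_union_left hb)
    (h.mono Set.subset_union_right hb'), ?_⟩
  have cB : ∀ {T : L →L[ℂ] L}, Cr (rs (S3 S (col A)ᶜ) σ) T → ∀ (e : Fin 3) {y : G}, y ∈ S B →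
      ∀ v, T (Vl σ e y v) = Vl σ e y (T v) := fun hT e y hy v =>
    cap (cr_leg h hT (fun c hc hc' => Set.disjoint_left.1 hd hc' hc) hy) v
  have cA : ∀ (e : Fin 3) {y : G}, y ∈ S A → Cr (rs (S3 S (col A)ᶜ) σ) (Vl σ e y) :=
    fun e y hy => h3.cr_mem (A := col A) disjoint_compl_right (io_mem h hy fun c hc => hc)
  have gn : ∀ k, g (n k ξ) = n k ξ := fun k => by
    rw [cap (hc g (n k) hg.cr (h3.cr_mono (n1 k) (col_sub hd))), hξ]
  have uκ : Un (rs (S3 S (col A)ᶜ) σ) := hσ.comp _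
  have u0 : Un (Vl σ 0) := hσ.comp _
  have hM : Cr (rs (S3 S (col A)ᶜ) σ)
      (adjoint (m i) * (Vl σ 0 x₁⁻¹ * (Vl σ 1 a * (Vl σ 2 b * m j)))) :=
    ((m1 i).adj uκ).mul ((cA 0 ((S A).inv_mem a1)).mul ((cA 1 ha).mul ((cA 2 hb).mul (m1 j))))
  have e : ∀ u v, ⟪u, (adjoint (m i) * (Vl σ 0 x₁⁻¹ * (Vl σ 1 a * (Vl σ 2 b * m j)))) v⟫_ℂ =
      ⟪Vl σ 0 x₁ (m i u), Vl σ 1 a (Vl σ 2 b (m j v))⟫_ℂ := fun u v => by
    rw [u0.il]
    exact adjoint_inner_right (m i) u _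
  have h4 := hg.inner hξ h1 hM (u := Vl σ 0 x₂ (n k ξ)) (v := Vl σ 1 a' (Vl σ 2 b' (n l ξ)))
    (by rw [cB hg.cr 0 a2, gn]) (by rw [cB hg.cr 1 ha', cB hg.cr 2 hb', gn])
  rw [e, e, cB (m1 i) 0 a2, cB (m1 j) 1 ha', cB (m1 j) 2 hb', cB (cA 2 hb) 1 ha'] at h4
  change κ * κ' ≤ ‖⟪Vl σ 0 (x₁ * x₂) (m i (n k ξ)),
    Vl σ 1 (a * a') (Vl σ 2 (b * b') (m j (n l ξ)))⟫_ℂ‖
  rw [rmul, rmul, rmul, h4, norm_mul]
  exact mul_le_mul hm hn hκ'.le (norm_nonneg _)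

/-- **Overlap from the overlap on all components.** -/
theorem over_L [Finite C] [Nontrivial L] (h : Dec S) (hσ : Un σ) (hi : Irr σ)
    (hm : FM (rs (S3 S (leg C 0)) σ)) (hc : ∀ c, RR (S3 S) σ c c)
    (hO : ∀ (c : C) (g : L →L[ℂ] L) (ξ : L), MinP (rs (S3 S (col {c})ᶜ) σ) g → g ξ = ξ → ‖ξ‖ = 1 →
      OvS S σ {c} ξ) : OverV (Vl σ 0) (Vl σ 1) (Vl σ 2) := by
  have h3 := h.three
  have sp := col_splits h3 hσ hi hm hc
  choose g hg using fun c => (sp {c}).2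
  have h1 : ∀ A : Set C, ∃ y : L →L[ℂ] L, y ≠ 0 ∧ Cr (rs (S3 S (col A)ᶜ) σ) y ∧
      ∀ c ∈ A, g c * y = y := by
    intro A
    induction A, Set.toFinite A using Set.Finite.induction_on with
    | empty => exact ⟨1, one_ne_zero, Cr.one, fun c hc => hc.elim⟩
    | @insert c A ha _ ih =>
      obtain ⟨y, y0, y1, y2⟩ := ih
      refine ⟨g c * y, h3.mul_ne hσ hi (hg c).cr
        (h3.cr_mono y1 (col_sub (Set.disjoint_singleton_left.2 ha))) (hg c).ne y0,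
        Cr.mul (h3.cr_mono (hg c).cr fun x hx hx' => hx (Or.inl hx'))
          (h3.cr_mono y1 fun x hx hx' => hx (Or.inr hx')), ?_⟩
      rintro d (rfl | hd)
      · rw [← mul_assoc, (hg d).sq]
      · have hne : d ≠ c := fun e => ha (e ▸ hd)
        rw [← mul_assoc, (sp {d}).1 _ _ (hg d).cr (h3.cr_mono (hg c).cr
          (col_sub (Set.disjoint_singleton.2 hne))), mul_assoc, y2 d hd]
  obtain ⟨y, y0, -, y2⟩ := h1 Set.univ
  obtain ⟨v, hv⟩ := exists_unit y0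
  have hξ : ∀ c, g c (y v) = y v := fun c => ap (y2 c trivial) v
  have h2 : ∀ A : Set C, OvS S σ A (y v) := by
    intro A
    induction A, Set.toFinite A using Set.Finite.induction_on with
    | empty => exact ovs_empty h hv
    | @insert c A ha _ ih =>
      rw [Set.insert_eq]
      exact ovs_union h hσ (Set.disjoint_singleton_left.2 ha) (hg c) (hξ c) hv (sp {c}).1
        (hO c _ _ (hg c) (hξ c) hv) ih
  obtain ⟨ι, _, m, κ, hκ, -, m2⟩ := h2 Set.univ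
  obtain ⟨r, ⟨φ⟩⟩ := Finite.exists_equiv_fin ι
  refine ⟨r, fun i => m (φ.symm i) (y v), κ, hκ, fun x => ?_⟩
  obtain ⟨i, j, a, -, b, -, hab⟩ := m2 x (h.top x)
  exact ⟨φ i, φ j, a, b, by simpa only [Equiv.symm_apply_apply] using hab⟩

end Vale.Agent.P092PG
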