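import Vale.Agent.P092PG.Cal
import Vale.Agent.P092.H259.Mx.Red

/-!
P092, product glue (helper24): the decomposition of a subgroup of finite index of the lattice.
-/

set_option linter.all false

open Filter Topology

namespace Vale.Agent.P092PG

open Vale.Agent.P092 Vale.Agent.P092.H678.OV
open Vale.Agent.P092.QT.NE (ev)

theorem fi_of_fun {G Y : Type} [Group G] (H : Subgroup G) (F : G → Y) {s : Set Y} (hs : s.Finite)
    (h1 : ∀ x, F x ∈ s) (h2 : ∀ x y, F x = F y → x⁻¹ * y ∈ H) : H.FiniteIndex := by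
  haveI := hs.to_subtype
  haveI : Finite (G ⧸ H) := Finite.of_injective (fun q : G ⧸ H => (⟨F q.out, h1 _⟩ : s))
    fun q q' e => by
      rw [← QuotientGroup.out_eq' q, ← QuotientGroup.out_eq' q']
      exact QuotientGroup.eq.2 (h2 _ _ (congrArg Subtype.val e))
  exact Subgroup.finiteIndex_of_finite_quotient

theorem Dec.icc {G Z : Type} [Group G] {S : Set Z → Subgroup G} (h : Dec S) (hG : Icc G)
    (A : Set Z) : Icc (S A) := by
  intro g hg hf
  refine hG g (fun e => hg (Subtype.ext e)) ((hf.image Subtype.val).subset ?_)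
  rintro _ ⟨k, rfl⟩
  obtain ⟨x, hx, y, hy, rfl⟩ := h.split A k
  refine ⟨_, ⟨⟨x, hx⟩, rfl⟩, ?_⟩
  change x * g * x⁻¹ = _
  rw [mul_assoc x y, ← h.comm disjoint_compl_right g g.2 y hy]
  group

section dec

variable {I C : Type} {E : I → Type} [∀ i, Group (E i)] {Γ : Subgroup (∀ i, E i)}
  (Δ : Subgroup Γ) [Δ.Normal] (pl : I → C)

/-- the elements supported over a set of components -/
def Tq (A : Set C) : Subgroup Γ where
  carrier := {g | (∀ i, pl i ∉ A → ev Γ i g = 1) ∧ g ∈ Δ}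
  one_mem' := ⟨fun i _ => map_one _, Δ.one_mem⟩
  mul_mem' := fun hx hy => ⟨fun i hi => by rw [map_mul, hx.1 i hi, hy.1 i hi, one_mul],
    Δ.mul_mem hx.2 hy.2⟩
  inv_mem' := fun hx => ⟨fun i hi => by rw [map_inv, hx.1 i hi, inv_one], Δ.inv_mem hx.2⟩

instance Tq_normal (A : Set C) : (Tq Δ pl A).Normal :=
  ⟨fun x hx g => ⟨fun i hi => by rw [map_mul, map_mul, hx.1 i hi, mul_one, ← map_mul,
    mul_inv_cancel, map_one], Subgroup.Normal.conj_mem inferInstance x hx.2 g⟩⟩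

/-- the product of the components -/
def G0 : Subgroup Γ := ⨆ c, Tq Δ pl {c}

/-- the decomposition -/
def Sq (A : Set C) : Subgroup (G0 Δ pl) := (Tq Δ pl A).subgroupOf (G0 Δ pl)

variable {Δ pl}

theorem Tq_mono {A B : Set C} (h : A ⊆ B) : Tq Δ pl A ≤ Tq Δ pl B :=
  fun x hx => ⟨fun i hi => hx.1 i fun h1 => hi (h h1), hx.2⟩

theorem Tq_comm {A B : Set C} (h : Disjoint A B) {x y : Γ} (hx : x ∈ Tq Δ pl A)
    (hy : y ∈ Tq Δ pl B) : x * y = y * x := by
  refine Subtype.ext (funext fun i => ?_)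
  change ev Γ i x * ev Γ i y = ev Γ i y * ev Γ i x
  by_cases hi : pl i ∈ A
  · rw [hy.1 i (Set.disjoint_left.1 h hi), one_mul, mul_one]
  · rw [hx.1 i hi, one_mul, mul_one]

theorem Tq_le (c : C) : Tq Δ pl {c} ≤ G0 Δ pl := le_iSup (fun c => Tq Δ pl {c}) c

theorem G0_split (A : Set C) {g : Γ} (hg : g ∈ G0 Δ pl) : ∃ x ∈ Tq Δ pl A, ∃ y ∈ Tq Δ pl Aᶜ,
    x ∈ G0 Δ pl ∧ g = x * y := by
  refine Subgroup.iSup_induction (fun c => Tq Δ pl {c}) (C := fun g => ∃ x ∈ Tq Δ pl A,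
    ∃ y ∈ Tq Δ pl Aᶜ, x ∈ G0 Δ pl ∧ g = x * y) hg (fun c x hx => ?_)
    ⟨1, one_mem _, 1, one_mem _, one_mem _, (mul_one _).symm⟩ ?_
  · by_cases hc : c ∈ A
    · exact ⟨x, Tq_mono (Set.singleton_subset_iff.2 hc) hx, 1, one_mem _, Tq_le c hx,
        (mul_one _).symm⟩
    · exact ⟨1, one_mem _, x, Tq_mono (Set.singleton_subset_iff.2 hc) hx, one_mem _,
        (one_mul _).symm⟩
  · rintro _ _ ⟨x, hx, y, hy, h1, rfl⟩ ⟨x', hx', y', hy', h2, rfl⟩
    refine ⟨x * x', mul_mem hx hx', y * y', mul_mem hy hy', mul_mem h1 h2, ?_⟩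
    rw [mul_assoc, ← mul_assoc y, ← Tq_comm disjoint_compl_right hx' hy]
    simp only [mul_assoc]

theorem G0_le : G0 Δ pl ≤ Tq Δ pl Set.univ := iSup_le fun c => Tq_mono (Set.subset_univ _)

instance G0_normal : (G0 Δ pl).Normal := ⟨fun x hx g =>
  Subgroup.iSup_induction (fun c => Tq Δ pl {c}) (C := fun x => g * x * g⁻¹ ∈ G0 Δ pl) hx
    (fun c x hx => Tq_le c ((Tq_normal Δ pl {c}).conj_mem x hx g))
    (by rw [mul_one, mul_inv_cancel]; exact one_mem _) fun x y h1 h2 => by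
      have e : g * (x * y) * g⁻¹ = (g * x * g⁻¹) * (g * y * g⁻¹) := by group
      rw [e]
      exact mul_mem h1 h2⟩

theorem dec_Sq : Dec (Sq Δ pl) where
  mono h x hx := Tq_mono h hx
  comm h x hx y hy := Subtype.ext (Tq_comm h hx hy)
  sup A B g hg := by
    obtain ⟨x, hx, y, hy, h1, e⟩ := G0_split A g.2
    have e' : y = x⁻¹ * g := by rw [e, inv_mul_cancel_left]
    have h2 : y ∈ Tq Δ pl (A ∪ B) := by
      rw [e']
      exact mul_mem (inv_mem (Tq_mono Set.subset_union_left hx)) hg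
    refine ⟨⟨x, h1⟩, hx, ⟨y, ?_⟩, ⟨fun i hi => ?_, hy.2⟩, Subtype.ext e⟩
    · rw [e']
      exact mul_mem (inv_mem h1) g.2
    · by_cases h3 : pl i ∈ A
      · exact hy.1 i fun h4 => h4 h3
      · exact h2.1 i fun h4 => h4.elim h3 hi
  inj {A B} h x hx hy := Subtype.ext (Subtype.ext (funext fun i => by
    by_cases hi : pl i ∈ A
    · exact hy.1 i (Set.disjoint_left.1 h hi)
    · exact hx.1 i hi))
  top g := G0_le g.2

theorem G0_fi [Finite C] [Δ.FiniteIndex] (c₀ : C)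
    (h : ∀ c, c ≠ c₀ → (Tq Δ pl {c} ⊔ Tq Δ pl {c}ᶜ).FiniteIndex) : (G0 Δ pl).FiniteIndex := by
  classical
  haveI : (⨅ c : {c // c ≠ c₀}, Tq Δ pl {c.1} ⊔ Tq Δ pl {c.1}ᶜ).FiniteIndex :=
    Subgroup.finiteIndex_iInf fun c => h c.1 c.2
  refine Subgroup.finiteIndex_of_le
    (H := (⨅ c : {c // c ≠ c₀}, Tq Δ pl {c.1} ⊔ Tq Δ pl {c.1}ᶜ) ⊓ Δ) fun g hg => ?_
  have key : ∀ s : Finset C, c₀ ∉ s → ∃ x ∈ G0 Δ pl, x⁻¹ * g ∈ Tq Δ pl (s : Set C)ᶜ := by
    intro s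
    induction s using Finset.induction_on with
    | empty =>
      exact fun _ => ⟨1, one_mem _, fun i hi => absurd (Finset.notMem_empty _) hi,
        by rw [inv_one, one_mul]; exact hg.2⟩
    | insert c s hc ih =>
      intro h0
      obtain ⟨x, hx, h1⟩ := ih fun h => h0 (Finset.mem_insert_of_mem h)
      have h2 : x⁻¹ * g ∈ Tq Δ pl {c} ⊔ Tq Δ pl {c}ᶜ := by
        obtain ⟨a, ha, b, hb, -, e⟩ := G0_split {c} (inv_mem hx)
        rw [e]
        exact mul_mem (Subgroup.mul_mem_sup ha hb) (Subgroup.mem_iInf.1 hg.1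
          ⟨c, fun e => h0 (e ▸ Finset.mem_insert_self c s)⟩)
      obtain ⟨n, hn, m, hm, e⟩ := Subgroup.mem_sup_of_normal_right.1 h2
      have e' : (x * n)⁻¹ * g = m := by rw [mul_inv_rev, mul_assoc, ← e, inv_mul_cancel_left]
      have h3 : m ∈ Tq Δ pl (s : Set C)ᶜ := by
        rw [← e', mul_inv_rev, mul_assoc]
        exact mul_mem (inv_mem (Tq_mono (Set.singleton_subset_iff.2 hc) hn)) h1
      refine ⟨x * n, mul_mem hx (Tq_le c hn), ?_⟩
      rw [e']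
      refine ⟨fun i hi => ?_, hm.2⟩
      rcases Finset.mem_insert.1 (not_not.1 hi) with h4 | h4
      · exact hm.1 i fun h5 => h5 h4
      · exact h3.1 i fun h5 => h5 h4
  letI := Fintype.ofFinite C
  obtain ⟨x, hx, h1⟩ := key (Finset.univ.erase c₀) (Finset.notMem_erase _ _)
  rw [← mul_inv_cancel_left x g]
  refine mul_mem hx (Tq_le c₀ (Tq_mono (fun c hc => ?_) h1))
  by_contra h2
  exact hc (Finset.mem_erase.2 ⟨h2, Finset.mem_univ _⟩)

end dec

section lat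

open Vale.Agent.P092.VR (Ov IsRad)
open Vale.Agent.P092.H333.V
open Vale.Agent.P092.H35.Mx (MinC cob_pi disc_G disc_pi)

variable {I C : Type} [Fintype I] {M E : I → Type} [∀ i, Group (M i)]
  [∀ i, TopologicalSpace (M i)] [∀ i, Group (E i)] [∀ i, TopologicalSpace (E i)]
  {φ : ∀ i, M i →* E i} {r : I → ℕ} {R : ∀ i, Subgroup (E i)} [∀ i, (R i).Normal]
  {Γ : Subgroup (∀ i, E i)} {Δ : Subgroup Γ} [Δ.Normal] [Δ.FiniteIndex] {pl : I → C}

theorem sup_fi (h : ∀ i, Ov (φ i) (r i)) (hR : ∀ i, IsRad (φ i) (R i)) (hm : ∀ i, MinC (E i))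
    (hl : H515.St.IsLattice Γ) (hdd : ∀ i, ¬ Ds Γ i → DenseRange (ev Γ i)) {j : I} (hj : Ds Γ j)
    (hp : ∀ i, pl i = pl j → i = j) : (Tq Δ pl {pl j} ⊔ Tq Δ pl {pl j}ᶜ).FiniteIndex := by
  classical
  haveI b0 := fun i => (h i).top
  haveI b1 := fun i => Ov.lc (h i)
  haveI b2 := fun i => Ov.sc (h i)
  haveI b3 := fun i => Ov.t2 (h i)
  obtain ⟨K, hK, hK'⟩ := cob_pi Γ.subtype (by
    rw [Γ.range_subtype]
    exact ⟨hl.disc, hl.covol⟩) (fun i => i = j) (by rintro _ rfl; exact hj)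
  choose n n1 n2 using hK'
  obtain ⟨e, he⟩ : ∃ e : (∀ j, E j) →* (∀ i : {j // Ds Γ j}, E i) × ∀ j : {j // ¬ Ds Γ j}, E j,
      ∀ x, e x = (fun i : {j // Ds Γ j} => x i.1, fun j : {j // ¬ Ds Γ j} => x j.1) :=
    ⟨(MonoidHom.pi fun i : {j // Ds Γ j} => Pi.evalMonoidHom E i.1).prod
      (MonoidHom.pi fun j : {j // ¬ Ds Γ j} => Pi.evalMonoidHom E j.1), fun x => rfl⟩
  have heh : (e : (∀ j, E j) → _) = Homeomorph.piEquivPiSubtypeProd (Ds Γ) E := funext fun x => by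
    rw [he]
    rfl
  have h1 : H515.St.IsLattice (Γ.map e) := by
    refine H259.Fk.lat_proper e ?_ ?_ hl
    · rw [heh]
      exact (Homeomorph.piEquivPiSubtypeProd (Ds Γ) E).isProperMap
    · have : e.range = ⊤ := by
        rw [MonoidHom.range_eq_top]
        have h3 := (Homeomorph.piEquivPiSubtypeProd (Ds Γ) E).surjective
        rw [← heh] at h3
        exact h3
      rw [this]
      infer_instance
  have h2 : Γ.map e = ((MonoidHom.pi fun i : {j // Ds Γ j} => ev Γ i.1).prod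
      (MonoidHom.pi fun i : {j // ¬ Ds Γ j} => ev Γ i.1)).range := by
    ext x
    constructor
    · rintro ⟨g, hg, rfl⟩
      exact ⟨⟨g, hg⟩, (he g).symm⟩
    · rintro ⟨g, rfl⟩
      exact ⟨g, g.2, he g⟩
  rw [h2] at h1
  have h3 := disc_G _ _ (fun b : {j // ¬ Ds Γ j} => h b) (fun b => hR b) ⟨h1.disc, h1.covol⟩
    (disc_pi _ fun i => i.2) (fun b => hm b) (fun b => hdd b b.2) _
    (isCompact_univ_pi fun b => hK b.1)
  have h4 : ∀ i : {i // Ds Γ i ∧ i ≠ j}, (Set.range (ev Γ i.1) ∩ K i).Finite := fun i => by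
    haveI : DiscreteTopology (ev Γ i.1).range := i.2.1
    refine ((H515.finite_of_compact (ev Γ i.1).range (hK i)).image Subtype.val).subset ?_
    rintro x ⟨h5, h6⟩
    exact ⟨⟨x, h5⟩, h6, rfl⟩
  haveI : Finite (Γ ⧸ Δ) := Subgroup.finite_quotient_of_finiteIndex
  refine fi_of_fun _ (fun y => ((fun i : {i // Ds Γ i ∧ i ≠ j} => ev Γ i.1 (n y * y),
    fun i : {j // ¬ Ds Γ j} => ev Γ i.1 (n y * y)), ((n y : Γ ⧸ Δ), ((n y * y : Γ) : Γ ⧸ Δ))))
    (((Set.Finite.pi h4).prod h3).prod Set.finite_univ)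
    (fun y => ⟨⟨fun i _ => ⟨⟨_, rfl⟩, n2 y i i.2.2⟩, ⟨n y * y, rfl⟩,
      fun i _ => n2 y i fun e => i.2 (e ▸ hj)⟩, trivial⟩) fun x y e => ?_
  have e1 : x⁻¹ * y = ((n x * x)⁻¹ * (n y * y)) * (y⁻¹ * ((n y)⁻¹ * n x) * y⁻¹⁻¹) := by group
  rw [e1]
  refine Subgroup.mul_mem_sup ⟨fun i hi => ?_, QuotientGroup.eq.1 (congrArg (·.2.2) e)⟩
    ((Tq_normal Δ pl _).conj_mem _ ⟨fun i hi => ?_,
      QuotientGroup.eq.1 (congrArg (·.2.1) e).symm⟩ _)
  · rw [map_mul, map_inv, inv_mul_eq_one]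
    by_cases h5 : Ds Γ i
    · exact congrFun (congrArg (·.1.1) e) ⟨i, h5, fun e => hi (e ▸ rfl)⟩
    · exact congrFun (congrArg (·.1.2) e) ⟨i, h5⟩
  · have h5 : ∀ y, ev Γ i (n y) = 1 := fun y => n1 y i (hp i (not_not.1 hi))
    rw [map_mul, map_inv, h5, h5, inv_one, mul_one]

theorem comp_lat (h : ∀ i, Ov (φ i) (r i)) (hR : ∀ i, IsRad (φ i) (R i))
    (hl : H515.St.IsLattice Γ) [(G0 Δ pl).FiniteIndex] {j : I} (hj : Ds Γ j)
    (hp : ∀ i, pl i = pl j → i = j) : ∃ f : Sq Δ pl {pl j} →* E j, Function.Injective f ∧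
      H515.St.IsLattice f.range ∧ Infinite (Sq Δ pl {pl j}) := by
  haveI b0 := fun i => (h i).top
  haveI b1 := fun i => Ov.lc (h i)
  haveI b2 := fun i => Ov.sc (h i)
  haveI b3 := fun i => Ov.t2 (h i)
  obtain ⟨f, hf⟩ : ∃ f : Sq Δ pl {pl j} →* E j, ∀ x, f x = ev Γ j x.1.1 :=
    ⟨(ev Γ j).comp ((G0 Δ pl).subtype.comp (Sq Δ pl {pl j}).subtype), fun _ => rfl⟩
  have h1 : H515.IsLattice (ev Γ j).range := ⟨hj, Nd.push (Pi.evalMonoidHom E j)
    (continuous_apply j) (fun x => by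
      classical
      exact ⟨Function.update 1 j x, Function.update_self j x 1⟩) Γ _
    (fun g hg => ⟨⟨g, hg⟩, rfl⟩) hl.covol⟩
  haveI : Finite (Γ ⧸ G0 Δ pl) := Subgroup.finite_quotient_of_finiteIndex
  have h2 : (f.range.subgroupOf (ev Γ j).range).FiniteIndex := by
    choose s hs using fun x : (ev Γ j).range => x.2
    refine fi_of_fun _ (fun x => (s x : Γ ⧸ G0 Δ pl)) Set.finite_univ (fun _ => trivial)
      fun x y e => ?_
    obtain ⟨a, ha, b, hb, h3, e'⟩ := G0_split {pl j} (QuotientGroup.eq.1 e)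
    refine ⟨⟨⟨a, h3⟩, ha⟩, ?_⟩
    have h4 := congrArg (ev Γ j) e'
    rw [map_mul, map_mul, map_inv, hs, hs, hb.1 j fun h => h rfl, mul_one] at h4
    rw [hf]
    exact h4.symm
  have h3 := VR.H978.isLattice_fi h1 (Δ := f.range) (by
    rintro _ ⟨x, rfl⟩
    exact ⟨_, (hf x).symm⟩) h2
  refine ⟨f, (injective_iff_map_eq_one f).2 fun x hx => Subtype.ext (Subtype.ext
    (ev_inj _ fun i => ?_)), ⟨h3.disc, h3.covol⟩, ?_⟩
  · by_cases hi : i = j
    · rw [hi, ← hf, hx]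
    · exact x.2.1 i fun e => hi (hp i e)
  · by_contra h4
    haveI := not_infinite_iff_finite.1 h4
    haveI : Finite f.range := Finite.of_surjective _ f.rangeRestrict_surjective
    haveI : Finite (f.range.subgroupOf (ev Γ j).range) := Finite.of_injective
      (fun x => (⟨x.1.1, x.2⟩ : f.range)) fun x y e =>
        Subtype.ext (Subtype.ext (congrArg (fun z : f.range => (z : E j)) e))
    have h5 : Finite (ev Γ j).range :=
      (Subgroup.finite_iff_finite_and_finiteIndex _).2 ⟨inferInstance, h2⟩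
    refine H560.Mx.inf_fam h hR (ev Γ) (lat_ev hl) j ?_
    rw [MonoidHom.coe_comp, Set.range_comp]
    exact (Set.toFinite ((ev Γ j).range : Set (E j))).image _

end lat

end Vale.Agent.P092PG
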