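import Vale.Agent.P092PG.Bas

/-!
P092, product glue (helper24): square summable families, the trace pairing, conditional
expectations of square integrable operators, the bicommutant lemma.
-/

set_option linter.all false

open scoped InnerProductSpace ENNReal
open Filter Topology ContinuousLinearMap

namespace Vale.Agent.P092PG

open Vale.Agent.P092.H421.Hs (Pf Frq trq trq_swap trq_indep enn_sq' enn_congr ana)
open Vale.Agent.P092.H962.Eq (adj_mul' adj_adj')

variable {L : Type} [NormedAddCommGroup L] [InnerProductSpace ℂ L] [CompleteSpace L]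

section lp

variable {ι : Type} {f g : ι → L}

/-- square summable families -/
def SQ (f : ι → L) : Prop := ∑' i, ‖f i‖ₑ ^ 2 ≠ ∞

theorem SQ.mem (h : SQ f) : Memℓp f 2 := by
  rw [memℓp_gen_iff (by norm_num)]
  have e : ∀ i, ‖f i‖ ^ (ENNReal.toReal 2) = (‖f i‖ₑ ^ 2).toReal := by
    intro i
    rw [ENNReal.toReal_pow, toReal_enorm]
    norm_num
  simp_rw [e]
  exact ENNReal.summable_toReal h

/-- the vector of a square summable family -/
noncomputable def mk (h : SQ f) : lp (fun _ : ι => L) 2 := ⟨f, h.mem⟩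

theorem mk_ap (h : SQ f) (i : ι) : (mk h : ι → L) i = f i := rfl

theorem lp_enorm (x : lp (fun _ : ι => L) 2) : ‖x‖ₑ ^ 2 = ∑' i, ‖(x : ι → L) i‖ₑ ^ 2 := by
  have h1 := lp.hasSum_norm (p := 2) (by norm_num) x
  have e2 : (ENNReal.toReal 2) = ((2 : ℕ) : ℝ) := by norm_num
  rw [e2] at h1
  simp only [Real.rpow_natCast] at h1
  rw [enn_sq', ← h1.tsum_eq, ENNReal.ofReal_tsum_of_nonneg (fun _ => sq_nonneg _) h1.summable]
  exact tsum_congr fun i => (enn_sq' _).symm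

theorem lp_sq (x : lp (fun _ : ι => L) 2) : SQ (x : ι → L) := by
  rw [SQ, ← lp_enorm]
  exact esq_ne x

theorem hasSum_ip (hf : SQ f) (hg : SQ g) :
    HasSum (fun i => ⟪f i, g i⟫_ℂ) ⟪mk hf, mk hg⟫_ℂ := lp.hasSum_inner (mk hf) (mk hg)

theorem summable_ip (hf : SQ f) (hg : SQ g) : Summable fun i => ⟪f i, g i⟫_ℂ :=
  (hasSum_ip hf hg).summable

theorem SQ.map (hf : SQ f) (a : L →L[ℂ] L) : SQ fun i => a (f i) := by
  refine ne_top_of_le_ne_top (ENNReal.mul_ne_top (esq_ne a) hf) ?_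
  rw [← ENNReal.tsum_mul_left]
  exact ENNReal.tsum_le_tsum fun i => enorm_ap a _

theorem norm_eq_of_esq {E F : Type} [NormedAddCommGroup E] [NormedAddCommGroup F] {x : E} {y : F}
    (h : ‖x‖ₑ ^ 2 = ‖y‖ₑ ^ 2) : ‖x‖ = ‖y‖ := by
  rw [enn_sq', enn_sq', ENNReal.ofReal_eq_ofReal_iff (sq_nonneg _) (sq_nonneg _)] at h
  exact (pow_left_inj₀ (norm_nonneg _) (norm_nonneg _) two_ne_zero).mp h

theorem norm_le_of_esq {E F : Type} [NormedAddCommGroup E] [NormedAddCommGroup F] {x : E} {y : F}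
    {N : ℝ≥0∞} (hN : N ≠ ∞) (h : ‖x‖ₑ ^ 2 ≤ N * ‖y‖ₑ ^ 2) : ‖x‖ ≤ √N.toReal * ‖y‖ := by
  have h1 := ENNReal.toReal_mono (ENNReal.mul_ne_top hN (esq_ne y)) h
  rw [ENNReal.toReal_mul, ENNReal.toReal_pow, ENNReal.toReal_pow, toReal_enorm, toReal_enorm] at h1
  refine le_of_sq_le_sq ?_ (by positivity)
  rw [mul_pow, Real.sq_sqrt ENNReal.toReal_nonneg]
  exact h1

theorem inner_of_norms {E F : Type} [NormedAddCommGroup E] [InnerProductSpace ℂ E]
    [NormedAddCommGroup F] [InnerProductSpace ℂ F] {x y : E} {x' y' : F}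
    (h : ∀ c : ℂ, ‖x + c • y‖ = ‖x' + (starRingEnd ℂ) c • y'‖) : ⟪x, y⟫_ℂ = ⟪y', x'⟫_ℂ := by
  have h1 := h 1
  have h2 := h (-1)
  have h3 := h Complex.I
  have h4 := h (-Complex.I)
  rw [map_one, one_smul, one_smul] at h1
  rw [map_neg, map_one, neg_one_smul, neg_one_smul, ← sub_eq_add_neg, ← sub_eq_add_neg] at h2
  rw [Complex.conj_I, neg_smul, ← sub_eq_add_neg] at h3
  rw [map_neg, Complex.conj_I, neg_neg, neg_smul, ← sub_eq_add_neg] at h4
  rw [← inner_conj_symm y' x', inner_eq_sum_norm_sq_div_four x y,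
    inner_eq_sum_norm_sq_div_four x' y']
  have e : (RCLike.I : ℂ) = Complex.I := rfl
  rw [e, h1, h2, h3, h4]
  simp only [map_div₀, map_add, map_sub, map_mul, map_pow, RCLike.conj_ofReal, Complex.conj_I,
    map_ofNat]
  ring

theorem pf_hasSum {P : Type} {f : P → L} (h : Pf f) (u v : L) :
    HasSum (fun p => ⟪u, f p⟫_ℂ * ⟪f p, v⟫_ℂ) ⟪u, v⟫_ℂ := by
  have h1 := lp.hasSum_inner (𝕜 := ℂ) (ana h u) (ana h v)
  rw [(ana h).inner_map_map] at h1
  have e : (fun p => ⟪u, f p⟫_ℂ * ⟪f p, v⟫_ℂ) =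
      fun p => ⟪(ana h u : P → ℂ) p, (ana h v : P → ℂ) p⟫_ℂ := by
    funext p
    change _ = ⟪⟪f p, u⟫_ℂ, ⟪f p, v⟫_ℂ⟫_ℂ
    rw [RCLike.inner_apply, inner_conj_symm, mul_comm]
  rw [e]
  exact h1

end lp

section tr

variable {H Q Q' : Type} [Group H] {R : H →* (L →L[ℂ] L)} {e : Q → L} {e' : Q' → L}
  {A B : L →L[ℂ] L}

/-- **The trace pairing is symmetric.** -/
theorem tr2_swap (hR : Un R) (he : Frq R e) (he' : Frq R e') (hA : Cr R A) (hB : Cr R B)
    (fA : trq e' A < ∞) (fB : trq e' B < ∞) :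
    ∑' q, ⟪A (e' q), B (e' q)⟫_ℂ = ∑' q, ⟪adjoint B (e q), adjoint A (e q)⟫_ℂ := by
  have sA : SQ fun q => A (e' q) := fA.ne
  have sB : SQ fun q => B (e' q) := fB.ne
  have sA' : SQ fun q => adjoint A (e q) := by
    rw [trq_swap hR he he' hA] at fA
    exact fA.ne
  have sB' : SQ fun q => adjoint B (e q) := by
    rw [trq_swap hR he he' hB] at fB
    exact fB.ne
  rw [(hasSum_ip sA sB).tsum_eq, (hasSum_ip sB' sA').tsum_eq]
  refine inner_of_norms fun c => norm_eq_of_esq ?_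
  rw [lp_enorm, lp_enorm]
  have h1 := trq_swap hR he he' (hA.add (hB.smul c))
  have h2 : adjoint (A + c • B) = adjoint A + (starRingEnd ℂ) c • adjoint B := by
    rw [map_add]
    congr 1
    exact star_smul c B
  rw [h2] at h1
  exact h1

theorem tr2_indep (hR : Un R) (he : Frq R e) (he' : Frq R e') (hA : Cr R A) (hB : Cr R B)
    (fA : trq e A < ∞) (fB : trq e B < ∞) :
    ∑' q, ⟪A (e' q), B (e' q)⟫_ℂ = ∑' q, ⟪A (e q), B (e q)⟫_ℂ := by
  rw [tr2_swap hR he he hA hB fA fB, tr2_swap hR he he' hA hB (by rwa [trq_indep hR he he' hA])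
    (by rwa [trq_indep hR he he' hB])]

end tr

section col

variable {T : Type} {u : T → (L →L[ℂ] L)} {y y₁ y₂ : L →L[ℂ] L}

theorem IB.sq (h : IB u y) (η : L) : SQ fun t => y (u t η) := by
  obtain ⟨N, hN, h⟩ := h
  exact ne_top_of_le_ne_top (ENNReal.mul_ne_top hN (esq_ne η)) (h η)

theorem IB.exists_col (h : IB u y) : ∃ c : L →L[ℂ] lp (fun _ : T => L) 2,
    ∀ η, c η = mk (h.sq η) := by
  obtain ⟨N, hN, h'⟩ := id h
  refine ⟨LinearMap.mkContinuous
    { toFun := fun η => mk (h.sq η)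
      map_add' := fun a b => ?_
      map_smul' := fun z a => ?_ } (√N.toReal) fun η => ?_, fun η => rfl⟩
  · refine lp.ext (funext fun t => ?_)
    change y (u t (a + b)) = y (u t a) + y (u t b)
    rw [map_add, map_add]
  · refine lp.ext (funext fun t => ?_)
    change y (u t (z • a)) = z • y (u t a)
    rw [map_smul, map_smul]
  · refine norm_le_of_esq hN ?_
    rw [lp_enorm]
    exact h' η

/-- the sum of the operators `u* y₁* y₂ u` -/
theorem exists_E (h₁ : IB u y₁) (h₂ : IB u y₂) : ∃ b : L →L[ℂ] L,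
    ∀ η ζ, HasSum (fun t => ⟪y₁ (u t η), y₂ (u t ζ)⟫_ℂ) ⟪η, b ζ⟫_ℂ := by
  obtain ⟨c₁, e₁⟩ := h₁.exists_col
  obtain ⟨c₂, e₂⟩ := h₂.exists_col
  refine ⟨adjoint c₁ ∘L c₂, fun η ζ => ?_⟩
  have h1 : ⟪η, (adjoint c₁ ∘L c₂) ζ⟫_ℂ = ⟪mk (h₁.sq η), mk (h₂.sq ζ)⟫_ℂ := by
    rw [ContinuousLinearMap.comp_apply, adjoint_inner_right, e₁, e₂]
  rw [h1]
  exact hasSum_ip _ _

end col

section bic

variable {ι G : Type} [Group G] {ρ : G →* (L →L[ℂ] L)}

/-- amplification -/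
noncomputable def amp (ι : Type) (S : L →L[ℂ] L) :
    lp (fun _ : ι => L) 2 →L[ℂ] lp (fun _ : ι => L) 2 :=
  lp.mapCLM 2 (fun _ => S) (norm_nonneg S) fun _ => le_rfl

theorem amp_ap (S : L →L[ℂ] L) (x : lp (fun _ : ι => L) 2) (i : ι) :
    (amp ι S x : ι → L) i = S ((x : ι → L) i) := rfl

theorem amp_adj (S : L →L[ℂ] L) : adjoint (amp ι S) = amp ι (adjoint S) := by
  symm
  rw [ContinuousLinearMap.eq_adjoint_iff]
  intro x y
  rw [lp.inner_eq_tsum, lp.inner_eq_tsum]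
  refine tsum_congr fun i => ?_
  rw [amp_ap, amp_ap, adjoint_inner_left]

/-- the amplified representation -/
noncomputable def ampR (ι : Type) (ρ : G →* (L →L[ℂ] L)) :
    G →* (lp (fun _ : ι => L) 2 →L[ℂ] lp (fun _ : ι => L) 2) where
  toFun g := amp ι (ρ g)
  map_one' := by
    refine ContinuousLinearMap.ext fun x => lp.ext (funext fun i => ?_)
    rw [amp_ap, map_one]
    rfl
  map_mul' g h := by
    refine ContinuousLinearMap.ext fun x => lp.ext (funext fun i => ?_)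
    rw [amp_ap, map_mul]
    rfl

/-- **Bicommutant lemma** for an irreducible representation. -/
theorem bic (h : Un ρ) (hi : Irr ρ) {ξ η : ι → L} (hξ : SQ ξ) (hη : SQ η)
    (h0 : ∀ g, ∑' i, ⟪ρ g (ξ i), η i⟫_ℂ = 0) (S : L →L[ℂ] L) : ∑' i, ⟪S (ξ i), η i⟫_ℂ = 0 := by
  classical
  have hu : Un (ampR ι ρ) := fun g => by
    change adjoint (amp ι (ρ g)) = amp ι (ρ g⁻¹)
    rw [amp_adj, h]
  obtain ⟨P, p1, p2, p3, p4, p5⟩ := P092EN.exists_cyc hu (mk hξ)
  have hs : ∀ (A : L →L[ℂ] L) (j : ι) (v : L), amp ι A (lp.single 2 j v) = lp.single 2 j (A v) := by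
    intro A j v
    refine lp.ext (funext fun i => ?_)
    rw [amp_ap]
    by_cases hij : i = j
    · subst hij
      rw [lp.single_apply_self, lp.single_apply_self]
    · rw [lp.single_apply_ne _ _ _ hij, lp.single_apply_ne _ _ _ hij, map_zero]
  have hz : ∀ i j : ι, ∃ z : ℂ, ∀ v : L, (P (lp.single 2 j v) : ι → L) i = z • v := by
    intro i j
    obtain ⟨z, hz⟩ := hi (lp.evalCLM ℂ (fun _ : ι => L) 2 i ∘L
      (P ∘L lp.singleContinuousLinearMap ℂ (fun _ : ι => L) 2 j)) fun g => by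
        refine ContinuousLinearMap.ext fun v => ?_
        change (P (lp.single 2 j (ρ g v)) : ι → L) i = ρ g ((P (lp.single 2 j v) : ι → L) i)
        rw [← hs]
        have h1 := p4 g (lp.single 2 j v)
        change P (amp ι (ρ g) _) = amp ι (ρ g) _ at h1
        rw [h1, amp_ap]
    exact ⟨z, fun v => ap hz v⟩
  have hc : P ∘L amp ι S = amp ι S ∘L P := by
    refine lp.ext_continuousLinearMap (by norm_num) fun j => ContinuousLinearMap.ext fun v => ?_
    refine lp.ext (funext fun i => ?_)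
    change (P (amp ι S (lp.single 2 j v)) : ι → L) i = S ((P (lp.single 2 j v) : ι → L) i)
    obtain ⟨z, hz⟩ := hz i j
    rw [hs, hz, hz, map_smul]
  have h1 := p5 (mk hη) (fun g => by
    rw [lp.inner_eq_tsum]
    exact h0 g) (amp ι S (mk hξ))
  have h2 : P (amp ι S (mk hξ)) = amp ι S (P (mk hξ)) := DFunLike.congr_fun hc _
  rw [h2, p3, lp.inner_eq_tsum] at h1
  exact h1

end bic

end Vale.Agent.P092PG
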