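import Vale.Agent.P092PG.Dec

/-!
P092, product glue (helper24): the matching of the components is the identity; square integrable
operators for all sets of components.
-/

set_option linter.all false

open scoped InnerProductSpace ENNReal
open Filter Topology ContinuousLinearMap

namespace Vale.Agent.P092PG

open Vale.Agent.P092.H678.OV (rs)

variable {L : Type} [NormedAddCommGroup L] [InnerProductSpace ℂ L] [CompleteSpace L]

/-- a nonzero operator which lives on two coordinates and is square integrable along the second -/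
def Rel {G Z : Type} [Group G] (S : Set Z → Subgroup G) (σ : G →* (L →L[ℂ] L)) (z z' : Z) : Prop :=
  ∃ f : L →L[ℂ] L, f ≠ 0 ∧ Cr (rs (S {z, z'}ᶜ) σ) f ∧ IB (rs (S {z'}) σ) f

/-- the coordinates outside a leg -/
def leg (C : Type) (e : Fin 3) : Set (Fin 3 × C) := {z | z.1 ≠ e}

/-- the coordinates over a set of components -/
def col {C : Type} (A : Set C) : Set (Fin 3 × C) := {z | z.2 ∈ A}

theorem col_compl {C : Type} (A : Set C) : col Aᶜ = (col A)ᶜ := rfl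

variable {G C : Type} [Group G] {S : Set (Fin 3 × C) → Subgroup G} {σ : G →* (L →L[ℂ] L)}

/-- the relation holds for all pairs of legs -/
def RR (S : Set (Fin 3 × C) → Subgroup G) (σ : G →* (L →L[ℂ] L)) (c d : C) : Prop :=
  ∀ a b : Fin 3, a ≠ b → Rel S σ (a, c) (b, d)

/-- a square integrable operator over a set of components -/
def Zl (S : Set (Fin 3 × C) → Subgroup G) (σ : G →* (L →L[ℂ] L)) (e : Fin 3) (A : Set C) : Prop :=
  ∃ y : L →L[ℂ] L, y ≠ 0 ∧ Cr (rs (S (col A)ᶜ) σ) y ∧ IB (rs (S (col A ∩ leg C e)) σ) y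

variable (h : Dec S) (hσ : Un σ) (hi : Irr σ)

include h hσ hi

theorem mat2 (hm : FM (rs (S (leg C 0)) σ)) {c d c' : C} (h₁ : RR S σ c d) (h₂ : RR S σ d c')
    [Infinite (S {(0, c')})] : c' = c := by
  by_contra hne
  obtain ⟨f₁, a0, a1, a2⟩ := h₁ 0 1 (by decide)
  obtain ⟨f₂, b0, b1, b2⟩ := h₂ 1 0 (by decide)
  refine h.cnt hσ hi (A := leg C 0 \ {(1, d)}) (B := {(1, d)}) (D := {(0, c')})
    Set.disjoint_sdiff_left ?_ ?_ a0 (h.cr_mono a1 ?_) (h.cr_mono a1 ?_) a2 b0 (h.cr_mono b1 ?_) b2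
  · rw [Set.disjoint_singleton_left]
    exact fun hz => hz.1 rfl
  · rwa [Set.diff_union_of_subset]
    rintro _ rfl
    exact (by decide : (1 : Fin 3) ≠ 0)
  · rintro z ⟨h1, h2⟩ (rfl | h3)
    · exact h1 rfl
    · exact h2 h3
  · rintro _ rfl (h3 | h3)
    · exact hne (congrArg Prod.snd h3)
    · exact (by decide : (0 : Fin 3) ≠ 1) (congrArg Prod.fst h3)
  · rintro z ⟨h1, h2⟩ (h3 | rfl)
    · exact h2 h3
    · exact h1 rfl

theorem mat3 (hm : FM (rs (S (leg C 0)) σ)) {c d c' c'' : C} (h₁ : RR S σ c d)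
    (h₂ : RR S σ d c') (h₃ : RR S σ c' c'') [Infinite (S {(0, c'')})] : c'' = c := by
  by_contra hne
  obtain ⟨f₁, a0, a1, a2⟩ := h₁ 0 1 (by decide)
  obtain ⟨f₂, b0, b1, b2⟩ := h₂ 1 2 (by decide)
  obtain ⟨f₃, c0, c1, c2⟩ := h₃ 2 0 (by decide)
  obtain ⟨g, hg⟩ := exists_conj_ne hσ hi b0 a0
  have a1' := h.cr_conj a1 g
  refine h.cnt hσ hi (A := leg C 0 \ ({(2, c')} ∪ {(1, d)})) (B := {(2, c')} ∪ {(1, d)})
    (D := {(0, c'')}) Set.disjoint_sdiff_left ?_ ?_ hg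
    ((h.cr_mono b1 ?_).mul (h.cr_mono a1' ?_)) ((h.cr_mono b1 ?_).mul (h.cr_mono a1' ?_))
    (h.ib_union b2 (h.ib_conj a2 g) (h.cr_mono a1' ?_)) c0 (h.cr_mono c1 ?_) c2
  · rw [Set.disjoint_singleton_left]
    exact fun hz => hz.1 rfl
  · rwa [Set.diff_union_of_subset]
    rintro _ (rfl | rfl)
    · exact (by decide : (2 : Fin 3) ≠ 0)
    · exact (by decide : (1 : Fin 3) ≠ 0)
  · rintro z ⟨h1, h2⟩ (h3 | h3)
    · exact h2 (Or.inr h3)
    · exact h2 (Or.inl h3)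
  · rintro z ⟨h1, h2⟩ (rfl | h3)
    · exact h1 rfl
    · exact h2 (Or.inr h3)
  · rintro _ rfl (h3 | h3)
    · exact (by decide : (0 : Fin 3) ≠ 1) (congrArg Prod.fst h3)
    · exact (by decide : (0 : Fin 3) ≠ 2) (congrArg Prod.fst h3)
  · rintro _ rfl (h3 | h3)
    · exact hne (congrArg Prod.snd h3)
    · exact (by decide : (0 : Fin 3) ≠ 1) (congrArg Prod.fst h3)
  · rintro _ rfl (h3 | h3)
    · exact (by decide : (2 : Fin 3) ≠ 0) (congrArg Prod.fst h3)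
    · exact (by decide : (2 : Fin 3) ≠ 1) (congrArg Prod.fst h3)
  · rintro z ⟨h1, h2⟩ (h3 | rfl)
    · exact h2 (Or.inl h3)
    · exact h1 rfl

/-- **The matching is the identity.** -/
theorem mat (hm : FM (rs (S (leg C 0)) σ)) {J : Set C} (hJ : ∀ c ∈ J, ∃ d ∈ J, RR S σ c d)
    (hinf : ∀ c ∈ J, Infinite (S {(0, c)})) : ∀ c ∈ J, RR S σ c c := by
  intro c hc
  obtain ⟨d, hd, h₁⟩ := hJ c hc
  obtain ⟨c', hc', h₂⟩ := hJ d hd
  haveI := hinf c' hc'
  haveI := hinf d hd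
  obtain rfl := mat2 h hσ hi hm h₁ h₂
  obtain rfl := mat3 h hσ hi hm h₁ h₂ h₁
  exact h₁

omit h hσ hi in
theorem fin3 : ∀ e : Fin 3, ∃ a b : Fin 3, a ≠ b ∧ a ≠ e ∧ b ≠ e ∧ ∀ x, x ≠ e → x = a ∨ x = b := by
  decide

theorem zl_single {c : C} (hc : RR S σ c c) (e : Fin 3) : Zl S σ e {c} := by
  obtain ⟨a, b, ab, ae, be, hx⟩ := fin3 e
  obtain ⟨f₁, a0, a1, a2⟩ := hc b a ab.symm
  obtain ⟨f₂, b0, b1, b2⟩ := hc e b be.symm
  obtain ⟨g, hg⟩ := exists_conj_ne hσ hi a0 b0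
  have b1' := h.cr_conj b1 g
  refine ⟨_, hg, (h.cr_mono a1 ?_).mul (h.cr_mono b1' ?_), ?_⟩
  · rintro z h1 (rfl | rfl) <;> exact h1 rfl
  · rintro z h1 (rfl | rfl) <;> exact h1 rfl
  · have e1 : col {c} ∩ leg C e = {(a, c)} ∪ {(b, c)} := by
      ext ⟨x, d⟩
      constructor
      · rintro ⟨rfl, h2⟩
        rcases hx x h2 with rfl | rfl
        · exact Or.inl rfl
        · exact Or.inr rfl
      · rintro (h1 | h1) <;> obtain ⟨rfl, rfl⟩ := Prod.mk.inj h1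
        · exact ⟨rfl, ae⟩
        · exact ⟨rfl, be⟩
    rw [e1]
    refine h.ib_union a2 (h.ib_conj b2 g) (h.cr_mono b1' ?_)
    rintro _ rfl (h3 | h3)
    · exact ae (congrArg Prod.fst h3)
    · exact ab (congrArg Prod.fst h3)

theorem zl_union {e : Fin 3} {A B : Set C} (hd : Disjoint A B) (hA : Zl S σ e A)
    (hB : Zl S σ e B) : Zl S σ e (A ∪ B) := by
  obtain ⟨y, a0, a1, a2⟩ := hA
  obtain ⟨z, b0, b1, b2⟩ := hB
  have s1 : col A ⊆ (col B)ᶜ := fun x hx hx' => Set.disjoint_left.1 hd hx hx'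
  refine ⟨y * z, h.mul_ne hσ hi a1 (h.cr_mono b1 s1) a0 b0,
    Cr.mul (h.cr_mono a1 fun x hx hx' => hx (Or.inl hx'))
      (h.cr_mono b1 fun x hx hx' => hx (Or.inr hx')), ?_⟩
  have e1 : col (A ∪ B) ∩ leg C e = col A ∩ leg C e ∪ col B ∩ leg C e :=
    Set.union_inter_distrib_right (col A) (col B) _
  rw [e1]
  exact h.ib_union a2 b2 (h.cr_mono b1 (Set.inter_subset_left.trans s1))

theorem zl_all [Finite C] [Nontrivial L] (hc : ∀ c, RR S σ c c) (e : Fin 3) (A : Set C) :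
    Zl S σ e A := by
  induction A, Set.toFinite A using Set.Finite.induction_on with
  | empty =>
    refine ⟨1, one_ne_zero, Cr.one, ?_⟩
    have e1 : col (∅ : Set C) ∩ leg C e = ∅ := Set.eq_empty_of_forall_notMem fun x hx => hx.1
    rw [e1]
    exact h.ib_empty _
  | insert ha _ ih =>
    rw [Set.insert_eq]
    exact zl_union h hσ hi (Set.disjoint_singleton_left.2 ha) (zl_single h hσ hi (hc _) e) ih

theorem col_splits [Finite C] [Nontrivial L] (hm : FM (rs (S (leg C 0)) σ))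
    (hc : ∀ c, RR S σ c c) (A : Set C) :
    (∀ a d, Cr (rs (S (col A)ᶜ) σ) a → Cr (rs (S (col A)) σ) d → a * d = d * a) ∧
      ∃ g, MinP (rs (S (col A)ᶜ) σ) g := by
  obtain ⟨y, y0, y1, y2⟩ := zl_all h hσ hi hc 0 Aᶜ
  obtain ⟨z, z0, z1, z2⟩ := zl_all h hσ hi hc 0 A
  rw [col_compl, compl_compl] at y1
  exact h.splits hσ hi hm y0 y1 y2 z0 z1 z2

end Vale.Agent.P092PG
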