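import Vale.Agent.P092PG.Spl

/-!
P092, product glue (helper24): minimal projections in the commutants.
-/

set_option linter.all false

open scoped InnerProductSpace ENNReal
open Filter Topology ContinuousLinearMap

namespace Vale.Agent.P092PG

open Vale.Agent.P092.H421.Hs (Pf Frq trq enn_sq' enn_congr)
open Vale.Agent.P092.H962.Eq (adj_mul' adj_adj' adj_mul_self_ne comm_starProjection
  adj_starProjection sq_starProjection proj_norm_le)
open Vale.Agent.P092EN (prd prd_apply prd_adj)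

variable {L : Type} [NormedAddCommGroup L] [InnerProductSpace ℂ L] [CompleteSpace L]

/-- a minimal projection in the commutant of a family -/
structure MinP {T : Type} (κ : T → (L →L[ℂ] L)) (g : L →L[ℂ] L) : Prop where
  cr : Cr κ g
  adj : adjoint g = g
  sq : g * g = g
  ne : g ≠ 0
  min : ∀ a, Cr κ a → ∃ c : ℂ, g * a * g = c • g

section minp

variable {T : Type} {κ : T → (L →L[ℂ] L)} {g a : L →L[ℂ] L} {ξ : L}

theorem MinP.ii (h : MinP κ g) (u v : L) : ⟪g u, v⟫_ℂ = ⟪u, g v⟫_ℂ := by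
  rw [← adjoint_inner_right, h.adj]

theorem MinP.inner (h : MinP κ g) (hξ : g ξ = ξ) (h1 : ‖ξ‖ = 1) (ha : Cr κ a) {u v : L}
    (hu : g u = u) (hv : g v = v) : ⟪u, a v⟫_ℂ = ⟪ξ, a ξ⟫_ℂ * ⟪u, v⟫_ℂ := by
  obtain ⟨c, hc⟩ := h.min a ha
  have e : ∀ u v, g u = u → g v = v → ⟪u, a v⟫_ℂ = c * ⟪u, v⟫_ℂ := fun u v hu hv => by
    have h2 : g (a (g v)) = c • g v := ap hc v
    rw [hv] at h2
    rw [← hu, h.ii, h2, inner_smul_right, hu]
  rw [e u v hu hv, e ξ ξ hξ hξ, inner_self_eq_norm_sq_to_K, h1]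
  simp

/-- the orbit of a vector under the commutant -/
def orb (κ : T → (L →L[ℂ] L)) (ξ : L) : Submodule ℂ L where
  carrier := {w | ∃ a, Cr κ a ∧ a ξ = w}
  add_mem' := by
    rintro _ _ ⟨a, ha, rfl⟩ ⟨b, hb, rfl⟩
    exact ⟨a + b, ha.add hb, rfl⟩
  zero_mem' := ⟨0, Cr.zero, rfl⟩
  smul_mem' := by
    rintro c _ ⟨a, ha, rfl⟩
    exact ⟨c • a, ha.smul c, rfl⟩

theorem orb_self : ξ ∈ orb κ ξ := ⟨1, Cr.one, rfl⟩

theorem orb_map (ha : Cr κ a) {w : L} (hw : w ∈ orb κ ξ) : a w ∈ orb κ ξ := by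
  obtain ⟨b, hb, rfl⟩ := hw
  exact ⟨a * b, ha.mul hb, rfl⟩

end minp

section rep

variable {G : Type} [Group G] {κ : G →* (L →L[ℂ] L)} {g a : L →L[ℂ] L} {ξ : L}

theorem MinP.norm_le (hκ : Un κ) (h : MinP κ g) (hξ : g ξ = ξ) (h1 : ‖ξ‖ = 1) (ha : Cr κ a) :
    ‖a * g‖ ≤ ‖a ξ‖ := by
  refine ContinuousLinearMap.opNorm_le_bound _ (norm_nonneg _) fun v => ?_
  have hg : g (g v) = g v := ap h.sq v
  have h2 := h.inner hξ h1 ((ha.adj hκ).mul ha) hg hg
  have e : ∀ u, ⟪u, (adjoint a * a) u⟫_ℂ = ⟪a u, a u⟫_ℂ := fun u => adjoint_inner_right a u (a u)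
  rw [e, e, inner_self_eq_norm_sq_to_K, inner_self_eq_norm_sq_to_K,
    inner_self_eq_norm_sq_to_K] at h2
  have h3 : ‖a (g v)‖ ^ 2 = ‖a ξ‖ ^ 2 * ‖g v‖ ^ 2 := by exact_mod_cast h2
  have h4 := (proj_norm_le h.adj h.sq v).2
  change ‖a (g v)‖ ≤ _
  refine le_of_sq_le_sq ?_ (by positivity)
  rw [h3, mul_pow]
  exact mul_le_mul_of_nonneg_left (pow_le_pow_left₀ (norm_nonneg _) h4 2) (sq_nonneg _)

theorem MinP.orb_closed (hκ : Un κ) (h : MinP κ g) (hξ : g ξ = ξ) (h1 : ‖ξ‖ = 1) :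
    IsClosed (orb κ ξ : Set L) := by
  refine IsSeqClosed.isClosed fun x w hx hw => ?_
  choose a ha hx using hx
  have hc : CauchySeq fun n => a n * g := by
    have h2 := hw.cauchySeq
    rw [Metric.cauchySeq_iff] at h2 ⊢
    intro ε hε
    obtain ⟨N, hN⟩ := h2 ε hε
    refine ⟨N, fun m hm n hn => lt_of_le_of_lt ?_ (hN m hm n hn)⟩
    rw [dist_eq_norm, dist_eq_norm, ← sub_mul, ← hx, ← hx]
    exact h.norm_le hκ hξ h1 ((ha m).sub (ha n))
  obtain ⟨b, hb⟩ := cauchySeq_tendsto_of_complete hc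
  refine ⟨b, fun s => tendsto_nhds_unique (hb.mul_const (κ s)) ((hb.const_mul (κ s)).congr
    fun n => (((ha n).mul h.cr) s).symm), ?_⟩
  refine tendsto_nhds_unique (((ContinuousLinearMap.apply ℂ L ξ).continuous.tendsto b).comp hb)
    (hw.congr fun n => ?_)
  change x n = a n (g ξ)
  rw [hξ, hx]

theorem cr_proj (hκ : Un κ) {E : Submodule ℂ L} [E.HasOrthogonalProjection]
    (hE : ∀ s, ∀ v ∈ E, κ s v ∈ E) : Cr κ E.starProjection := fun s =>
  comm_starProjection (hE s) (by rw [hκ]; exact hE _)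

end rep

/-- an eigenvector in an invariant subspace of finite dimension -/
theorem exists_eig (A : L →L[ℂ] L) {W : Submodule ℂ L} [FiniteDimensional ℂ W] (h0 : W ≠ ⊥)
    (h : ∀ v ∈ W, A v ∈ W) : ∃ (c : ℂ) (v : L), v ∈ W ∧ v ≠ 0 ∧ A v = c • v := by
  haveI : Nontrivial W := Submodule.nontrivial_iff_ne_bot.2 h0
  obtain ⟨c, hc⟩ := Module.End.exists_eigenvalue ((A : L →ₗ[ℂ] L).restrict h)
  obtain ⟨v, hv⟩ := hc.exists_hasEigenvector
  exact ⟨c, v, v.2, fun e => hv.2 (Subtype.ext e), congrArg Subtype.val hv.apply_eq_smul⟩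

/-- the eigenspace -/
def eig (A : L →L[ℂ] L) (c : ℂ) : Submodule ℂ L := Module.End.eigenspace (A : L →ₗ[ℂ] L) c

theorem mem_eig {A : L →L[ℂ] L} {c : ℂ} {v : L} : v ∈ eig A c ↔ A v = c • v :=
  Module.End.mem_eigenspace_iff

theorem eig_closed (A : L →L[ℂ] L) (c : ℂ) : IsClosed (eig A c : Set L) := by
  have e : (eig A c : Set L) = {v | A v = c • v} := Set.ext fun v => mem_eig
  rw [e]
  exact isClosed_eq A.continuous (continuous_const_smul c)

theorem eig_map {A B : L →L[ℂ] L} {c : ℂ} (h : A * B = B * A) {v : L} (hv : v ∈ eig A c) :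
    B v ∈ eig A c := by
  rw [mem_eig] at hv ⊢
  rw [cap h, hv, map_smul]

theorem exists_eig_cpt {k : L →L[ℂ] L} (h0 : k ≠ 0) (ha : adjoint k = k)
    (hc : IsCompactOperator k) : ∃ c : ℂ, c ≠ 0 ∧ eig k c ≠ ⊥ ∧ FiniteDimensional ℂ (eig k c) := by
  obtain ⟨c, c0, hc'⟩ : ∃ c : ℂ, c ≠ 0 ∧ Module.End.HasEigenvalue (k : Module.End ℂ L) c := by
    by_contra hn
    push Not at hn
    refine h0 ((ContinuousLinearMap.eq_zero_of_forall_hasEigenvalue_eq_zero hc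
      (P092EN.isSym ha)).1 fun z hz => ?_)
    by_contra hz0
    exact hn z hz0 hz
  exact ⟨c, c0, hc', ContinuousLinearMap.finite_dimensional_eigenspace hc c c0⟩

theorem cpt_of_trq {K : Type} {F : K → L} (hF : Pf F) {k : L →L[ℂ] L} (ha : adjoint k = k)
    (h : trq F k < ∞) : IsCompactOperator k := by
  have h1 : SQ fun p => k (F p) := h.ne
  exact P092EN.compact_of_prs hF.hasSum ha (C := ∑' p, ‖k (F p)‖ ^ 2) fun s =>
    h1.summable.sum_le_tsum s fun _ _ => sq_nonneg _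

variable {M X N Y : Type} [Group M] [Group X] [Group N] [Group Y]
  {μ : M →* (L →L[ℂ] L)} {α : X →* (L →L[ℂ] L)} {ν : N →* (L →L[ℂ] L)} {β : Y →* (L →L[ℂ] L)}
  {h : Four μ α ν β} {Q : Type} {e : Q → L}

/-- **A minimal projection in the commutant of the second group.** -/
theorem Four.exists_min (he : Frq (prd μ ν h.μν) e) (hm : trq e 1 < ∞) {y z : L →L[ℂ] L}
    (hy : h.IP y) (hy0 : y ≠ 0) (hz : h.swap.IP z) (hz0 : z ≠ 0) : ∃ g, MinP h.κ g := by
  have cm : ∀ {a d : L →L[ℂ] L}, Cr h.κ a → Cr h.π d → a * d = d * a := fun ha hd =>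
    Four.comm he hm hy hy0 hz hz0 ha hd
  have hyz : y * z ≠ 0 := fun h0 => hy0 (h.z1 hz.cr' hz0 fun p => by
    rw [← mul_assoc, hy.cr, mul_assoc, h0, mul_zero])
  obtain ⟨A, hA⟩ : ∃ A, A = adjoint z * z := ⟨_, rfl⟩
  obtain ⟨B, hB⟩ : ∃ B, B = adjoint y * y := ⟨_, rfl⟩
  have cA : Cr h.κ A := by rw [hA]; exact (hz.cr'.adj h.uκ).mul hz.cr'
  have cB : Cr h.π B := by rw [hB]; exact (hy.cr.adj h.uπ).mul hy.cr
  have hk : adjoint (y * z) * (y * z) = A * B := by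
    rw [adj_mul', mul_assoc, ← mul_assoc (adjoint y), ← hB, ← cm hz.cr' cB, hA, mul_assoc]
  obtain ⟨c, c0, c1, c2⟩ := exists_eig_cpt (k := A * B) (by rw [← hk]; exact adj_mul_self_ne hyz)
    (by rw [← hk, adj_mul', adj_adj']) (cpt_of_trq
      (F := fun k : (Q × M) × N => ν k.2 (μ k.1.2 (e k.1.1))) (h.frν he)
      (by rw [← hk, adj_mul', adj_adj'])
      (by rw [← hk]; exact trq_left_lt (Four.trq_yz hm hy hz) _))
  obtain ⟨d, u, u1, u0, u2⟩ := exists_eig B c1 fun v hv =>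
    eig_map (by rw [mul_assoc, ← mul_assoc B, ← cm cA cB, mul_assoc]) hv
  have d0 : d ≠ 0 := by
    rintro rfl
    have h1 : A (B u) = c • u := mem_eig.1 u1
    rw [u2, zero_smul, map_zero] at h1
    exact u0 ((smul_eq_zero.1 h1.symm).resolve_left c0)
  have hW : ∀ v, v ∈ eig B d → (v ∈ eig A (c / d) ↔ v ∈ eig (A * B) c) := by
    intro v hv
    rw [mem_eig, mem_eig]
    change _ ↔ A (B v) = _
    rw [mem_eig.1 hv, map_smul]
    constructor
    · intro h1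
      rw [h1, smul_smul, mul_div_cancel₀ _ d0]
    · intro h1
      rw [div_eq_inv_mul, ← smul_smul, ← h1, smul_smul, inv_mul_cancel₀ d0, one_smul]
  obtain ⟨Gd, hG⟩ : ∃ Gd : Submodule ℂ L → Prop, ∀ E, Gd E ↔ IsClosed (E : Set L) ∧
      (∀ q, ∀ v ∈ E, h.κ q v ∈ E) ∧ FiniteDimensional ℂ (E ⊓ eig B d : Submodule ℂ L) ∧
      E ⊓ eig B d ≠ ⊥ := ⟨_, fun _ => Iff.rfl⟩
  have hex : ∃ n, ∃ E, Gd E ∧ Module.finrank ℂ (E ⊓ eig B d : Submodule ℂ L) = n := by
    refine ⟨_, eig A (c / d), (hG _).2 ⟨eig_closed _ _, fun q v hv => eig_map (cA q) hv,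
      Submodule.finiteDimensional_of_le (S₂ := eig (A * B) c) fun v hv => (hW v hv.2).1 hv.1,
      ?_⟩, rfl⟩
    rw [Submodule.ne_bot_iff]
    exact ⟨u, ⟨(hW u (mem_eig.2 u2)).2 u1, mem_eig.2 u2⟩, u0⟩
  classical
  obtain ⟨E, hE, hn⟩ := Nat.find_spec hex
  obtain ⟨e1, e2, e3, e4⟩ := (hG E).1 hE
  haveI : CompleteSpace E := e1.completeSpace_coe
  have cg : Cr h.κ E.starProjection := cr_proj h.uκ e2
  have gE : ∀ v, E.starProjection v ∈ E := fun v => Submodule.starProjection_apply_mem _ _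
  have gid : ∀ v ∈ E, E.starProjection v = v := fun v hv =>
    Submodule.starProjection_eq_self_iff.2 hv
  refine ⟨E.starProjection, cg, adj_starProjection E, sq_starProjection E, fun h0 => ?_,
    fun a ha => ?_⟩
  · obtain ⟨v, hv, v0⟩ := (Submodule.ne_bot_iff _).1 e4
    exact v0 (by rw [← gid v hv.1, h0]; rfl)
  · obtain ⟨a', ha'⟩ : ∃ a', a' = E.starProjection * a * E.starProjection := ⟨_, rfl⟩
    have ca : Cr h.κ a' := by rw [ha']; exact (cg.mul ha).mul cg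
    obtain ⟨l, v, v1, v0, v2⟩ := exists_eig a' e4 fun v hv =>
      ⟨by rw [ha']; exact gE _, eig_map (cm ca cB).symm hv.2⟩
    have hle : (E ⊓ eig a' l) ⊓ eig B d ≤ E ⊓ eig B d := inf_le_inf_right _ inf_le_left
    have hG' : Gd (E ⊓ eig a' l) := by
      refine (hG _).2 ⟨e1.inter (eig_closed _ _), fun q w hw => ⟨e2 q w hw.1, eig_map (ca q) hw.2⟩,
        Submodule.finiteDimensional_of_le hle, ?_⟩
      rw [Submodule.ne_bot_iff]
      exact ⟨v, ⟨⟨v1.1, mem_eig.2 v2⟩, v1.2⟩, v0⟩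
    have heq : (E ⊓ eig a' l) ⊓ eig B d = E ⊓ eig B d :=
      Submodule.eq_of_le_of_finrank_le hle (by
        rw [hn]; exact Nat.find_min' hex ⟨_, hG', rfl⟩)
    refine ⟨l, ?_⟩
    rw [← ha', ← sub_eq_zero]
    refine h.zv (ca.sub (cg.smul l)) v0 fun p => ?_
    have h1 : E.starProjection (h.π p v) ∈ E ⊓ eig B d :=
      ⟨gE _, eig_map (cm cg cB).symm (eig_map (cB p) v1.2)⟩
    rw [← heq] at h1
    have h2 : a' (E.starProjection (h.π p v)) = a' (h.π p v) := by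
      rw [ha']
      change E.starProjection (a (E.starProjection (E.starProjection _))) = _
      rw [gid _ (gE _)]
      rfl
    change a' (h.π p v) - l • E.starProjection (h.π p v) = 0
    rw [← h2, mem_eig.1 h1.1.2, sub_self]

end Vale.Agent.P092PG
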