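import Vale.Agent.P092PG.Sym
import Vale.Agent.P092.H678.O.End
import Vale.Agent.P092.H560.Mx.NeB

/-!
P092, product glue (helper24): the symmetric model.
-/

set_option linter.all false

open scoped InnerProductSpace ENNReal
open Filter Topology ContinuousLinearMap

namespace Vale.Agent.P092PG

open Vale.Agent.P092 Vale.Agent.P092.H678.OV
open Vale.Agent.P092.H160 Vale.Agent.P092.H103 Vale.Agent.P092.H962

theorem au_trans {H₁ H₂ H₃ : Type} [NormedAddCommGroup H₁] [InnerProductSpace ℂ H₁]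
    [NormedAddCommGroup H₂] [InnerProductSpace ℂ H₂] [NormedAddCommGroup H₃]
    [InnerProductSpace ℂ H₃] {σ τ : ℂ → ℂ} {U : H₁ → H₂} {U' : H₂ → H₁} {W : H₂ → H₃}
    {W' : H₃ → H₂} (u : AU σ U U') (w : AU τ W W') (h : ∀ c, σ (τ c) = τ (σ c)) :
    AU (fun c => τ (σ c)) (fun x => W (U x)) (fun x => U' (W' x)) where
  add x y := by rw [u.add, w.add]
  add' x y := by rw [w.add', u.add']
  smul c x := by rw [u.smul, w.smul]
  smul' c x := by rw [w.smul', u.smul', h]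
  norm x := by rw [w.norm, u.norm]
  norm' x := by rw [u.norm', w.norm']
  inv x := by rw [w.inv, u.inv]
  inv' x := by rw [u.inv', w.inv']
  ss c := by rw [h, u.ss, w.ss]
  inn x y := by rw [w.inn, u.inn]
  re c := by rw [w.re, u.re]
  real r := by rw [u.real, w.real]

section model

variable {Γ Λ I : Type} [Group Γ] [Group Λ] [Fintype I]
  {α β γ : Γ → (Ell2 (I × Λ) →L[ℂ] Ell2 (I × Λ))}

theorem sy_mod (hα : AF α) (hβ : AF β) (e : br β = α) :
    Sy (V3 hα hβ hβ) (A3R hα hβ hβ) (B3R hα hβ hβ) := by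
  subst e
  refine ⟨⟨_, _, _, swap_AU (β := β) (γ := β) hα, swU_V hα hβ hβ, swU_A hα hβ hβ, swU_B hα hβ hβ⟩,
    ⟨_, _, _, au_trans (au_trans (flip_AU hα hβ hβ) (swap_AU (β := br β) (γ := br β) hβ)
      fun c => rfl) (flip_AU hα hβ hβ).symm (fun c => rfl), fun g v => ?_, fun g v => ?_,
      fun g v => ?_⟩⟩
  · rw [flU_V, swU_A hβ hα (AF.bar hβ), flU'_B]
  · rw [flU_A, swU_V hβ hα (AF.bar hβ), flU'_V]
  · rw [flU_B, swU_B hβ hα (AF.bar hβ), flU'_A]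

theorem sys0_mod [Infinite Γ] [Countable Λ] (hα : AF α) (hβ : AF β) (hΓ : Icc Γ)
    (hΛ : ∀ s : Λ, s ≠ 1 → Set.Infinite {y : Λ | ∃ h, y = h * s * h⁻¹}) :
    Sys0 (V3 hα hβ hβ) (A3R hα hβ hβ) (B3R hα hβ hβ) := by
  obtain ⟨m, m', ξ, h⟩ := H962.exists_tri hα hβ hβ hΛ
  obtain ⟨n, n', ζ, h'⟩ := H962.exists_tri' hα hβ hβ hΛ
  obtain ⟨m₂, e₂, he₂, hm₂⟩ := H421.Hs.exists_frq₂ hα hβ hβ hΛ
  obtain ⟨m₁, e₁, he₁, hm₁⟩ := H421.Hs.exists_frq₁ hα hβ hβ hΛ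
  refine ⟨?_, ⟨_, inferInstance, ξ, h⟩, ⟨_, inferInstance, ζ, h'⟩, ?_, ?_, ⟨_, e₁, he₁, hm₁⟩,
    ⟨_, e₂, he₂, hm₂⟩⟩
  · haveI h1 : TopologicalSpace.SeparableSpace (Ell2 (I × ((I × Λ) × (I × Λ)))) :=
      separable_of_basis (HilbertBasis.ofRepr (LinearIsometryEquiv.refl ℂ
        (Ell2 (I × ((I × Λ) × (I × Λ))))))
    haveI h2 : SecondCountableTopology (Ell2 (I × ((I × Λ) × (I × Λ)))) :=
      UniformSpace.secondCountable_of_separable _
    haveI h3 : SecondCountableTopology (HH (PT α β β)) :=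
      inferInstanceAs (SecondCountableTopology (↥(_ : Submodule ℂ _)))
    haveI h4 : TopologicalSpace.SeparableSpace (HH (PT α β β)) := inferInstance
    exact exists_cb (HH (PT α β β))
  · exact ⟨_, inferInstance, _, (swap_AU (β := β) (γ := β) hα).tri (swU_A hα hβ hβ)
      (swU_V hα hβ hβ) (swU_B hα hβ hβ) (fun c => rfl) h'⟩
  · intro A h0 h1 h2
    exact irr_HH hΓ hΛ hα hβ hβ h0 h1 h2

end model

theorem canon_mod {Γ Λ : Type} [Group Γ] [Group Λ] {n : ℕ} {p : H103.St.MOp n Λ}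
    (hΓ : Icc Γ) (hΛ : ∀ s : Λ, s ≠ 1 → Set.Infinite {y : Λ | ∃ h, y = h * s * h⁻¹})
    (hp : H103.St.IsProj p) (θ : H103.St.CornerIso Γ Λ n p)
    {β : Γ → (Ell2 (Fin n × Λ) →L[ℂ] Ell2 (Fin n × Λ))} (hα : AF (H103.alf θ)) (hβ : AF β)
    (h : OverV (V3 hα hβ hβ) (A3R hα hβ hβ) (B3R hα hβ hβ)) :
    H103.St.mtr p = 1 ∧ H103.St.CanonicalM θ := by
  obtain ⟨r, ζ, κ, hκ, h⟩ := h
  refine hb_can hΓ hΛ hp θ (J := Fin n) (K := Fin n)
    (fun i => (ζ i : Ell2 (Fin n × ((Fin n × Λ) × (Fin n × Λ))))) hκ fun g => ?_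
  obtain ⟨i, j, a, b, h⟩ := h g
  refine ⟨i, j, JT (β a), JT (β b), JT_norm (al_norm hβ a), JT_norm (al_norm hβ b), ?_⟩
  rw [Submodule.coe_inner, V3_val, RR3_val] at h
  have e1 : R1T (Fin n) (Fin n) (β a) * R2T (Fin n) (Fin n) (β b) =
      tens 1 (tens (JT (β a)) (JT (β b))) := by
    rw [R1T, R2T, ← tens_mul, ← tens_mul, one_mul, one_mul, mul_one]
  have e2 : R1T (Fin n) (Fin n) (β a) (R2T (Fin n) (Fin n) (β b)
      (ζ j : Ell2 (Fin n × ((Fin n × Λ) × (Fin n × Λ))))) =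
      tens 1 (tens (JT (β a)) (JT (β b)))
        (ζ j : Ell2 (Fin n × ((Fin n × Λ) × (Fin n × Λ)))) := by
    rw [← e1]; rfl
  rw [e2] at h
  exact h

section fam

open Vale.Agent.P092.VR (Ov IsRad)
open Vale.Agent.P092.SR.St (ICC SuperAll)
open Vale.Agent.P092.H333.Amp (ErgC)
open Vale.Agent.P092.H333.V

variable {Γ I : Type} [Group Γ] [Fintype I] {M E : I → Type} [∀ i, Group (M i)]
  [∀ i, TopologicalSpace (M i)] [∀ i, Group (E i)] [∀ i, TopologicalSpace (E i)]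
  {φ : ∀ i, M i →* E i} {r : I → ℕ} {R : ∀ i, Subgroup (E i)}

/-- **From symmetric ergodic systems to the conclusion.** -/
theorem superAll_sym [Infinite Γ] (h : ∀ i, Ov (φ i) (r i)) (hR : ∀ i, IsRad (φ i) (R i))
    [∀ i, (R i).Normal] (q : ∀ i, Γ →* E i) (hinj : ∀ g, (∀ i, q i g = 1) → g = 1)
    (hlat : H515.St.IsLattice (MonoidHom.pi q).range) (hicc : ICC Γ)
    (H : ∀ (ℋ : Type) [NormedAddCommGroup ℋ] [InnerProductSpace ℂ ℋ] [CompleteSpace ℋ]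
      (V A B : Γ →* (ℋ →L[ℂ] ℋ)), Sys0 V A B → Sy V A B →
      (∀ i, DenseRange (q i) → ErgC ((QuotientGroup.mk' (R i)).comp (q i)) V A B) → OverV V A B) :
    SuperAll Γ := by
  intro Λ _ _ hΛ n p hpj θ
  have hα : AF (H103.alf θ) := H103.af_of hicc hpj θ
  have hβ := AF.bar hα
  refine canon_mod hicc hΛ hpj θ hα hβ (H _ _ _ _ (sys0_mod hα hβ hicc hΛ)
    (sy_mod hα hβ (funext fun g => H103.bar_bar _)) fun i hd => ?_)
  haveI b0 := fun i => (h i).top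
  haveI b1 := fun i => Ov.lc (h i)
  haveI b2 := fun i => Ov.sc (h i)
  haveI b3 := fun i => Ov.t2 (h i)
  haveI c0 := fun i => tg_quo (h i) (hR i)
  have hp : DenseRange ((QuotientGroup.mk' (R i)).comp (q i)) :=
    (QuotientGroup.mk'_surjective (R i)).denseRange.comp hd QuotientGroup.continuous_mk
  rcases (h i).qf.erg with hc | ht
  · haveI := nn_fin (R := R i) (h i).fin
    exact VR.ergC_conn_over (NN (φ i) (R i)) (nn_open (h i).opn) (conn_nn (h i) (hR i) hc)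
      (facS_nn (h i) (hR i)) hicc hΛ hα hβ hβ hp
  · exact TV628.ergC_tdV (VR.tdV_quo (h i) (hR i) ht) hicc hα hβ hβ hΛ hp fun U hU g hg =>
      VR.H978.ricc_quo_open h R hR (fun i => facV_quo (h i) (hR i)) q hinj hlat hicc i hd U
        hU hg

end fam

end Vale.Agent.P092PG
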