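import Vale.Agent.P092PG.Mat
import Vale.Agent.P092PG.Fin

/-!
P092, product glue (helper24): three legs; the system on the part of a component.
-/

set_option linter.all false

open scoped InnerProductSpace ENNReal
open Filter Topology ContinuousLinearMap

namespace Vale.Agent.P092PG

open Vale.Agent.P092.H421.Hs (Pf Frq trq enn_congr)
open Vale.Agent.P092.H962.Eq (adj_mul' adj_adj' adj_mul_self_ne adj_starProjection
  sq_starProjection)
open Vale.Agent.P092.H678.OV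
open Vale.Agent.P092EN (prd prd_apply prd_adj)

variable {L : Type} [NormedAddCommGroup L] [InnerProductSpace ℂ L] [CompleteSpace L]

section gen

theorem icc_prod {N : Type} [Group N] (h : Icc N) : Icc (N × N) := by
  rintro ⟨a, b⟩ hne hfin
  by_cases ha : a = 1
  · have hb : b ≠ 1 := fun hb => hne (by rw [ha, hb]; rfl)
    refine h b hb ((hfin.image Prod.snd).subset ?_)
    rintro _ ⟨k, rfl⟩
    exact ⟨_, ⟨(1, k), rfl⟩, rfl⟩
  · refine h a ha ((hfin.image Prod.fst).subset ?_)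
    rintro _ ⟨k, rfl⟩
    exact ⟨_, ⟨(k, 1), rfl⟩, rfl⟩

variable {N K Q : Type} [Group N] [NormedAddCommGroup K] [InnerProductSpace ℂ K] [CompleteSpace K]
  {W : K →L[ℂ] L} {V R₁ R₂ : N →* (L →L[ℂ] L)}

theorem gtri_of [Nontrivial K] (hN : Icc N) (uV : Un V) (u₁ : Un R₁) (u₂ : Un R₂)
    (c₁ : ∀ g h, V g * R₁ h = R₁ h * V g) (c₂ : ∀ g h, V g * R₂ h = R₂ h * V g)
    (c₁₂ : ∀ g h, R₁ g * R₂ h = R₂ h * R₁ g) (hV : Iso W V) (h₁ : Iso W R₁) (h₂ : Iso W R₂)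
    {e : Q → L} (he : Frq (prd R₁ R₂ c₁₂) e) (hm : trq e (W ∘L adjoint W) < ∞) :
    GTri (cmp hV) (cmp h₁) (cmp h₂) := by
  have hi : Iso W (prd R₁ R₂ c₁₂) := ⟨hV.one, fun g v => by
    change W (adjoint W (R₁ g.1 (R₂ g.2 v))) = R₁ g.1 (R₂ g.2 (W (adjoint W v)))
    rw [h₁.cm, h₂.cm]⟩
  obtain ⟨n, ξ, hξ⟩ := fin_frame (icc_prod hN) (ρ := cmp hi) (cmp_adj hi (un_prd u₁ u₂))
    ⟨Q, _, frq_cmp hi he, lt_of_eq_of_lt (tsum_congr fun q => by
      change ‖adjoint W (e q)‖ₑ ^ 2 = ‖W (adjoint W (e q))‖ₑ ^ 2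
      rw [enn_congr (W_norm hV _)]) hm⟩
  have e1 : ∀ (p : N × N) v, cmp hi p v = cmp h₁ p.1 (cmp h₂ p.2 v) := fun p v => by
    rw [cmp_ap h₁, W_cmp h₂]
    rfl
  refine ⟨Fin n, inferInstance, ξ, cmp_adj hV uV, cmp_adj h₁ u₁, cmp_adj h₂ u₂, cmp_comm hV h₁ c₁,
    cmp_comm hV h₂ c₂, cmp_comm h₁ h₂ c₁₂, ?_, fun η => ?_⟩
  · by_contra hn
    push Not at hn
    obtain ⟨η, hη⟩ := _root_.exists_ne (0 : K)
    exact hη (Pf.eq_zero hξ fun p => by rw [hn, map_zero, inner_zero_left])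
  · have h1 := Pf.hasSum hξ η
    simp only [e1] at h1
    exact h1

theorem exists_conj_ne' {G : Type} [Group G] {σ : G →* (L →L[ℂ] L)} (hσ : Un σ) (hi : Irr σ)
    {a b : L →L[ℂ] L} (ha : a ≠ 0) (hb : b ≠ 0) : ∃ g, σ g⁻¹ * a * σ g * b ≠ 0 := by
  by_contra hn
  push Not at hn
  refine ha (irr0 hσ hi hb fun g => ?_)
  have h1 := congrArg (σ g * ·) (hn g)
  simp only [mul_zero, ← mul_assoc] at h1
  rwa [rinv', one_mul] at h1

variable {G H : Type} [Group G] [Group H] {κ : G →* (L →L[ℂ] L)} {π : H →* (L →L[ℂ] L)}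
  {g y : L →L[ℂ] L} {ξ : L}

theorem MinP.trq_lt (hκ : Un κ) (hπ : Un π) (h : MinP κ g) {e : Q → L} (he : Frq π e)
    (hc : ∀ a, Cr κ a → Cr π a) (hy : Cr κ y) (h0 : y * g ≠ 0) (hf : trq e y < ∞) :
    trq e g < ∞ := by
  obtain ⟨c, hc'⟩ := h.min _ ((hy.adj hκ).mul hy)
  have h1 : adjoint (y * g) * (y * g) = c • g := by
    rw [adj_mul', h.adj, ← hc']
    simp only [mul_assoc]
  have c0 : c ≠ 0 := fun e0 => adj_mul_self_ne h0 (by rw [h1, e0, zero_smul])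
  have h2 : g = (c⁻¹ • adjoint (y * g)) * (y * g) := by
    rw [smul_mul_assoc, h1, smul_smul, inv_mul_cancel₀ c0, one_smul]
  rw [h2]
  exact trq_left_lt (trq_right_lt hπ he (hc y hy) (hc g h.cr) hf) _

theorem orb_inner (hκ : Un κ) (h : MinP κ g) (hξ : g ξ = ξ) (h1 : ‖ξ‖ = 1) {b : L →L[ℂ] L}
    (hb : ∀ a, Cr κ a → a * b = b * a) {u v : L} (hu : u ∈ orb κ ξ) (hv : v ∈ orb κ ξ) :
    ⟪u, b v⟫_ℂ = ⟪ξ, b ξ⟫_ℂ * ⟪u, v⟫_ℂ := by
  obtain ⟨a, ha, rfl⟩ := hu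
  obtain ⟨a', ha', rfl⟩ := hv
  have h2 := h.inner hξ h1 ((ha.adj hκ).mul ha') hξ (v := b ξ) (by rw [cap (hb g h.cr), hξ])
  have e : ∀ w, ⟪ξ, (adjoint a * a') w⟫_ℂ = ⟪a ξ, a' w⟫_ℂ := fun w => adjoint_inner_right a ξ (a' w)
  rw [e, e, cap (hb a' ha')] at h2
  rw [h2, mul_comm]

theorem orb_min (hκ : Un κ) (hπ : Un π) (h : MinP κ g) (hξ : g ξ = ξ) (h1 : ‖ξ‖ = 1)
    (hπκ : ∀ p, Cr κ (π p)) (hc : ∀ a d, Cr κ a → Cr π d → a * d = d * a) :
    ∃ p, MinP π p ∧ ∀ v, p v ∈ orb κ ξ := by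
  haveI : CompleteSpace (orb κ ξ) := (h.orb_closed hκ hξ h1).completeSpace_coe
  have hm : ∀ v, (orb κ ξ).starProjection v ∈ orb κ ξ := fun v =>
    Submodule.starProjection_apply_mem _ _
  refine ⟨(orb κ ξ).starProjection, ⟨cr_proj hπ fun s v hv => orb_map (hπκ s) hv,
    adj_starProjection _, sq_starProjection _, fun h0 => ?_, fun b hb => ⟨⟪ξ, b ξ⟫_ℂ, ?_⟩⟩, hm⟩
  · have h2 : (orb κ ξ).starProjection ξ = ξ := Submodule.starProjection_eq_self_iff.2 orb_self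
    rw [h0, ContinuousLinearMap.zero_apply] at h2
    rw [← h2, norm_zero] at h1
    exact zero_ne_one h1
  · refine ContinuousLinearMap.ext fun v => ext_inner_left ℂ fun u => ?_
    change ⟪u, (orb κ ξ).starProjection (b ((orb κ ξ).starProjection v))⟫_ℂ =
      ⟪u, ⟪ξ, b ξ⟫_ℂ • (orb κ ξ).starProjection v⟫_ℂ
    rw [← Submodule.inner_starProjection_left_eq_right, inner_smul_right,
      orb_inner hκ h hξ h1 (fun a ha => hc a b ha hb) (hm u) (hm v),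
      Submodule.inner_starProjection_left_eq_right,
      Submodule.starProjection_eq_self_iff.2 (hm v)]

end gen

variable {G C : Type} [Group G] {S : Set C → Subgroup G}

/-- the decomposition of the group of triples -/
def S3 (S : Set C → Subgroup G) (B : Set (Fin 3 × C)) : Subgroup (Fin 3 → G) where
  carrier := {g | ∀ a, g a ∈ S {c | (a, c) ∈ B}}
  one_mem' := fun a => (S _).one_mem
  mul_mem' := fun hx hy a => (S _).mul_mem (hx a) (hy a)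
  inv_mem' := fun hx a => (S _).inv_mem (hx a)

theorem Dec.three (h : Dec S) : Dec (S3 S) where
  mono hAB g hg a := h.mono (fun c hc => hAB hc) (hg a)
  comm hd x hx y hy := funext fun a =>
    h.comm (Set.disjoint_left.2 fun c h1 h2 => Set.disjoint_left.1 hd h1 h2) _ (hx a) _ (hy a)
  sup A B g hg := by
    choose x hx y hy e using fun a => h.sup {c | (a, c) ∈ A} {c | (a, c) ∈ B} (g a) (hg a)
    exact ⟨x, hx, y, hy, funext e⟩
  inj hd x hx hy := funext fun a =>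
    h.inj (Set.disjoint_left.2 fun c h1 h2 => Set.disjoint_left.1 hd h1 h2) _ (hx a) (hy a)
  top g a := h.top _

/-- the legs -/
def io (G : Type) [Group G] (a : Fin 3) : G →* (Fin 3 → G) := MonoidHom.mulSingle (fun _ => G) a

theorem io_self (a : Fin 3) (x : G) : io G a x a = x := Pi.mulSingle_eq_same (M := fun _ => G) a x

theorem io_ne {a b : Fin 3} (h : b ≠ a) (x : G) : io G a x b = 1 :=
  Pi.mulSingle_eq_of_ne (M := fun _ => G) h x

theorem io_comm {a b : Fin 3} (h : a ≠ b) (x y : G) : io G a x * io G b y = io G b y * io G a x :=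
  Pi.mulSingle_commute (f := fun _ => G) h x y

theorem io_prod (g : Fin 3 → G) : g = io G 0 (g 0) * io G 1 (g 1) * io G 2 (g 2) := by
  funext a
  fin_cases a <;> simp [io]

theorem io_mem (h : Dec S) {a : Fin 3} {A : Set C} {B : Set (Fin 3 × C)} {x : G} (hx : x ∈ S A)
    (hB : ∀ c ∈ A, (a, c) ∈ B) : io G a x ∈ S3 S B := fun b => by
  by_cases hb : b = a
  · subst hb
    rw [io_self]
    exact h.mono hB hx
  · rw [io_ne hb]
    exact (S _).one_mem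

/-- the coordinates of one leg over a set of components -/
def lg (a : Fin 3) (A : Set C) : Set (Fin 3 × C) := {z | z.1 = a ∧ z.2 ∈ A}

theorem lg_eqv (h : Dec S) (a : Fin 3) (A : Set C) :
    ∃ φ : S A ≃ S3 S (lg a A), ∀ x, (φ x : Fin 3 → G) = io G a x := by
  refine ⟨Equiv.ofBijective (fun x => ⟨io G a x, io_mem h x.2 fun c hc => ⟨rfl, hc⟩⟩)
    ⟨fun x y e => ?_, fun g => ⟨⟨g.1 a, h.mono (fun c hc => hc.2) (g.2 a)⟩, ?_⟩⟩, fun x => rfl⟩
  · have h1 : io G a x a = io G a y a := congrArg (fun g : S3 S (lg a A) => g.1 a) e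
    rw [io_self, io_self] at h1
    exact Subtype.ext h1
  · refine Subtype.ext (funext fun b => ?_)
    change io G a (g.1 a) b = g.1 b
    by_cases hb : b = a
    · subst hb
      exact io_self _ _
    · rw [io_ne hb]
      have h1 : g.1 b ∈ S ∅ := h.mono (fun c hc => hb hc.1) (g.2 b)
      exact (h.inj (Set.disjoint_empty ∅) _ h1 h1).symm

variable {σ : (Fin 3 → G) →* (L →L[ℂ] L)}

/-- the representation of a leg -/
noncomputable abbrev Vl (σ : (Fin 3 → G) →* (L →L[ℂ] L)) (a : Fin 3) : G →* (L →L[ℂ] L) :=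
  σ.comp (io G a)

theorem Vl_comm {a b : Fin 3} (h : a ≠ b) (x y : G) : Vl σ a x * Vl σ b y = Vl σ b y * Vl σ a x := by
  change σ (io G a x) * σ (io G b y) = σ (io G b y) * σ (io G a x)
  rw [← map_mul, ← map_mul, io_comm h]

theorem cr_of_legs {B : Set (Fin 3 × C)} {T : L →L[ℂ] L}
    (h : ∀ a, ∀ x ∈ S {c | (a, c) ∈ B}, T * Vl σ a x = Vl σ a x * T) : Cr (rs (S3 S B) σ) T := by
  intro g
  have h0 : T * σ (io G 0 _) = σ (io G 0 _) * T := h 0 _ (g.2 0)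
  have h1 : T * σ (io G 1 _) = σ (io G 1 _) * T := h 1 _ (g.2 1)
  have h2 : T * σ (io G 2 _) = σ (io G 2 _) * T := h 2 _ (g.2 2)
  change T * σ g.1 = σ g.1 * T
  rw [io_prod g.1, map_mul, map_mul, ← mul_assoc, ← mul_assoc, h0, mul_assoc _ T, h1,
    ← mul_assoc, mul_assoc _ T, h2, ← mul_assoc]

theorem cr_leg (h : Dec S) {B : Set (Fin 3 × C)} {T : L →L[ℂ] L} (hT : Cr (rs (S3 S B) σ) T)
    {a : Fin 3} {A : Set C} (hB : ∀ c ∈ A, (a, c) ∈ B) {x : G} (hx : x ∈ S A) :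
    T * Vl σ a x = Vl σ a x * T := hT ⟨_, io_mem h hx hB⟩

theorem frq_leg (h : Dec S) {a : Fin 3} {A : Set C} {Q : Type} {e : Q → L}
    (he : Frq (rs (S3 S (lg a A)) σ) e) : Frq (rs (S A) (Vl σ a)) e := by
  obtain ⟨φ, hφ⟩ := lg_eqv h a A
  exact Frq.of_equiv he φ fun x => congrArg σ (hφ x)

theorem frq_pair (h : Dec S) {a b : Fin 3} (hab : a ≠ b) {A B : Set C} {Q : Type} {e : Q → L} :
    Frq (rs (S3 S (lg a A ∪ lg b B)) σ) e ↔
      Frq (prd (rs (S A) (Vl σ a)) (rs (S B) (Vl σ b)) fun x y => Vl_comm hab _ _) e := by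
  obtain ⟨φ, hφ⟩ := lg_eqv h a A
  obtain ⟨ψ, hψ⟩ := lg_eqv h b B
  obtain ⟨θ, hθ⟩ := h.three.exists_eqv (A := lg a A) (B := lg b B)
    (Set.disjoint_left.2 fun z h1 h2 => hab (h1.1.symm.trans h2.1))
  have key : ∀ p : S A × S B, rs (S3 S (lg a A ∪ lg b B)) σ (((φ.prodCongr ψ).trans θ) p) =
      prd (rs (S A) (Vl σ a)) (rs (S B) (Vl σ b)) (fun x y => Vl_comm hab _ _) p := fun p => by
    change σ (θ (φ p.1, ψ p.2)) = σ (io G a p.1) * σ (io G b p.2)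
    rw [hθ, hφ, hψ, map_mul]
  refine ⟨fun he => Frq.of_equiv he _ key, fun he => Frq.of_equiv he ((φ.prodCongr ψ).trans θ).symm
    fun x => ?_⟩
  rw [← key, Equiv.apply_symm_apply]

theorem ib_leg (h : Dec S) {a : Fin 3} {A : Set C} {T : L →L[ℂ] L}
    (hT : IB (rs (S A) (Vl σ a)) T) : IB (rs (S3 S (lg a A)) σ) T := by
  obtain ⟨φ, hφ⟩ := lg_eqv h a A
  refine hT.comp φ.symm φ.symm.injective fun t => ?_
  obtain ⟨x, rfl⟩ := φ.surjective t
  rw [Equiv.symm_apply_apply]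
  exact congrArg σ (hφ x)

theorem lg_single (a : Fin 3) (c : C) : lg a {c} = {(a, c)} := by
  ext ⟨b, d⟩
  exact ⟨fun h => Prod.ext h.1 h.2, fun h => ⟨congrArg Prod.fst h, congrArg Prod.snd h⟩⟩

theorem col_leg {e a b : Fin 3} (ae : a ≠ e) (be : b ≠ e) (hx : ∀ x, x ≠ e → x = a ∨ x = b)
    (A : Set C) : col A ∩ leg C e = lg a A ∪ lg b A := by
  ext ⟨x, d⟩
  constructor
  · rintro ⟨h1, h2⟩
    exact (hx x h2).imp (fun h => ⟨h, h1⟩) fun h => ⟨h, h1⟩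
  · rintro (⟨rfl, h1⟩ | ⟨rfl, h1⟩)
    · exact ⟨h1, ae⟩
    · exact ⟨h1, be⟩

/-- overlap over a set of components -/
def OvS (S : Set C → Subgroup G) (σ : (Fin 3 → G) →* (L →L[ℂ] L)) (A : Set C) (ξ : L) : Prop :=
  ∃ (ι : Type) (_ : Finite ι) (m : ι → (L →L[ℂ] L)) (κ : ℝ), 0 < κ ∧
    (∀ i, Cr (rs (S3 S (col A)ᶜ) σ) (m i)) ∧ ∀ x ∈ S A, ∃ i j, ∃ a ∈ S A, ∃ b ∈ S A,
      κ ≤ ‖⟪Vl σ 0 x (m i ξ), Vl σ 1 a (Vl σ 2 b (m j ξ))⟫_ℂ‖

/-- **The system of a component.** -/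
theorem ovs_of_stmt [Finite C] [Nontrivial L] (h : Dec S) (hσ : Un σ) (hi : Irr σ)
    (hm : ∀ e, FM (rs (S3 S (leg C e)) σ)) (hc : ∀ c, RR (S3 S) σ c c)
    (hb : ∃ (B : Type) (_ : Countable B), Nonempty (HilbertBasis B ℂ L)) {A : Set C}
    [Infinite (S A)] (hA : Icc (S A)) (s₁ : Hsq (rs (S A) (Vl σ 0)) (rs (S A) (Vl σ 1)))
    (s₂ : Hsq (rs (S A) (Vl σ 0)) (rs (S A) (Vl σ 2)))
    (hO : ∀ (K : Type) [NormedAddCommGroup K] [InnerProductSpace ℂ K] [CompleteSpace K]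
      (V R₁ R₂ : S A →* (K →L[ℂ] K)), Sys V R₁ R₂ → OverV V R₁ R₂)
    {g : L →L[ℂ] L} {ξ : L} (hg : MinP (rs (S3 S (col A)ᶜ) σ) g) (hξ : g ξ = ξ) (h1 : ‖ξ‖ = 1) :
    OvS S σ A ξ := by
  have h3 := h.three
  obtain ⟨p, hp, hpo⟩ := orb_min (π := rs (S3 S (col A)) σ) (hσ.comp _) (hσ.comp _) hg hξ h1
    (fun s => h3.cr_mem disjoint_compl_right s.2) (col_splits h3 hσ hi (hm 0) hc A).1
  obtain ⟨K, _, _, _, _, W, w1, w2⟩ := exists_W hp.adj hp.sq hp.ne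
  have iso : ∀ a, Iso W (rs (S A) (Vl σ a)) := fun a => ⟨w1, fun x v => by
    rw [w2, w2]
    exact cap (cr_leg h hp.cr (fun c hc => hc) x.2) v⟩
  have un : ∀ a, Un (rs (S A) (Vl σ a)) := fun a => (hσ.comp _).comp _
  have gt : ∀ e a b : Fin 3, a ≠ b → a ≠ e → b ≠ e → (∀ x, x ≠ e → x = a ∨ x = b) →
      GTri (cmp (iso e)) (cmp (iso a)) (cmp (iso b)) := by
    intro e a b ab ae be hx
    obtain ⟨Q, f, hf, hf1⟩ := hm e
    obtain ⟨y, y0, y1, y2⟩ := zl_all h3 hσ hi hc e Aᶜ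
    rw [col_compl, compl_compl] at y1
    obtain ⟨k, hk⟩ := exists_conj_ne' hσ hi y0 hp.ne
    have hf' : Frq (rs (S3 S (col A ∩ leg C e ∪ col Aᶜ ∩ leg C e)) σ) f := by
      rwa [col_compl, ← Set.union_inter_distrib_right, Set.union_compl_self, Set.univ_inter]
    have fr := h3.frq_union
      (disjoint_compl_right.mono Set.inter_subset_left Set.inter_subset_left) hf'
    have tp := hp.trq_lt (hσ.comp _) (hσ.comp _) fr (fun a ha => h3.cr_mono ha Set.inter_subset_left)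
      (h3.cr_conj y1 k) hk (trq_ib (h3.ib_conj y2 k) hf1)
    generalize (fun p : Q × S3 S (col Aᶜ ∩ leg C e) =>
      rs (S3 S (col Aᶜ ∩ leg C e)) σ p.2 (f p.1)) = f' at fr tp
    rw [col_leg ae be hx] at fr
    refine gtri_of hA (un e) (un a) (un b) (fun x y => Vl_comm ae.symm _ _)
      (fun x y => Vl_comm be.symm _ _) (fun x y => Vl_comm ab _ _) (iso e) (iso a) (iso b)
      ((frq_pair h ab).1 fr) ?_
    have e1 : W ∘L adjoint W = p := ContinuousLinearMap.ext w2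
    rwa [e1]
  have g0 := gt 0 1 2 (by decide) (by decide) (by decide) (by decide)
  have fr : ∀ a : Fin 3, a ≠ 0 → ∃ (Q : Type) (e : Q → L), Frq (rs (S A) (Vl σ a)) e := by
    intro a ha
    obtain ⟨Q, f, hf, -⟩ := hm 0
    have hf' : Frq (rs (S3 S (lg a A ∪ leg C 0 \ lg a A)) σ) f := by
      rwa [Set.union_diff_cancel]
      rintro z ⟨h4, -⟩ h5
      exact ha (h4.symm.trans h5)
    exact ⟨_, _, frq_leg h (h3.frq_union Set.disjoint_sdiff_right hf')⟩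
  obtain ⟨r, ζ, κ, hκ, hz⟩ := hO K _ _ _ ⟨basis_cmp (iso 0) hb, htri_of_gtri hA g0,
    htri_of_gtri hA (gtri_swap g0), gt 1 0 2 (by decide) (by decide) (by decide) (by decide),
    gt 2 0 1 (by decide) (by decide) (by decide) (by decide),
    irr_cmp (iso 0) (iso 1) (iso 2) fun T t0 t1 t2 => by
      obtain ⟨z, hz⟩ := hp.min T (cr_of_legs fun a x hx => by
        fin_cases a
        · exact t0 ⟨x, hx⟩
        · exact t1 ⟨x, hx⟩
        · exact t2 ⟨x, hx⟩)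
      refine ⟨z, fun v => ?_⟩
      rw [w2, w2]
      exact ap hz v,
    hsq_cmp (iso 0) (iso 1) (un 1) (fr 1 (by decide)) s₁,
    hsq_cmp (iso 0) (iso 2) (un 2) (fr 2 (by decide)) s₂⟩
  have hW : ∀ i, W (ζ i) ∈ orb (rs (S3 S (col A)ᶜ) σ) ξ := fun i => by
    rw [← w1 (ζ i), w2]
    exact hpo _
  choose m hm1 hm2 using hW
  refine ⟨Fin r, inferInstance, m, κ, hκ, hm1, fun x hx => ?_⟩
  obtain ⟨i, j, a, b, hab⟩ := hz ⟨x, hx⟩
  refine ⟨i, j, a, a.2, b, b.2, ?_⟩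
  have e1 : Vl σ 0 x (W (ζ i)) = W (cmp (iso 0) ⟨x, hx⟩ (ζ i)) := (W_cmp (iso 0) ⟨x, hx⟩ _).symm
  have e2 : Vl σ 1 a (Vl σ 2 b (W (ζ j))) = W (cmp (iso 1) a (cmp (iso 2) b (ζ j))) := by
    rw [W_cmp (iso 1), W_cmp (iso 2)]
    rfl
  rw [hm2, hm2, e1, e2, ← adjoint_inner_right, w1]
  exact hab

end Vale.Agent.P092PG
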