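import Vale.Agent.P092PG.Avg
import Vale.Agent.P092EN.Abs

/-!
P092, product glue (helper24): an irreducible representation of a product of two groups with square
integrable operators in both commutants: the two commutants commute.
-/

set_option linter.all false

open scoped InnerProductSpace ENNReal
open Filter Topology ContinuousLinearMap

namespace Vale.Agent.P092PG

open Vale.Agent.P092.H421.Hs (Pf Frq trq enn_sq' enn_congr)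
open Vale.Agent.P092.H962.Eq (adj_mul' adj_adj' adj_mul_self_ne)
open Vale.Agent.P092EN (prd prd_apply prd_adj)

variable {L : Type} [NormedAddCommGroup L] [InnerProductSpace ℂ L] [CompleteSpace L]

section hs

variable {G K : Type} [Group G] {ρ : G →* (L →L[ℂ] L)} {F : K → L}

theorem bic2 (h : Un ρ) (hi : Irr ρ) {ξ η ξ' η' : K → L} (hξ : SQ ξ) (hη : SQ η) (hξ' : SQ ξ')
    (hη' : SQ η') (h0 : ∀ g, ∑' i, ⟪ρ g (ξ i), η i⟫_ℂ = ∑' i, ⟪ρ g (ξ' i), η' i⟫_ℂ)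
    (S : L →L[ℂ] L) : ∑' i, ⟪S (ξ i), η i⟫_ℂ = ∑' i, ⟪S (ξ' i), η' i⟫_ℂ := by
  have s1 : ∀ {a b : K → L}, SQ a → SQ b → SQ fun p : Bool × K => cond p.1 (a p.2) (b p.2) := by
    intro a b ha hb
    rw [SQ, ENNReal.tsum_prod', tsum_bool]
    exact ENNReal.add_ne_top.2 ⟨hb, ha⟩
  have hn : SQ fun i => -η' i := by
    have e : ∀ i, ‖-η' i‖ₑ ^ 2 = ‖η' i‖ₑ ^ 2 := fun i => by rw [enorm_neg]
    rw [SQ, tsum_congr e]
    exact hη'
  have key : ∀ A : L →L[ℂ] L, ∑' p : Bool × K, ⟪A (cond p.1 (ξ p.2) (ξ' p.2)),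
      cond p.1 (η p.2) (-η' p.2)⟫_ℂ = ∑' i, ⟪A (ξ i), η i⟫_ℂ - ∑' i, ⟪A (ξ' i), η' i⟫_ℂ := by
    intro A
    have h1 := summable_ip ((s1 hξ hξ').map A) (s1 hη hn)
    rw [h1.tsum_prod, tsum_bool]
    change ∑' i, ⟪A (ξ' i), -η' i⟫_ℂ + ∑' i, ⟪A (ξ i), η i⟫_ℂ = _
    simp only [inner_neg_right]
    rw [tsum_neg]
    ring
  have h2 := bic h hi (s1 hξ hξ') (s1 hη hn) (fun g => by rw [key, h0, sub_self]) S
  rw [key] at h2
  exact sub_eq_zero.1 h2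

theorem frq_triv (h : Pf F) : Frq (1 : Unit →* (L →L[ℂ] L)) F := by
  intro η
  rw [← h η, ← (Equiv.prodPUnit K).tsum_eq fun p => ‖⟪F p, η⟫_ℂ‖ₑ ^ 2]
  rfl

theorem un_triv : Un (1 : Unit →* (L →L[ℂ] L)) := fun _ => star_one (L →L[ℂ] L)

theorem cr_triv (A : L →L[ℂ] L) : Cr (1 : Unit →* (L →L[ℂ] L)) A := fun _ => by
  change A * 1 = 1 * A
  rw [mul_one, one_mul]

/-- operators with a finite sum of squares are determined by the pairings with the group -/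
theorem eq_of_hs (hF : Pf F) (h : Un ρ) (hi : Irr ρ) {T₁ T₂ T₃ T₄ : L →L[ℂ] L}
    (f₁ : trq F T₁ < ∞) (f₂ : trq F T₂ < ∞) (f₃ : trq F T₃ < ∞) (f₄ : trq F T₄ < ∞)
    (h0 : ∀ g, ∑' k, ⟪T₁ (F k), (T₂ * ρ g) (F k)⟫_ℂ = ∑' k, ⟪T₃ (F k), (T₄ * ρ g) (F k)⟫_ℂ) :
    adjoint T₁ * T₂ = adjoint T₃ * T₄ := by
  have fr := frq_triv hF
  have sa : ∀ {T : L →L[ℂ] L}, trq F T < ∞ → SQ fun k => adjoint T (F k) := fun {T} hT => by
    rw [← trq_adj un_triv fr (cr_triv T)] at hT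
    exact hT.ne
  have sw : ∀ {A B : L →L[ℂ] L}, trq F A < ∞ → trq F B < ∞ → ∀ g,
      ∑' k, ⟪A (F k), (B * ρ g⁻¹) (F k)⟫_ℂ = ∑' k, ⟪ρ g (adjoint B (F k)), adjoint A (F k)⟫_ℂ := by
    intro A B hA hB g
    rw [tr2_swap un_triv fr fr (cr_triv _) (cr_triv _) hA
      (trq_right_lt un_triv fr (cr_triv _) (cr_triv _) hB), adj_mul', h, inv_inv]
    rfl
  have h1 := bic2 h hi (sa f₂) (sa f₁) (sa f₄) (sa f₃) fun g => by
    rw [← sw f₁ f₂, ← sw f₃ f₄, h0]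
  have h2 : ∀ (A B : L →L[ℂ] L) (u v : L), ∑' k, ⟪((innerSL ℂ u).smulRight v) (adjoint B (F k)),
      adjoint A (F k)⟫_ℂ = ⟪v, (adjoint A * B) u⟫_ℂ := by
    intro A B u v
    have h3 := (pf_hasSum hF (A v) (B u)).tsum_eq
    change _ = ⟪v, adjoint A (B u)⟫_ℂ
    rw [adjoint_inner_right, ← h3]
    refine tsum_congr fun k => ?_
    rw [ContinuousLinearMap.smulRight_apply, inner_smul_left, innerSL_apply_apply,
      adjoint_inner_right, adjoint_inner_right, inner_conj_symm, mul_comm]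
  refine ContinuousLinearMap.ext fun u => ext_inner_left ℂ fun v => ?_
  rw [← h2, ← h2, h1]

end hs

variable {M X N Y : Type} [Group M] [Group X] [Group N] [Group Y]

/-- four commuting unitary representations, jointly irreducible -/
structure Four (μ : M →* (L →L[ℂ] L)) (α : X →* (L →L[ℂ] L)) (ν : N →* (L →L[ℂ] L))
    (β : Y →* (L →L[ℂ] L)) : Prop where
  uμ : Un μ
  uα : Un α
  uν : Un ν
  uβ : Un β
  μα : ∀ m x, μ m * α x = α x * μ m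
  μν : ∀ m n, μ m * ν n = ν n * μ m
  μβ : ∀ m y, μ m * β y = β y * μ m
  αν : ∀ x n, α x * ν n = ν n * α x
  αβ : ∀ x y, α x * β y = β y * α x
  νβ : ∀ n y, ν n * β y = β y * ν n
  irr : ∀ A, Cr μ A → Cr α A → Cr ν A → Cr β A → ∃ z : ℂ, A = z • (1 : L →L[ℂ] L)

variable {μ : M →* (L →L[ℂ] L)} {α : X →* (L →L[ℂ] L)} {ν : N →* (L →L[ℂ] L)}
  {β : Y →* (L →L[ℂ] L)}

theorem cr_prd {h : ∀ m x, μ m * α x = α x * μ m} {a : L →L[ℂ] L} :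
    Cr (prd μ α h) a ↔ Cr μ a ∧ Cr α a := by
  constructor
  · intro h1
    refine ⟨fun m => ?_, fun x => ?_⟩
    · have h2 := h1 (m, 1)
      rwa [prd_apply, map_one, mul_one] at h2
    · have h2 := h1 (1, x)
      rwa [prd_apply, map_one, one_mul] at h2
  · rintro ⟨h1, h2⟩ p
    rw [prd_apply, ← mul_assoc, h1, mul_assoc, h2, mul_assoc]

theorem un_prd {h : ∀ m x, μ m * α x = α x * μ m} (h1 : Un μ) (h2 : Un α) : Un (prd μ α h) :=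
  prd_adj h h1 h2

namespace Four

variable (h : Four μ α ν β)

theorem swap (h : Four μ α ν β) : Four ν β μ α :=
  ⟨h.uν, h.uβ, h.uμ, h.uα, h.νβ, fun n m => (h.μν m n).symm, fun n x => (h.αν x n).symm,
    fun y m => (h.μβ m y).symm, fun y x => (h.αβ x y).symm, h.μα,
    fun A h1 h2 h3 h4 => h.irr A h3 h4 h1 h2⟩

/-- the first group -/
noncomputable def π : M × X →* (L →L[ℂ] L) := prd μ α h.μα

/-- the second group -/
noncomputable def κ : N × Y →* (L →L[ℂ] L) := prd ν β h.νβ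

theorem uπ : Un h.π := un_prd h.uμ h.uα

theorem uκ : Un h.κ := un_prd h.uν h.uβ

theorem κ_cr (q : N × Y) : Cr h.π (h.κ q) :=
  cr_prd.2 ⟨Cr.mul (fun m => (h.μν m q.1).symm) (fun m => (h.μβ m q.2).symm),
    Cr.mul (fun x => (h.αν x q.1).symm) (fun x => (h.αβ x q.2).symm)⟩

theorem π_cr (p : M × X) : Cr h.κ (h.π p) := fun q => (h.κ_cr q p).symm

/-- the whole group -/
noncomputable def ρ : (M × X) × (N × Y) →* (L →L[ℂ] L) := prd h.π h.κ fun p q => h.π_cr p q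

theorem uρ : Un h.ρ := un_prd h.uπ h.uκ

theorem iρ : Irr h.ρ := fun A hA => by
  obtain ⟨h1, h2⟩ := cr_prd.1 hA
  exact h.irr A (cr_prd.1 h1).1 (cr_prd.1 h1).2 (cr_prd.1 h2).1 (cr_prd.1 h2).2

theorem ρ_apply (g : (M × X) × (N × Y)) : h.ρ g = h.π g.1 * h.κ g.2 := rfl

theorem zv {a : L →L[ℂ] L} (ha : Cr h.κ a) {u : L} (hu : u ≠ 0) (h0 : ∀ p, a (h.π p u) = 0) :
    a = 0 :=
  irr_vec h.uρ h.iρ hu fun g => by
    change a (h.π g.1 (h.κ g.2 u)) = 0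
    rw [(h.π_cr g.1).ap, ha.ap, h0, map_zero]

theorem z1 {a z : L →L[ℂ] L} (hz : Cr h.κ z) (hz0 : z ≠ 0) (h0 : ∀ p, a * (h.π p * z) = 0) :
    a = 0 :=
  irr0 h.uρ h.iρ hz0 fun g => by
    rw [ρ_apply, mul_assoc, mul_assoc, ← hz, ← mul_assoc (h.π g.1), ← mul_assoc, h0, zero_mul]

theorem z2 {a y : L →L[ℂ] L} (hy : Cr h.π y) (hy0 : y ≠ 0) (h0 : ∀ q, a * (h.κ q * y) = 0) :
    a = 0 := h.swap.z1 hy hy0 h0

/-- square integrable elements of the commutant of the first group -/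
structure IP (y : L →L[ℂ] L) : Prop where
  cr : Cr h.π y
  ib : IB ν y

variable {h}

theorem IP.left {y d : L →L[ℂ] L} (hy : h.IP y) (hd : Cr h.π d) : h.IP (d * y) :=
  ⟨hd.mul hy.cr, hy.ib.left d⟩

theorem IP.right {y : L →L[ℂ] L} (hy : h.IP y) (q : N × Y) : h.IP (y * h.κ q) := by
  refine ⟨hy.cr.mul (h.κ_cr q), hy.ib.of_eq (fun t => q.1 * t) (mul_right_injective q.1) (β q.2)
    fun t => ?_⟩
  change y * (ν q.1 * β q.2) * ν t = _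
  rw [map_mul, mul_assoc, mul_assoc, ← h.νβ]
  simp only [mul_assoc]

variable (h) {Q : Type} {e : Q → L} (he : Frq (prd μ ν h.μν) e) (hm : trq e 1 < ∞)

include he in
theorem frν : Frq ν fun p : Q × M => μ p.2 (e p.1) :=
  frq_sub (Equiv.prodComm N M) (fun n m => h.μν m n) he

variable {h}

include hm in
theorem trq_yz {y z : L →L[ℂ] L} (hy : h.IP y) (hz : h.swap.IP z) :
    trq (fun k : (Q × M) × N => ν k.2 (μ k.1.2 (e k.1.1))) (y * z) < ∞ := by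
  have h1 := trq_ib (e := fun p : Q × M => z (μ p.2 (e p.1))) hy.ib (trq_ib hz.ib hm)
  refine lt_of_eq_of_lt (tsum_congr fun k => ?_) h1
  change ‖y (z (ν k.2 _))‖ₑ ^ 2 = _
  rw [(cr_prd.1 hz.cr).1.ap]

include he hm in
theorem key1 {y₁ y₂ : L →L[ℂ] L} (h₁ : h.IP y₁) (h₂ : h.IP y₂) : ∃ c : ℂ, ∀ z₁ z₂,
    h.swap.IP z₁ → h.swap.IP z₂ →
    ∑' k : (Q × M) × N, ⟪(y₁ * z₁) (ν k.2 (μ k.1.2 (e k.1.1))),
      (y₂ * z₂) (ν k.2 (μ k.1.2 (e k.1.1)))⟫_ℂ =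
    c * ∑' p : Q × M, ⟪z₁ (μ p.2 (e p.1)), z₂ (μ p.2 (e p.1))⟫_ℂ := by
  obtain ⟨b, hb⟩ := exists_E h₁.ib h₂.ib
  have bπ : Cr h.π b := fun p => by
    refine ContinuousLinearMap.ext fun ζ => ext_inner_left ℂ fun η => ?_
    change ⟪η, b (h.π p ζ)⟫_ℂ = ⟪η, h.π p (b ζ)⟫_ℂ
    rw [h.uπ.ir]
    refine (hb _ _).unique ?_
    have e1 : ∀ (y : L →L[ℂ] L), h.IP y → ∀ t p v, y (ν t (h.π p v)) = h.π p (y (ν t v)) :=
      fun y hy t p v => by rw [← (cr_prd.1 (h.π_cr p)).1.ap, hy.cr.ap]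
    have e2 : (fun t => ⟪y₁ (ν t η), y₂ (ν t (h.π p ζ))⟫_ℂ) =
        fun t => ⟪y₁ (ν t (h.π p⁻¹ η)), y₂ (ν t ζ)⟫_ℂ := by
      funext t
      rw [e1 y₂ h₂, e1 y₁ h₁, h.uπ.ir]
    rw [e2]
    exact hb _ _
  have bν : Cr ν b := fun s => by
    refine ContinuousLinearMap.ext fun ζ => ext_inner_left ℂ fun η => ?_
    change ⟪η, b (ν s ζ)⟫_ℂ = ⟪η, ν s (b ζ)⟫_ℂ
    rw [h.uν.ir]
    refine (hb _ _).unique ?_
    have h3 := (Equiv.mulRight s).hasSum_iff.2 (hb (ν s⁻¹ η) ζ)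
    have e2 : (fun t => ⟪y₁ (ν t η), y₂ (ν t (ν s ζ))⟫_ℂ) =
        (fun t => ⟪y₁ (ν t (ν s⁻¹ η)), y₂ (ν t ζ)⟫_ℂ) ∘ Equiv.mulRight s := by
      funext t
      change _ = ⟪y₁ (ν (t * s) (ν s⁻¹ η)), y₂ (ν (t * s) ζ)⟫_ℂ
      rw [rmul, rmul, api]
    rw [e2]
    exact h3
  obtain ⟨bμ, bα⟩ := cr_prd.1 bπ
  obtain ⟨c, hc, cβ⟩ := exists_avg (un_prd h.uμ h.uν) he hm h.uβ
    (fun y => cr_prd.2 ⟨fun m => (h.μβ m y).symm, fun n => (h.νβ n y).symm⟩) (cr_prd.2 ⟨bμ, bν⟩)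
  obtain ⟨z, hz⟩ := h.irr c (fun m => hc.cm _ (bμ m) (h.μβ m)) (fun x => hc.cm _ (bα x) (h.αβ x))
    (fun n => hc.cm _ (bν n) (h.νβ n)) cβ
  refine ⟨z, fun z₁ z₂ g₁ g₂ => ?_⟩
  have t₁ := trq_ib g₁.ib hm
  have t₂ := trq_ib g₂.ib hm
  obtain ⟨n₁, b₁⟩ := cr_prd.1 g₁.cr
  obtain ⟨n₂, b₂⟩ := cr_prd.1 g₂.cr
  have fr := h.frν he
  have h3 := hc.fn _ (fun p : Q × M => z₂ (μ p.2 (e p.1))) (fun p : Q × M => z₁ (μ p.2 (e p.1)))
    t₂.ne t₁.ne fun y => by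
      have fr' : Frq ν fun p : Q × M => β y (μ p.2 (e p.1)) := fun η => by
        rw [← h.uβ.enrm y⁻¹ η, ← fr]
        refine tsum_congr fun k => ?_
        change ‖⟪ν k.2 (β y _), η⟫_ℂ‖ₑ ^ 2 = _
        rw [cap (h.νβ _ _), h.uβ.il]
      have h4 := tr2_indep h.uν fr fr' n₁ (bν.mul n₂) t₁ (trq_left_lt t₂ b)
      refine Eq.trans (tsum_congr fun p => ?_) h4
      change _ = ⟪z₁ (β y _), b (z₂ (β y _))⟫_ℂ
      rw [b₁.ap, b₂.ap]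
  have h4 := summable_ip (trq_yz hm h₁ g₁).ne (trq_yz hm h₂ g₂).ne
  have h5 := h4.hasSum.prod_fiberwise (g := fun p : Q × M =>
      ⟪z₁ (μ p.2 (e p.1)), b (z₂ (μ p.2 (e p.1)))⟫_ℂ) fun p => by
    have e3 : (fun t => ⟪(y₁ * z₁) (ν t (μ p.2 (e p.1))), (y₂ * z₂) (ν t (μ p.2 (e p.1)))⟫_ℂ) =
        fun t => ⟪y₁ (ν t (z₁ (μ p.2 (e p.1)))), y₂ (ν t (z₂ (μ p.2 (e p.1))))⟫_ℂ := by
      funext t
      change ⟪y₁ (z₁ (ν t _)), y₂ (z₂ (ν t _))⟫_ℂ = _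
      rw [n₁.ap, n₂.ap]
    change HasSum (fun t => ⟪(y₁ * z₁) (ν t (μ p.2 (e p.1))),
      (y₂ * z₂) (ν t (μ p.2 (e p.1)))⟫_ℂ) _
    rw [e3]
    exact hb _ _
  rw [← h5.tsum_eq, ← h3, ← tsum_mul_left]
  refine tsum_congr fun p => ?_
  rw [hz, ContinuousLinearMap.smul_apply, inner_smul_right]
  rfl

theorem IP.left' {z a : L →L[ℂ] L} (hz : h.swap.IP z) (ha : Cr h.κ a) : h.swap.IP (a * z) :=
  hz.left ha

theorem IP.right' {z : L →L[ℂ] L} (hz : h.swap.IP z) (p : M × X) : h.swap.IP (z * h.π p) :=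
  hz.right p

theorem IP.cr' {z : L →L[ℂ] L} (hz : h.swap.IP z) : Cr h.κ z := hz.cr

include he hm in
theorem key15 {y₁ y₂ z₁ z₂ a : L →L[ℂ] L} (h₁ : h.IP y₁) (h₂ : h.IP y₂) (g₁ : h.swap.IP z₁)
    (g₂ : h.swap.IP z₂) (ha : Cr h.κ a) :
    ∑' k : (Q × M) × N, ⟪(y₁ * (adjoint a * z₁)) (ν k.2 (μ k.1.2 (e k.1.1))),
      (y₂ * z₂) (ν k.2 (μ k.1.2 (e k.1.1)))⟫_ℂ =
    ∑' k : (Q × M) × N, ⟪(y₁ * z₁) (ν k.2 (μ k.1.2 (e k.1.1))),
      (y₂ * (a * z₂)) (ν k.2 (μ k.1.2 (e k.1.1)))⟫_ℂ := by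
  obtain ⟨c, hc⟩ := key1 he hm h₁ h₂
  rw [hc _ _ (g₁.left' (ha.adj h.uκ)) g₂, hc _ _ g₁ (g₂.left' ha)]
  have e1 : ∀ v, ⟪(adjoint a * z₁) v, z₂ v⟫_ℂ = ⟪z₁ v, (a * z₂) v⟫_ℂ := fun v =>
    adjoint_inner_left a (z₂ v) (z₁ v)
  simp only [e1]

include he hm in
theorem key2 {y₁ y₂ z₁ z₂ a : L →L[ℂ] L} (h₁ : h.IP y₁) (h₂ : h.IP y₂) (g₁ : h.swap.IP z₁)
    (g₂ : h.swap.IP z₂) (ha : Cr h.κ a) :
    adjoint (y₁ * (adjoint a * z₁)) * (y₂ * z₂) = adjoint (y₁ * z₁) * (y₂ * (a * z₂)) := by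
  have ha' : Cr h.κ (adjoint a) := ha.adj h.uκ
  refine eq_of_hs (F := fun k : (Q × M) × N => ν k.2 (μ k.1.2 (e k.1.1))) (h.frν he) h.uρ h.iρ
    (trq_yz hm h₁ (g₁.left' ha')) (trq_yz hm h₂ g₂) (trq_yz hm h₁ g₁) (trq_yz hm h₂ (g₂.left' ha))
    fun g => ?_
  have e : ∀ z : L →L[ℂ] L, Cr h.κ z → y₂ * z * h.ρ g = y₂ * h.κ g.2 * (z * h.π g.1) := by
    intro z hz
    rw [ρ_apply, h.π_cr, mul_assoc, ← mul_assoc z, hz]
    simp only [mul_assoc]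
  rw [e z₂ g₂.cr', e (a * z₂) (ha.mul g₂.cr'), mul_assoc a]
  exact key15 he hm h₁ (h₂.right g.2) g₁ (g₂.right' g.1) ha

include he hm in
/-- **The two commutants commute.** -/
theorem comm {y z : L →L[ℂ] L} (hy : h.IP y) (hy0 : y ≠ 0) (hz : h.swap.IP z) (hz0 : z ≠ 0)
    {a d : L →L[ℂ] L} (ha : Cr h.κ a) (hd : Cr h.π d) : a * d = d * a := by
  have k1 : ∀ y₁ y₂, h.IP y₁ → h.IP y₂ → a * (adjoint y₁ * y₂) = adjoint y₁ * y₂ * a := by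
    intro y₁ y₂ h₁ h₂
    have h3 : ∀ z₁, h.swap.IP z₁ →
        adjoint z₁ * (a * (adjoint y₁ * y₂) - adjoint y₁ * y₂ * a) = 0 := by
      intro z₁ g₁
      refine h.z1 hz.cr' hz0 fun p => ?_
      have h4 := key2 he hm h₁ h₂ g₁ (hz.left' (h.π_cr p)) ha
      rw [adj_mul', adj_mul', adj_mul', adj_adj'] at h4
      rw [mul_sub, sub_mul, sub_eq_zero]
      simp only [mul_assoc] at h4 ⊢
      exact h4
    have h5 : adjoint (a * (adjoint y₁ * y₂) - adjoint y₁ * y₂ * a) = 0 := by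
      refine h.z1 hz.cr' hz0 fun p => ?_
      have h6 := congrArg adjoint (h3 _ (hz.left' (h.π_cr p)))
      rwa [adj_mul', adj_adj', map_zero] at h6
    rw [← sub_eq_zero, ← adj_adj' (_ - _), h5, map_zero]
  have w0 : adjoint y * y ≠ 0 := adj_mul_self_ne hy0
  have wc : Cr h.π (adjoint y * y) := (hy.cr.adj h.uπ).mul hy.cr
  have e : ∀ q, adjoint (y * h.κ q⁻¹) * y = h.κ q * (adjoint y * y) := fun q => by
    rw [adj_mul', h.uκ, inv_inv, mul_assoc]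
  have k2 : ∀ y₁ y₂, h.IP y₁ → h.IP y₂ → adjoint y₁ * y₂ * (a * d - d * a) = 0 := by
    intro y₁ y₂ h₁ h₂
    refine h.z2 wc w0 fun q => ?_
    have h3 := hy.right q⁻¹
    rw [← e]
    generalize y * h.κ q⁻¹ = y₃ at h3
    have h4 := k1 y₁ _ h₁ (hy.left ((h₂.cr.mul hd).mul (h3.cr.adj h.uπ)))
    have h5 := k1 y₁ y₂ h₁ h₂
    have h6 := k1 y₃ y h3 hy
    calc adjoint y₁ * y₂ * (a * d - d * a) * (adjoint y₃ * y)
        = (adjoint y₁ * y₂ * a) * d * (adjoint y₃ * y) -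
          adjoint y₁ * y₂ * d * (a * (adjoint y₃ * y)) := by
          rw [mul_sub, sub_mul]; simp only [mul_assoc]
      _ = a * (adjoint y₁ * (y₂ * d * adjoint y₃ * y)) -
          adjoint y₁ * (y₂ * d * adjoint y₃ * y) * a := by
          rw [← h5, h6]; simp only [mul_assoc]
      _ = 0 := by rw [h4, sub_self]
  have h5 : adjoint (a * d - d * a) = 0 := by
    refine h.z2 wc w0 fun q => ?_
    have h6 := congrArg adjoint (k2 y _ hy (hy.right q⁻¹))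
    rwa [adj_mul', adj_mul', adj_adj', map_zero, e] at h6
  rw [← sub_eq_zero, ← adj_adj' (_ - _), h5, map_zero]

end Four

end Vale.Agent.P092PG
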