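import Vale.Agent.P092PG.Est

/-!
P092, product glue (helper24): the relation at the discrete places.
-/

set_option linter.all false

open scoped InnerProductSpace ENNReal
open Filter Topology ContinuousLinearMap MeasureTheory

namespace Vale.Agent.P092PG

open Vale.Agent.P092 Vale.Agent.P092.H678.OV Vale.Agent.P092.H333.Amp
open Vale.Agent.P092.VR (Ov IsRad gp jm inc inc_inj inc_cont inc_open jm_normal mem_jm)
open Vale.Agent.P092.SR.St (ICC)
open Vale.Agent.P092.H333.V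
open Vale.Agent.P092.QT.NE (ev pf_tri)
open Vale.Agent.P092.H560.Mx (neC_fam disc_quo inf_fam esc_fam)

variable {I : Type} [Fintype I] {M E : I → Type} [∀ i, Group (M i)]
  [∀ i, TopologicalSpace (M i)] [∀ i, Group (E i)] [∀ i, TopologicalSpace (E i)]
  {φ : ∀ i, M i →* E i} {r : I → ℕ} {R : ∀ i, Subgroup (E i)} [∀ i, (R i).Normal]
  {Γ : Subgroup (∀ i, E i)} {ℋ : Type} [NormedAddCommGroup ℋ] [InnerProductSpace ℂ ℋ]
  [CompleteSpace ℋ] {V A B : Γ →* (ℋ →L[ℂ] ℋ)}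

/-- the places modulo the radicals -/
abbrev pq (R : ∀ i, Subgroup (E i)) [∀ i, (R i).Normal] (Γ : Subgroup (∀ i, E i)) (i : I) :
    Γ →* E i ⧸ R i := (QuotientGroup.mk' (R i)).comp (ev Γ i)

/-- the discrete places -/
def Ds (Γ : Subgroup (∀ i, E i)) (i : I) : Prop := DiscreteTopology (Set.range (ev Γ i))

theorem ev_inj (g : Γ) (hg : ∀ i, ev Γ i g = 1) : g = 1 := Subtype.ext (funext hg)

theorem lat_ev (hl : H515.St.IsLattice Γ) : H515.St.IsLattice (MonoidHom.pi (ev Γ)).range := by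
  have e : (MonoidHom.pi (ev Γ)).range = Γ := by
    ext x
    exact ⟨fun ⟨g, hg⟩ => hg ▸ g.2, fun hx => ⟨⟨x, hx⟩, rfl⟩⟩
  rw [e]
  exact hl

theorem dense_pq {i : I} (hd : DenseRange (ev Γ i)) : DenseRange (pq R Γ i) :=
  (QuotientGroup.mk'_surjective (R i)).denseRange.comp hd QuotientGroup.continuous_mk

theorem cnt_lat (h : ∀ i, Ov (φ i) (r i)) (hl : H515.St.IsLattice Γ) : Countable Γ := by
  haveI b0 := fun i => (h i).top
  haveI b2 := fun i => Ov.sc (h i)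
  haveI := hl.disc
  exact H790.countable_of_discrete _

theorem neMix (h : ∀ i, Ov (φ i) (r i)) (hR : ∀ i, IsRad (φ i) (R i))
    (hl : H515.St.IsLattice Γ) (hicc : ICC Γ) {i : I} (hd : DenseRange (ev Γ i))
    [∀ i, MeasurableSpace (E i ⧸ R i)] [∀ i, BorelSpace (E i ⧸ R i)]
    (μ : ∀ i, Measure (E i ⧸ R i)) [∀ i, (μ i).IsHaarMeasure] (g₀ : GTri V A B) (g₁ : GTri A V B)
    (hE : ErgC (pq R Γ i) V A B) : ∃ j, ¬ Ds Γ j ∧ NeC (pq R Γ j) (pq R Γ i) V A B (μ j) := by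
  haveI b0 := fun i => (h i).top
  haveI b1 := fun i => Ov.lc (h i)
  haveI b2 := fun i => Ov.sc (h i)
  haveI b3 := fun i => Ov.t2 (h i)
  haveI c0 := fun i => tg_quo (h i) (hR i)
  haveI := fun i => (hR i).fin
  haveI := cnt_lat h hl
  obtain ⟨κ, _, ξ, hT⟩ := g₀
  obtain ⟨κ', _, ξ', hT'⟩ := g₁
  obtain ⟨j, hj⟩ := neC_fam h hR (ev Γ) ev_inj (lat_ev hl) hicc hT hT' i hd hE μ
  exact ⟨j, fun hdj => H710.Mix.not_neC hicc hT hT' (disc_quo (R j) (ev Γ j) hdj)
    (inf_fam h hR (ev Γ) (lat_ev hl) j) (dense_pq hd) hE (H710.Mix.ov_open (h i) (hR i)) hj, hj⟩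

/-- **The relation at a discrete place.** -/
theorem est (h : ∀ i, Ov (φ i) (r i)) (hR : ∀ i, IsRad (φ i) (R i))
    (hl : H515.St.IsLattice Γ) (hicc : ICC Γ) (hdd : ∀ i, ¬ Ds Γ i → DenseRange (ev Γ i))
    (hs : Sys0 V A B) (hE : ∀ i, DenseRange (ev Γ i) → ErgC (pq R Γ i) A V B) {c : I}
    (hc : Ds Γ c) : ∃ d, Ds Γ d ∧ RelX {x | ev Γ c x = 1 ∧ x ∈ (jm φ Γ).range} {y | ev Γ d y = 1}
      {n | ∀ i, i ≠ d → ev Γ i n = 1} V A B := by
  classical
  haveI a0 := fun i => (h i).qf.top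
  haveI a1 := fun i => (h i).qf.lc
  haveI a2 := fun i => (h i).qf.sc
  haveI a3 := fun i => (h i).qf.t2
  haveI b0 := fun i => (h i).top
  haveI b1 := fun i => Ov.lc (h i)
  haveI b2 := fun i => Ov.sc (h i)
  haveI b3 := fun i => Ov.t2 (h i)
  haveI c0 := fun i => tg_quo (h i) (hR i)
  haveI c1 := fun i => lc_quo (h i) (hR i)
  haveI c2 := fun i => sc_quo (h i) (hR i)
  haveI c3 := fun i => t2_quo (h i) (hR i)
  haveI := fun i => (hR i).fin
  letI : ∀ i, MeasurableSpace (E i ⧸ R i) := fun i => borel _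
  haveI : ∀ i, BorelSpace (E i ⧸ R i) := fun i => ⟨rfl⟩
  haveI : ∀ i, (Measure.haar : Measure (E i ⧸ R i)).IsMulRightInvariant := fun i =>
    rinv_quo (h i) (hR i) _
  letI : ∀ i, MeasurableSpace (M i) := fun i => borel _
  haveI : ∀ i, BorelSpace (M i) := fun i => ⟨rfl⟩
  haveI := cnt_lat h hl
  choose C hC using fun i => (h i).qf.chn
  have hΓ' : H515.IsLattice (gp φ Γ) := VR.lat_comap (inc φ) (inc_inj fun i => (h i).inj)
    (inc_cont fun i => (h i).cont) (inc_open fun i => (h i).opn) Γ ⟨hl.disc, hl.covol⟩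
  haveI := hΓ'.disc
  letI : MeasurableSpace ((∀ j, M j) ⧸ gp φ Γ) := borel _
  haveI : BorelSpace ((∀ j, M j) ⧸ gp φ Γ) := ⟨rfl⟩
  obtain ⟨ν, hν1, hν⟩ := H515.IsLattice.exists_prob (Λ := gp φ Γ) hΓ'
  haveI := hν1
  obtain ⟨κ, _, ξ, hT⟩ := hs.g₀
  obtain ⟨κ', _, ξ', hT'⟩ := hs.g₁
  obtain ⟨N, hN⟩ : ∃ N : ℕ, N = Fintype.card κ + Fintype.card κ' := ⟨_, rfl⟩
  have hcard : Fintype.card (Multiplicative (ZMod (N + 1))) = N + 1 := by
    rw [Fintype.card_multiplicative, ZMod.card]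
  have htr := fun v hv => H962.tr0 hicc hT hT' v hv
  obtain ⟨ω, hF, c₀, hc₀, hω⟩ := exists_frm (Q := Multiplicative (ZMod (N + 1))) hT htr
    (by rw [hcard, hN]; omega)
  obtain ⟨ω', hF', -⟩ := exists_frm (Q := Multiplicative (ZMod (N + 1))) hT'
    (H962.tr0 hicc hT' hT) (by rw [hcard, hN]; omega)
  obtain ⟨j, a, ha, a0⟩ := VR.ne_pre (fun i => (h i).inj) (fun i => (h i).cont) (fun i => (h i).fin)
    hν hT (pf_tri hT') htr hF hc₀ hω C (fun i => (h i).qf.pos) (fun i => (h i).qf.tgt)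
    (fun i => QC.MauU.of (h i).qf.hmg (hC i (h i).qf.pos)) (fun i => QuotientGroup.mk' (R i))
    (fun i => continuous_quotient_mk') (fun i => Measure.haar) c
  have hK : ∀ v ∈ (ev Γ c).ker ⊓ (jm φ Γ).range, ∀ x,
      a x * H333.Amp.amp (V v) = H333.Amp.amp (V v) * a x := by
    rintro _ ⟨h1, u, rfl⟩ x
    have h2 : ev (gp φ Γ) c u = 1 := (h c).inj (by
      rw [map_one]
      exact h1)
    have h3 : av _ V (jm φ Γ u) * a x * av _ V (jm φ Γ u⁻¹) - a x = 0 := by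
      refine norm_le_zero_iff.1 (le_of_forall_pos_le_add fun ε hε => ?_)
      obtain ⟨U, hU, h4⟩ := ha.acont ε hε
      rw [zero_add]
      exact h4 u (by rw [h2]; exact mem_of_mem_nhds hU) x
    rw [sub_eq_zero, map_inv (jm φ Γ)] at h3
    change a x * av _ V (jm φ Γ u) = av _ V (jm φ Γ u) * a x
    conv_lhs => rw [← h3, mul_assoc, rinv, mul_one]
  by_cases hj : Ds Γ j
  · refine ⟨j, hj, rel_disc hT.adjV hT.adj₁ hT.adj₂ hT.comm₁ hF ha.toFd ha.l2 a0
      { carrier := {n | ∀ i, i ≠ j → ev Γ i n = 1}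
        one_mem' := fun i _ => map_one _
        mul_mem' := fun hx hy i hi => by rw [map_mul, hx i hi, hy i hi, one_mul]
        inv_mem' := fun hx i hi => by rw [map_inv, hx i hi, inv_one] } hK
      (disc_quo (R j) (ev Γ j) hj) (fun n hn h1 => ?_) fun y hy => ⟨?_, fun n hn => ?_⟩⟩
    · refine VR.H978.inj_quo R (fun i => (hR i).fin) (ev Γ) ev_inj hicc n fun i => ?_
      by_cases hi : i = j
      · subst hi
        exact h1
      · change QuotientGroup.mk' (R i) (ev Γ i n) = 1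
        rw [hn i hi, map_one]
    · change QuotientGroup.mk' (R j) (ev Γ j y) = 1
      rw [hy, map_one]
    · refine Subtype.ext (funext fun i => ?_)
      change ev Γ i y * ev Γ i n = ev Γ i n * ev Γ i y
      by_cases hi : i = j
      · subst hi
        rw [hy, one_mul, mul_one]
      · rw [hn i hi, one_mul, mul_one]
  · exfalso
    have dj := hdd j hj
    obtain ⟨k, hk, hn⟩ := neMix h hR hl hicc dj (fun i => Measure.haar) hs.g₁ hs.g₀ (hE j dj)
    obtain ⟨w, w1, w2⟩ := esc_fam h hR (ev Γ) (lat_ev hl) k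
    obtain ⟨U, hU, hU'⟩ := H35.Mx.nhd_of_disc (S := Set.range (pq R Γ c)) ⟨1, map_one _⟩
      (disc_quo (R c) (ev Γ c) hc)
    haveI := fun i => (h i).fin
    haveI := fun i => (h i).normal
    haveI : ∀ i, Finite (E i ⧸ (φ i).range) := fun i => Subgroup.finite_quotient_of_finiteIndex
    obtain ⟨w', h1, h2⟩ := esc_sub (pq R Γ k)
      (fun g => (ev Γ c g, fun i => (ev Γ i g : E i ⧸ (φ i).range)))
      ((Set.toFinite (R c : Set (E c))).prod Set.finite_univ) (w := w)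
      ((w1 c fun e => hk (e ▸ hc)).eventually hU |>.mono fun n hn =>
        ⟨(QuotientGroup.eq_one_iff _).1 (hU' _ ⟨w n, rfl⟩ hn), trivial⟩) w2
    haveI := jm_normal (Γ := Γ) fun i => (h i).normal
    refine a0 (no_dense hF hF' hs.irr ha.toFd ha.l2 _ hK (dense_pq dj) (dense_pq (hdd k hk))
      (hE j dj) hn (w := w') (fun n => ?_) h2)
    obtain ⟨x, y, e, e'⟩ := h1 n
    rw [e']
    refine ⟨?_, mem_jm.2 fun i => ?_⟩
    · change ev Γ c (x⁻¹ * y) = 1
      rw [map_mul, map_inv, inv_mul_eq_one]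
      exact congrArg Prod.fst e
    · rw [map_mul, map_inv]
      exact QuotientGroup.eq.1 (congrFun (congrArg Prod.snd e) i)

end Vale.Agent.P092PG
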