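import Vale.Agent.P092PG.Top
import Vale.Agent.P092.H962.MultiT

/-!
P092, product glue (helper24): symmetric systems; the abstract theorem in the letters of the group.
-/

set_option linter.all false

open scoped InnerProductSpace ENNReal
open Filter Topology ContinuousLinearMap

namespace Vale.Agent.P092PG

open Vale.Agent.P092.H678.OV
open Vale.Agent.P092.H962 (AU)
open Vale.Agent.P092.H962.Eq (adj_mul' adj_adj')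
open Vale.Agent.P092.H421.Hs (enn_congr)

variable {ℋ : Type} [NormedAddCommGroup ℋ] [InnerProductSpace ℂ ℋ] [CompleteSpace ℋ]
  {Γ C : Type} [Group Γ] {V A B X Y Z X' Y' Z' : Γ →* (ℋ →L[ℂ] ℋ)}

/-- the two triples are intertwined -/
def Tw (X Y Z X' Y' Z' : Γ →* (ℋ →L[ℂ] ℋ)) : Prop :=
  ∃ (σ : ℂ → ℂ) (U U' : ℋ → ℋ), AU σ U U' ∧ (∀ g v, U (X g v) = X' g (U v)) ∧
    (∀ g v, U (Y g v) = Y' g (U v)) ∧ ∀ g v, U (Z g v) = Z' g (U v)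

/-- a symmetric triple -/
structure Sy (V A B : Γ →* (ℋ →L[ℂ] ℋ)) : Prop where
  s : Tw V A B V B A
  t : Tw V A B B A V

theorem Sy.all (h : Sy V A B)
    (P : (Γ →* (ℋ →L[ℂ] ℋ)) → (Γ →* (ℋ →L[ℂ] ℋ)) → (Γ →* (ℋ →L[ℂ] ℋ)) → Prop)
    (hP : ∀ X Y Z X' Y' Z', Tw X Y Z X' Y' Z' → P X Y Z → P X' Y' Z') (h0 : P V A B) :
    P V B A ∧ P A V B ∧ P A B V ∧ P B V A ∧ P B A V := by
  obtain ⟨σ, U, U', u, u1, u2, u3⟩ := h.s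
  obtain ⟨τ, W, W', w, w1, w2, w3⟩ := h.t
  have h1 : P V B A := hP _ _ _ _ _ _ ⟨σ, U, U', u, u1, u2, u3⟩ h0
  have h2 : P B A V := hP _ _ _ _ _ _ ⟨τ, W, W', w, w1, w2, w3⟩ h0
  have h3 : P B V A := hP _ _ _ _ _ _ ⟨τ, W, W', w, w1, w3, w2⟩ h1
  exact ⟨h1, hP _ _ _ _ _ _ ⟨σ, U, U', u, u3, u1, u2⟩ h3,
    hP _ _ _ _ _ _ ⟨σ, U, U', u, u3, u2, u1⟩ h2, h3, h2⟩

/-- a nonzero operator fixed by `X` on `P`, by `Y` on `Q`, by `Z`, square integrable along `D` -/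
def RelX (P Q D : Set Γ) (X Y Z : Γ →* (ℋ →L[ℂ] ℋ)) : Prop :=
  ∃ f : ℋ →L[ℂ] ℋ, f ≠ 0 ∧ (∀ x ∈ P, f * X x = X x * f) ∧ (∀ y ∈ Q, f * Y y = Y y * f) ∧
    Cr Z f ∧ IB (fun t : D => Y t) f

theorem RelX.tw {P Q D : Set Γ} (t : Tw X Y Z X' Y' Z') (h : RelX P Q D X Y Z) :
    RelX P Q D X' Y' Z' := by
  obtain ⟨σ, U, U', u, u1, u2, u3⟩ := t
  obtain ⟨f, f0, f1, f2, f3, N, hN, f4⟩ := h
  refine ⟨u.cj f, u.cj_ne f0, fun x hx => u.cj_comm (u1 x) (f1 x hx),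
    fun x hx => u.cj_comm (u2 x) (f2 x hx), fun x => u.cj_comm (u3 x) (f3 x), N, hN, fun η => ?_⟩
  have h1 := f4 (U' η)
  rw [enn_congr (u.norm' η)] at h1
  refine le_of_eq_of_le (tsum_congr fun t => ?_) h1
  rw [u.cj_apply, u.inter_symm u2, enn_congr (u.norm _)]

/-- a commuting family with square integrable members, in the letters of the group -/
structure CalD (K D : Set Γ) (V A B : Γ →* (ℋ →L[ℂ] ℋ)) (𝒞 : Set (ℋ →L[ℂ] ℋ)) : Prop where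
  sa : ∀ T ∈ 𝒞, adjoint T = T
  com : ∀ T ∈ 𝒞, ∀ T' ∈ 𝒞, T * T' = T' * T
  mul : ∀ T ∈ 𝒞, ∀ T' ∈ 𝒞, T * T' ∈ 𝒞
  cV : ∀ g, ∀ T ∈ 𝒞, V g⁻¹ * T * V g ∈ 𝒞
  cA : ∀ g, ∀ T ∈ 𝒞, A g⁻¹ * T * A g ∈ 𝒞
  cB : ∀ g, ∀ T ∈ 𝒞, B g⁻¹ * T * B g ∈ 𝒞
  kV : ∀ T ∈ 𝒞, ∀ x ∈ K, T * V x = V x * T
  kA : ∀ T ∈ 𝒞, ∀ x ∈ K, T * A x = A x * T
  kB : ∀ T ∈ 𝒞, ∀ x ∈ K, T * B x = B x * T
  nA : ∀ v, v ≠ 0 → ∃ T ∈ 𝒞, IB (fun t : D => A t) T ∧ Cr B T ∧ T v ≠ 0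
  nB : ∀ v, v ≠ 0 → ∃ T ∈ 𝒞, IB (fun t : D => B t) T ∧ Cr A T ∧ T v ≠ 0

theorem CalD.rel [Nontrivial ℋ] {K D : Set Γ} {𝒞 : Set (ℋ →L[ℂ] ℋ)} (h : CalD K D V A B 𝒞) :
    RelX K K D V A B := by
  obtain ⟨v, hv⟩ := _root_.exists_ne (0 : ℋ)
  obtain ⟨T, hT, h1, h2, h3⟩ := h.nA v hv
  exact ⟨T, fun h0 => h3 (by rw [h0]; rfl), h.kV T hT, h.kA T hT, h2, h1⟩

section res

variable {ρ : (Fin 3 → Γ) →* (ℋ →L[ℂ] ℋ)} {Γ₀ : Subgroup Γ} {S : Set C → Subgroup Γ₀}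
  {T : Set C → Set Γ}

theorem ib_res (hT : ∀ A, ∀ x ∈ S A, (x : Γ) ∈ T A) {A : Set C} {a : Fin 3} {f : ℋ →L[ℂ] ℋ}
    (hf : IB (fun t : T A => Vl ρ a t) f) : IB (rs (S A) (Vl (res3 ρ Γ₀) a)) f := by
  rw [Vl_res3]
  refine hf.comp (fun s => ⟨(s.1 : Γ), hT A _ s.2⟩) (fun s t e => ?_) fun s => rfl
  exact Subtype.ext (Subtype.ext (congrArg (fun x : T A => (x : Γ)) e))

theorem rel_of (h : Dec S) (hT : ∀ A, ∀ x ∈ S A, (x : Γ) ∈ T A) {a b e : Fin 3} {c d : C}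
    (hx : ∀ x, x = a ∨ x = b ∨ x = e)
    (hr : RelX (T {c}ᶜ) (T {d}ᶜ) (T {d}) (Vl ρ a) (Vl ρ b) (Vl ρ e)) :
    Rel (S3 S) (res3 ρ Γ₀) (a, c) (b, d) := by
  obtain ⟨f, f0, f1, f2, f3, f4⟩ := hr
  refine ⟨f, f0, cr_of_legs fun x y hy => ?_, ?_⟩
  · rw [Vl_res3]
    rcases hx x with rfl | rfl | rfl
    · refine f1 _ (hT _ _ (h.mono ?_ hy))
      rintro c' hc' rfl
      exact hc' (Or.inl rfl)
    · refine f2 _ (hT _ _ (h.mono ?_ hy))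
      rintro c' hc' rfl
      exact hc' (Or.inr rfl)
    · exact f3 _
  · rw [← lg_single]
    exact ib_leg h (ib_res hT f4)

theorem rr_of (h : Dec S) (hT : ∀ A, ∀ x ∈ S A, (x : Γ) ∈ T A)
    (sy : Sy (Vl ρ 0) (Vl ρ 1) (Vl ρ 2)) {c d : C}
    (hr : RelX (T {c}ᶜ) (T {d}ᶜ) (T {d}) (Vl ρ 0) (Vl ρ 1) (Vl ρ 2)) :
    RR (S3 S) (res3 ρ Γ₀) c d := by
  obtain ⟨h1, h2, h3, h4, h5⟩ := sy.all (RelX (T {c}ᶜ) (T {d}ᶜ) (T {d}))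
    (fun _ _ _ _ _ _ t h => h.tw t) hr
  intro a b hab
  fin_cases a <;> fin_cases b
  · exact absurd rfl hab
  · exact rel_of h hT (by decide) hr
  · exact rel_of h hT (by decide) h1
  · exact rel_of h hT (by decide) h2
  · exact absurd rfl hab
  · exact rel_of h hT (by decide) h3
  · exact rel_of h hT (by decide) h4
  · exact rel_of h hT (by decide) h5
  · exact absurd rfl hab

theorem atd_of (h : Dec S) (hT : ∀ A, ∀ x ∈ S A, (x : Γ) ∈ T A) {c : C}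
    {𝒞 : Set (ℋ →L[ℂ] ℋ)} (hc : CalD (T {c}ᶜ) (T {c}) (Vl ρ 0) (Vl ρ 1) (Vl ρ 2) 𝒞) :
    AtD ρ (res3 ρ Γ₀) (S3 S (col {c})ᶜ) (S3 S (col {c} ∩ leg C 0)) 𝒞 := by
  refine ⟨hc.sa, hc.com, fun ω U hU => ?_, fun U hU => cr_of_legs fun a y hy => ?_, fun v hv => ?_⟩
  · have h1 := hc.cB (ω 2) _ (hc.cA (ω 1) _ (hc.cV (ω 0) _ hU))
    have e1 : ρ ω = Vl ρ 0 (ω 0) * Vl ρ 1 (ω 1) * Vl ρ 2 (ω 2) := by
      conv_lhs => rw [io_prod ω]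
      rw [map_mul, map_mul]
      rfl
    have e2 : ρ ω⁻¹ = Vl ρ 2 (ω 2)⁻¹ * (Vl ρ 1 (ω 1)⁻¹ * Vl ρ 0 (ω 0)⁻¹) := by
      conv_lhs => rw [io_prod ω]
      rw [mul_inv_rev, mul_inv_rev, map_mul, map_mul, ← map_inv, ← map_inv, ← map_inv]
      rfl
    rw [e2, e1]
    simp only [mul_assoc] at h1 ⊢
    exact h1
  · rw [Vl_res3]
    have h1 := hT _ _ hy
    fin_cases a
    · exact hc.kV U hU _ h1
    · exact hc.kA U hU _ h1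
    · exact hc.kB U hU _ h1
  · obtain ⟨T₂, m2, i2, c2, n2⟩ := hc.nB v hv
    obtain ⟨T₁, m1, i1, -, n1⟩ := hc.nA _ n2
    refine ⟨T₁ * T₂, hc.mul _ m1 _ m2, ?_, n1⟩
    rw [col_leg (a := 1) (b := 2) (by decide) (by decide) (by decide)]
    refine h.three.ib_union (ib_leg h (ib_res hT i1)) (ib_leg h (ib_res hT i2))
      (cr_of_legs fun a y hy => ?_)
    by_cases ha : a = 1
    · rw [ha, Vl_res3]
      exact c2 _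
    · have h1 : y ∈ S ∅ := h.mono (fun c hc => ha hc.1) hy
      rw [h.inj (Set.disjoint_empty ∅) _ h1 h1, map_one, mul_one, one_mul]

end res

/-- **The product theorem for a symmetric system.** -/
theorem over_mid [Finite C] (hs : Sys0 V A B) (sy : Sy V A B) (Γ₀ : Subgroup Γ) [Γ₀.FiniteIndex]
    {S : Set C → Subgroup Γ₀} (h : Dec S)
    (hn : ∀ (γ : Γ) A, ∀ s ∈ S A, ∃ s' ∈ S A, (s' : Γ) = γ * s * γ⁻¹) {T : Set C → Set Γ}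
    (hT : ∀ A, ∀ x ∈ S A, (x : Γ) ∈ T A) (J : Set C)
    (hE : ∀ c ∈ J, ∃ d ∈ J, RelX (T {c}ᶜ) (T {d}ᶜ) (T {d}) V A B)
    (hB : ∀ c, c ∉ J → ∃ 𝒞, CalD (T {c}ᶜ) (T {c}) V A B 𝒞)
    (hJ : ∀ c ∈ J, Infinite (S {c}) ∧ Icc (S {c}) ∧ ∀ (K : Type) [NormedAddCommGroup K]
      [InnerProductSpace ℂ K] [CompleteSpace K] (V R₁ R₂ : S {c} →* (K →L[ℂ] K)), Sys V R₁ R₂ →
      OverV V R₁ R₂) : OverV V A B := by
  obtain ⟨κ, _, ξ, hξ⟩ := hs.g₀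
  haveI : Nontrivial ℋ := by
    obtain ⟨k, hk⟩ := hξ.ne
    exact ⟨⟨ξ k, 0, hk⟩⟩
  obtain ⟨ρ, hρ⟩ : ∃ ρ : (Fin 3 → Γ) →* (ℋ →L[ℂ] ℋ), ∀ g, ρ g = V (g 0) * (A (g 1) * B (g 2)) :=
    ⟨(rho3 hξ.comm₁ hξ.comm₂ hξ.comm₁₂).comp ((Pi.evalMonoidHom (fun _ => Γ) 0).prod
      ((Pi.evalMonoidHom (fun _ => Γ) 1).prod (Pi.evalMonoidHom (fun _ => Γ) 2))), fun g => rfl⟩
  have u : Un ρ := fun g => by
    rw [hρ, hρ, adj_mul', adj_mul', hξ.adjV, hξ.adj₁, hξ.adj₂, ← hξ.comm₁₂, mul_assoc, ← hξ.comm₂,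
      ← mul_assoc, ← hξ.comm₁, mul_assoc]
    rfl
  have e0 : Vl ρ 0 = V := MonoidHom.ext fun x => by
    change ρ (io Γ 0 x) = _
    rw [hρ, io_self, io_ne (by decide), io_ne (by decide), map_one, map_one, mul_one, mul_one]
  have e1 : Vl ρ 1 = A := MonoidHom.ext fun x => by
    change ρ (io Γ 1 x) = _
    rw [hρ, io_self, io_ne (by decide), io_ne (by decide), map_one, map_one, mul_one, one_mul]
  have e2 : Vl ρ 2 = B := MonoidHom.ext fun x => by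
    change ρ (io Γ 2 x) = _
    rw [hρ, io_self, io_ne (by decide), io_ne (by decide), map_one, map_one, one_mul, one_mul]
  subst e0 e1 e2
  refine over_top u hs Γ₀ h hn J (fun c hc => (hE c hc).imp fun d hd => ⟨hd.1, rr_of h hT sy hd.2⟩)
    (fun c hc => ?_) hJ
  obtain ⟨𝒞, h𝒞⟩ := hB c hc
  exact ⟨rr_of h hT sy h𝒞.rel, 𝒞, atd_of h hT h𝒞⟩

end Vale.Agent.P092PG
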