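import Vale.Agent.P092PG.Atom

/-!
P092, product glue (helper24): the abstract theorem. A system of three representations of a group
with a subgroup of finite index which is a product; overlap for the factors gives overlap.
-/

set_option linter.all false

open scoped InnerProductSpace ENNReal
open Filter Topology ContinuousLinearMap

namespace Vale.Agent.P092PG

open Vale.Agent.P092.H421.Hs (Pf Frq trq pf_of_hasSum)
open Vale.Agent.P092.H678.OV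
open Vale.Agent.P092EN (prd prd_apply prd_adj)

variable {ℋ : Type} [NormedAddCommGroup ℋ] [InnerProductSpace ℂ ℋ] [CompleteSpace ℋ]
  {Γ C : Type} [Group Γ]

theorem fm_of_gtri {S : Set C → Subgroup Γ} (h : Dec S) {τ : (Fin 3 → Γ) →* (ℋ →L[ℂ] ℋ)}
    {e a b : Fin 3} (ab : a ≠ b) (ae : a ≠ e) (be : b ≠ e) (hx : ∀ x, x ≠ e → x = a ∨ x = b)
    (hg : GTri (Vl τ e) (Vl τ a) (Vl τ b)) : FM (rs (S3 S (leg C e)) τ) := by
  obtain ⟨κ, _, ξ, hξ⟩ := hg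
  have h1 : Frq (prd (Vl τ a) (Vl τ b) hξ.comm₁₂) ξ := pf_of_hasSum hξ.frame
  obtain ⟨φ, hφ⟩ : ∃ φ : S Set.univ ≃ Γ, ∀ x, φ x = x :=
    ⟨Equiv.subtypeUnivEquiv h.top, fun _ => rfl⟩
  have h2 := (frq_pair h ab (A := Set.univ) (B := Set.univ) (σ := τ)).2
    (Frq.of_equiv h1 (φ.prodCongr φ) fun p => by
      change Vl τ a (φ p.1) * Vl τ b (φ p.2) = _
      rw [hφ, hφ]
      rfl)
  rw [← col_leg ae be hx] at h2
  have e1 : col Set.univ ∩ leg C e = leg C e := Set.univ_inter _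
  rw [e1] at h2
  refine ⟨κ, ξ, h2, ?_⟩
  rw [trq, tsum_fintype]
  exact ENNReal.sum_lt_top.2 fun k _ => (esq_ne _).lt_top

/-- the restriction to the triples of a subgroup -/
noncomputable def res3 (ρ : (Fin 3 → Γ) →* (ℋ →L[ℂ] ℋ)) (Γ₀ : Subgroup Γ) :
    (Fin 3 → Γ₀) →* (ℋ →L[ℂ] ℋ) := ρ.comp (Γ₀.subtype.compLeft (Fin 3))

theorem res3_apply (ρ : (Fin 3 → Γ) →* (ℋ →L[ℂ] ℋ)) (Γ₀ : Subgroup Γ) (g : Fin 3 → Γ₀) :
    res3 ρ Γ₀ g = ρ fun a => g a := rfl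

theorem Vl_res3 (ρ : (Fin 3 → Γ) →* (ℋ →L[ℂ] ℋ)) (Γ₀ : Subgroup Γ) (a : Fin 3) :
    Vl (res3 ρ Γ₀) a = rs Γ₀ (Vl ρ a) := by
  refine MonoidHom.ext fun x => ?_
  change ρ (fun b => (io Γ₀ a x b : Γ)) = ρ (io Γ a x)
  refine congrArg ρ (funext fun b => ?_)
  by_cases hb : b = a
  · subst hb
    rw [io_self, io_self]
  · rw [io_ne hb, io_ne hb]
    rfl

theorem nz_res3 {ρ : (Fin 3 → Γ) →* (ℋ →L[ℂ] ℋ)} {Γ₀ : Subgroup Γ} {S : Set C → Subgroup Γ₀}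
    (hn : ∀ (γ : Γ) A, ∀ s ∈ S A, ∃ s' ∈ S A, (s' : Γ) = γ * s * γ⁻¹) (ω : Fin 3 → Γ)
    (B : Set (Fin 3 × C)) : Nz (rs (S3 S B) (res3 ρ Γ₀)) (ρ ω) := by
  choose θ h1 h2 using hn
  refine ⟨fun s => ⟨fun a => θ (ω a) _ (s.1 a) (s.2 a), fun a => h1 _ _ _ _⟩, fun s t e => ?_,
    fun s => ?_⟩
  · refine Subtype.ext (funext fun a => Subtype.ext ?_)
    have h3 : (θ (ω a) _ (s.1 a) (s.2 a) : Γ) = θ (ω a) _ (t.1 a) (t.2 a) :=
      congrArg (fun g : S3 S B => (g.1 a : Γ)) e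
    rw [h2, h2] at h3
    exact mul_left_cancel (mul_right_cancel h3)
  · change ρ ω * ρ (fun a => (s.1 a : Γ)) = ρ (fun a => (θ (ω a) _ (s.1 a) (s.2 a) : Γ)) * ρ ω
    rw [← map_mul, ← map_mul]
    refine congrArg ρ (funext fun a => ?_)
    change ω a * s.1 a = θ (ω a) _ (s.1 a) (s.2 a) * ω a
    rw [h2, inv_mul_cancel_right]

/-- **The abstract product theorem.** -/
theorem over_top [Finite C] [Nontrivial ℋ] {ρ : (Fin 3 → Γ) →* (ℋ →L[ℂ] ℋ)} (hρ : Un ρ)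
    (hs : Sys0 (Vl ρ 0) (Vl ρ 1) (Vl ρ 2)) (Γ₀ : Subgroup Γ) [Γ₀.FiniteIndex]
    {S : Set C → Subgroup Γ₀} (h : Dec S)
    (hn : ∀ (γ : Γ) A, ∀ s ∈ S A, ∃ s' ∈ S A, (s' : Γ) = γ * s * γ⁻¹) (J : Set C)
    (hE : ∀ c ∈ J, ∃ d ∈ J, RR (S3 S) (res3 ρ Γ₀) c d)
    (hB : ∀ c, c ∉ J → RR (S3 S) (res3 ρ Γ₀) c c ∧ ∃ 𝒞, AtD ρ (res3 ρ Γ₀) (S3 S (col {c})ᶜ)
      (S3 S (col {c} ∩ leg C 0)) 𝒞)
    (hJ : ∀ c ∈ J, Infinite (S {c}) ∧ Icc (S {c}) ∧ ∀ (K : Type) [NormedAddCommGroup K]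
      [InnerProductSpace ℂ K] [CompleteSpace K] (V R₁ R₂ : S {c} →* (K →L[ℂ] K)), Sys V R₁ R₂ →
      OverV V R₁ R₂) : OverV (Vl ρ 0) (Vl ρ 1) (Vl ρ 2) := by
  have hi : Irr ρ := fun A hA => hs.irr A (fun _ => hA _) (fun _ => hA _) fun _ => hA _
  obtain ⟨M, hM⟩ : ∃ M : Subgroup (Fin 3 → Γ), M = Subgroup.pi Set.univ fun _ => Γ₀ := ⟨_, rfl⟩
  haveI : M.FiniteIndex := ⟨by
    rw [hM, Subgroup.index_pi]
    exact Finset.prod_ne_zero_iff.2 fun _ _ => Subgroup.FiniteIndex.index_ne_zero⟩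
  haveI : Finite ((Fin 3 → Γ) ⧸ M) := Subgroup.finite_quotient_of_finiteIndex
  letI : Fintype ((Fin 3 → Γ) ⧸ M) := Fintype.ofFinite _
  obtain ⟨p, hp, hsc⟩ := exists_cut (M := M) hρ hi
  obtain ⟨L, _, _, _, _, W, w1, w2⟩ := exists_W hp.adj hp.sq hp.ne
  have hτ : Un (res3 ρ Γ₀) := hρ.comp _
  have hW : Iso W (res3 ρ Γ₀) := ⟨w1, fun g v => by
    rw [w2, w2]
    exact cap (hp.cc _ ⟨fun a => g a, by rw [hM]; exact fun a _ => (g a).2, rfl⟩) v⟩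
  have hσ : Un (cmp hW) := cmp_adj hW hτ
  have hiσ : Irr (cmp hW) := fun A hA => by
    obtain ⟨z, hz⟩ := hsc (W ∘L (A ∘L adjoint W)) (by
      rintro _ ⟨m, hm, rfl⟩
      rw [hM] at hm
      exact cr_up hW ⊤ (fun s => hA s) ⟨fun a => ⟨m a, hm a trivial⟩, trivial⟩)
    refine ⟨z, ContinuousLinearMap.ext fun v => ?_⟩
    have h1 : p (W (A (adjoint W (p (W v))))) = z • p (W v) := ap hz _
    have h2 : ∀ v, p (W v) = W v := fun v => by rw [← w2, w1]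
    rw [h2, h2, w1] at h1
    have h3 := congrArg (adjoint W) h1
    rwa [map_smul, w1, w1] at h3
  have g0 : GTri (Vl (res3 ρ Γ₀) 0) (Vl (res3 ρ Γ₀) 1) (Vl (res3 ρ Γ₀) 2) := by
    rw [Vl_res3, Vl_res3, Vl_res3]
    exact gtri_res Γ₀ hs.g₀
  have fm : ∀ e, FM (rs (S3 S (leg C e)) (res3 ρ Γ₀)) := fun e => by
    fin_cases e
    · exact fm_of_gtri h (by decide) (by decide) (by decide) (by decide) g0
    · refine fm_of_gtri h (e := 1) (a := 0) (b := 2) (by decide) (by decide) (by decide)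
        (by decide) ?_
      rw [Vl_res3, Vl_res3, Vl_res3]
      exact gtri_res Γ₀ hs.g₁
    · refine fm_of_gtri h (e := 2) (a := 0) (b := 1) (by decide) (by decide) (by decide)
        (by decide) ?_
      rw [Vl_res3, Vl_res3, Vl_res3]
      exact gtri_res Γ₀ hs.g₂
  have fmL := fun e => fm_down hW _ (fm e)
  have dn : ∀ {c d}, RR (S3 S) (res3 ρ Γ₀) c d → RR (S3 S) (cmp hW) c d := fun hcd a b hab =>
    rel_down hρ hi hτ hW (nz_res3 hn) (hcd a b hab)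
  have hc : ∀ c, RR (S3 S) (cmp hW) c c := fun c => by
    by_cases hcJ : c ∈ J
    · refine mat h.three hσ hiσ (fmL 0) (J := J)
        (fun c hc => (hE c hc).imp fun d hd => ⟨hd.1, dn hd.2⟩) (fun c hc => ?_) c hcJ
      haveI := (hJ c hc).1
      obtain ⟨φ, -⟩ := lg_eqv h 0 {c}
      rw [← lg_single]
      exact Infinite.of_injective φ φ.injective
    · exact dn (hB c hcJ).1
  have iV : ∀ a, Iso W (rs Γ₀ (Vl ρ a)) := fun a => by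
    rw [← Vl_res3]
    exact ⟨w1, fun g v => hW.cm _ v⟩
  have eV : ∀ a, cmp (iV a) = Vl (cmp hW) a := fun a => MonoidHom.ext fun x => by
    change adjoint W ∘L (rs Γ₀ (Vl ρ a) x ∘L W) = _
    rw [← Vl_res3]
    rfl
  have uV : ∀ a, Un (Vl ρ a) := fun a => hρ.comp _
  refine over_up Γ₀ (uV 0) (hV := iV 0) (h₁ := iV 1) (h₂ := iV 2) ?_
  rw [eV, eV, eV]
  refine over_L h hσ hiσ (fmL 0) hc fun c g ξ hg hξ h1 => ?_
  by_cases hcJ : c ∈ J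
  · obtain ⟨_, j2, j3⟩ := hJ c hcJ
    have hq : ∀ b : Fin 3, 0 ≠ b → Msq (Vl ρ 0) (Vl ρ b) →
        Hsq (rs (S {c}) (Vl (cmp hW) 0)) (rs (S {c}) (Vl (cmp hW) b)) := by
      intro b hb hm
      have m1 := msq_res Γ₀ (uV b) (Vl_comm hb) hm
      rw [← Vl_res3, ← Vl_res3] at m1
      have m2 := msq_res (S {c}) (Un.comp hτ (io Γ₀ b)) (Vl_comm hb) m1
      have iK : ∀ a, Iso W (rs (S {c}) (Vl (res3 ρ Γ₀) a)) := fun a => ⟨w1, fun g v => hW.cm _ v⟩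
      have uK : ∀ a, Un (rs (S {c}) (Vl (res3 ρ Γ₀) a)) := fun a => (hτ.comp _).comp _
      obtain ⟨Q, e, he, -⟩ := id m2
      exact hsq_cmp (iK 0) (iK b) (uK b) ⟨Q, e, he⟩
        (hsq_of (uK 0) (uK b) (fun x y => Vl_comm (σ := res3 ρ Γ₀) hb x y) m2)
    exact ovs_of_stmt h hσ hiσ fmL hc (basis_cmp hW hs.basis) j2 (hq 1 (by decide) hs.m₁)
      (hq 2 (by decide) hs.m₂) j3 hg hξ h1
  · obtain ⟨-, 𝒞, hA⟩ := hB c hcJ
    exact ovs_of_atd h hρ hi hτ (fun g => ⟨_, rfl⟩) hW (fm 0) g0 hA hg hξ h1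

end Vale.Agent.P092PG
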